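import Vale.Agent.P028.NumberLemmas

/-!
The tail of the downward probability: large divisors `d` of `N` have total weight
`φ(N) / (N φ(d))` at most `exp (-log Z / log log N)`, by Rankin's trick.
-/

noncomputable section

namespace Vale.Agent.P028.T2

open Finset Real

/-- The scale `max 4 (log log N)` of Rankin's trick. -/
def tailScale (N : ℕ) : ℝ := max 4 (log (log N))

/-- The twisted divisor sum `φ(N)/N · ∑_{d ∣ N} d ^ η / φ(d)`. -/
def tailSum (η : ℝ) (N : ℕ) : ℝ :=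
  (N.totient : ℝ) / N * ∑ d ∈ N.divisors, (d : ℝ) ^ η / d.totient

/-- The local factor bounding the twisted divisor sum. -/
def tailFac (η : ℝ) (p : ℕ) : ℝ :=
  1 + ((p : ℝ) ^ η - 1) / p + 3 * (p : ℝ) ^ (-(3 : ℝ) / 2)

theorem tailSum_mul {η : ℝ} {a b : ℕ} (hab : Nat.Coprime a b) :
    tailSum η (a * b) = tailSum η a * tailSum η b := by
  unfold tailSum
  have hdiv : ∑ d ∈ (a * b).divisors, (d : ℝ) ^ η / d.totient =
      (∑ d ∈ a.divisors, (d : ℝ) ^ η / d.totient) * ∑ d ∈ b.divisors, (d : ℝ) ^ η / d.totient := by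
    let f : ArithmeticFunction ℝ := ⟨fun d => (d : ℝ) ^ η / d.totient, by simp⟩
    have hf : f.IsMultiplicative := by
      refine ⟨by simp [f], fun {m n} hmn => ?_⟩
      simp only [f, ArithmeticFunction.coe_mk]
      rw [Nat.totient_mul hmn, Nat.cast_mul, Nat.cast_mul,
        Real.mul_rpow (Nat.cast_nonneg _) (Nat.cast_nonneg _), mul_div_mul_comm]
    have h := (hf.mul (ArithmeticFunction.isMultiplicative_zeta.natCast)).map_mul_of_coprime hab
    rw [ArithmeticFunction.coe_mul_zeta_apply, ArithmeticFunction.coe_mul_zeta_apply,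
      ArithmeticFunction.coe_mul_zeta_apply] at h
    exact h
  rw [hdiv, Nat.totient_mul hab]
  push_cast
  rw [mul_div_mul_comm]
  ring

theorem tailSum_nonneg (η : ℝ) (N : ℕ) : 0 ≤ tailSum η N := by
  unfold tailSum; positivity

theorem geom_le {r : ℝ} (hr : 0 ≤ r) (hr1 : r ≤ 2 / 3) (a : ℕ) :
    ∑ j ∈ Finset.range a, r ^ (j + 1) ≤ r + 3 * r ^ 2 := by
  have h : (1 - r) * ∑ j ∈ Finset.range a, r ^ (j + 1) = r - r ^ (a + 1) := by
    induction a with
    | zero => simp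
    | succ a ih => rw [Finset.sum_range_succ, mul_add, ih]; ring
  have h0 : 0 ≤ r ^ (a + 1) := pow_nonneg hr _
  have h1 : r ≤ (1 - r) * (r + 3 * r ^ 2) := by
    nlinarith [mul_nonneg (sq_nonneg r) (sub_nonneg.2 hr1)]
  have : (1 - r) * ∑ j ∈ Finset.range a, r ^ (j + 1) ≤ (1 - r) * (r + 3 * r ^ 2) := by linarith
  exact le_of_mul_le_mul_left this (by linarith)

theorem prime_rpow_le {p : ℕ} (hp : 2 ≤ p) {η : ℝ} (hη : η ≤ 1 / 4) :
    (p : ℝ) ^ (η - 1) ≤ 2 / 3 ∧ ((p : ℝ) ^ (η - 1)) ^ 2 ≤ (p : ℝ) ^ (-(3 : ℝ) / 2) := by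
  have h2 : (2 : ℝ) ≤ p := by exact_mod_cast hp
  have h34 : (p : ℝ) ^ (η - 1) ≤ (p : ℝ) ^ (-(3 : ℝ) / 4) :=
    Real.rpow_le_rpow_of_exponent_le (by linarith) (by linarith)
  refine ⟨h34.trans ?_, ?_⟩
  · refine (Real.rpow_le_rpow_of_nonpos (by norm_num) h2 (by norm_num)).trans ?_
    have hx : 0 ≤ (2 : ℝ) ^ (-(3 : ℝ) / 4) := by positivity
    have h4 : ((2 : ℝ) ^ (-(3 : ℝ) / 4)) ^ 4 ≤ (2 / 3) ^ 4 := by
      rw [← Real.rpow_natCast, ← Real.rpow_mul (by norm_num)]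
      norm_num [Real.rpow_neg]
    exact le_of_pow_le_pow_left₀ (by norm_num) (by norm_num) h4
  · refine (pow_le_pow_left₀ (by positivity) h34 2).trans_eq ?_
    rw [← Real.rpow_natCast, ← Real.rpow_mul (by linarith)]
    norm_num

theorem tailSum_prime_pow_le {η : ℝ} (hη : η ≤ 1 / 4) {p a : ℕ} (hp : p.Prime) (ha : 0 < a) :
    tailSum η (p ^ a) ≤ tailFac η p := by
  have hp0 : (0 : ℝ) < p := by exact_mod_cast hp.pos
  have hp1 : (0 : ℝ) < (p : ℝ) - 1 := by
    have : (2 : ℝ) ≤ p := by exact_mod_cast hp.two_le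
    linarith
  have key : ∀ j : ℕ, ((p ^ (j + 1) : ℕ).totient : ℝ) = (p : ℝ) ^ j * ((p : ℝ) - 1) := by
    intro j
    rw [Nat.totient_prime_pow_succ hp, Nat.cast_mul, Nat.cast_pow, Nat.cast_sub hp.one_le,
      Nat.cast_one]
  obtain ⟨b, rfl⟩ : ∃ b, a = b + 1 := ⟨a - 1, by omega⟩
  have hc : ((p ^ (b + 1) : ℕ).totient : ℝ) / (p ^ (b + 1) : ℕ) = ((p : ℝ) - 1) / p := by
    rw [key, Nat.cast_pow, pow_succ]
    field_simp
  have hterm : ∀ j : ℕ, ((p : ℝ) - 1) / p *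
      (((p ^ (j + 1) : ℕ) : ℝ) ^ η / ((p ^ (j + 1) : ℕ).totient : ℝ)) =
        ((p : ℝ) ^ (η - 1)) ^ (j + 1) := by
    intro j
    rw [key, Nat.cast_pow, ← Real.rpow_natCast (p : ℝ) (j + 1), ← Real.rpow_mul hp0.le,
      mul_comm ((j + 1 : ℕ) : ℝ) η, Real.rpow_mul hp0.le, Real.rpow_natCast,
      Real.rpow_sub hp0, Real.rpow_one, div_pow, pow_succ ((p : ℝ)) j]
    field_simp
  unfold tailSum tailFac
  rw [hc, Nat.divisors_prime_pow hp, Finset.sum_map]
  simp only [Function.Embedding.coeFn_mk]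
  rw [Finset.sum_range_succ', mul_add, Finset.mul_sum, Finset.sum_congr rfl fun j _ => hterm j]
  obtain ⟨hr1, hr2⟩ := prime_rpow_le hp.two_le hη
  have hg := geom_le (by positivity : 0 ≤ (p : ℝ) ^ (η - 1)) hr1 (b + 1)
  have e : (p : ℝ) ^ (η - 1) = (p : ℝ) ^ η / p := by rw [Real.rpow_sub hp0, Real.rpow_one]
  simp only [pow_zero, Nat.cast_one, Real.one_rpow, Nat.totient_one, div_one, mul_one]
  calc _ ≤ ((p : ℝ) ^ (η - 1) + 3 * ((p : ℝ) ^ (η - 1)) ^ 2) + ((p : ℝ) - 1) / p := by linarith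
    _ ≤ ((p : ℝ) ^ (η - 1) + 3 * (p : ℝ) ^ (-(3 : ℝ) / 2)) + ((p : ℝ) - 1) / p := by linarith
    _ = _ := by rw [e]; field_simp; ring

theorem tailFac_nonneg {η : ℝ} {p : ℕ} (hp : 2 ≤ p) : 0 ≤ tailFac η p := by
  have h2 : (2 : ℝ) ≤ p := by exact_mod_cast hp
  unfold tailFac
  have h1 : -(1 : ℝ) ≤ ((p : ℝ) ^ η - 1) / p := by
    rw [le_div_iff₀ (by linarith)]
    linarith [Real.rpow_nonneg (by linarith : (0 : ℝ) ≤ p) η]
  have h3 : 0 ≤ 3 * (p : ℝ) ^ (-(3 : ℝ) / 2) := by positivity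
  linarith

theorem tailSum_le_prod {η : ℝ} (hη : η ≤ 1 / 4) :
    ∀ N : ℕ, 0 < N → tailSum η N ≤ ∏ p ∈ N.primeFactors, tailFac η p := by
  intro N
  induction N using Nat.recOnPosPrimePosCoprime with
  | prime_pow p n hp hn =>
    intro _
    rw [Nat.primeFactors_prime_pow hn.ne' hp, Finset.prod_singleton]
    exact tailSum_prime_pow_le hη hp hn
  | zero => intro h; exact absurd h (lt_irrefl 0)
  | one => intro _; simp [tailSum]
  | coprime a b ha hb hab iha ihb =>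
    intro _
    rw [tailSum_mul hab, hab.primeFactors_mul, Finset.prod_union hab.disjoint_primeFactors]
    exact mul_le_mul (iha (by omega)) (ihb (by omega)) (tailSum_nonneg η b)
      (Finset.prod_nonneg fun p hp => tailFac_nonneg (Nat.prime_of_mem_primeFactors hp).two_le)

theorem tailScale_spec (N : ℕ) :
    4 ≤ tailScale N ∧ Real.log (max 3 (Real.log N)) ≤ tailScale N := by
  refine ⟨le_max_left _ _, ?_⟩
  rcases max_cases 3 (Real.log N) with ⟨h, -⟩ | ⟨h, -⟩ <;> rw [h]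
  · refine le_max_of_le_left ?_
    linarith [Real.log_le_sub_one_of_pos (by norm_num : (0 : ℝ) < 3)]
  · exact le_max_right _ _

theorem sum_small_le {L η : ℝ} (hL : 3 ≤ L) (hη : 0 ≤ η) (hη2 : η * Real.log L ≤ 1)
    (hη4 : η ≤ 1 / 4) (P : Finset ℕ) (hP : ∀ p ∈ P, p.Prime ∧ (p : ℝ) ≤ L) :
    ∑ p ∈ P, ((p : ℝ) ^ η - 1) / p ≤ 100 := by
  have hpow : ∀ p ∈ P, ∀ j : ℕ, p ≤ 2 ^ (j + 1) → 1 ≤ j →
      ((p : ℝ) ^ η - 1) / p ≤ 6 * j * η * (1 / p) := by
    intro p hp j hj hj1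
    obtain ⟨hpr, hpL⟩ := hP p hp
    have hp1 : (1 : ℝ) ≤ p := by exact_mod_cast hpr.one_le
    set x := η * Real.log p with hx
    have hx0 : 0 ≤ x := mul_nonneg hη (Real.log_nonneg hp1)
    have hx1 : x ≤ 1 :=
      (mul_le_mul_of_nonneg_left (Real.log_le_log (by linarith) hpL) hη).trans hη2
    have hexp : Real.exp x - 1 ≤ 3 * x := by
      have h1 : Real.exp x * (1 - x) ≤ 1 := by
        calc Real.exp x * (1 - x) ≤ Real.exp x * Real.exp (-x) :=
              mul_le_mul_of_nonneg_left (Real.one_sub_le_exp_neg x) (Real.exp_pos x).le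
          _ = 1 := by rw [← Real.exp_add, add_neg_cancel, Real.exp_zero]
      have h2 : Real.exp x ≤ 3 := by
        have := Real.exp_le_exp.2 hx1
        linarith [Real.exp_one_lt_d9]
      nlinarith
    have hlog : Real.log p ≤ 2 * j := by
      have h : Real.log p ≤ ((j + 1 : ℕ) : ℝ) * Real.log 2 := by
        rw [← Real.log_pow]
        exact Real.log_le_log (by linarith) (by exact_mod_cast hj)
      push_cast at h
      have : (1 : ℝ) ≤ j := by exact_mod_cast hj1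
      nlinarith [Real.log_two_lt_d9]
    have e : (p : ℝ) ^ η = Real.exp x := by
      rw [Real.rpow_def_of_pos (by linarith), hx, mul_comm]
    rw [e, mul_one_div]
    refine div_le_div_of_nonneg_right ?_ (by linarith)
    have : x ≤ η * (2 * j) := mul_le_mul_of_nonneg_left hlog hη
    linarith
  set b := Nat.log 2 ⌊L⌋₊ with hb
  have hbL : (b : ℝ) ≤ 2 * Real.log L := by
    have h : ((2 : ℕ) : ℝ) ^ b ≤ L := by
      calc ((2 : ℕ) : ℝ) ^ b = ((2 ^ b : ℕ) : ℝ) := by push_cast; ring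
        _ ≤ (⌊L⌋₊ : ℝ) := by
            exact_mod_cast Nat.pow_log_le_self 2
              (Nat.floor_pos.2 (by linarith : (1 : ℝ) ≤ L)).ne'
        _ ≤ L := Nat.floor_le (by linarith)
    have h' := Real.log_le_log (by positivity) h
    rw [Real.log_pow] at h'
    push_cast at h'
    nlinarith [Real.log_two_gt_d9, Nat.cast_nonneg (α := ℝ) b]
  rw [← Finset.sum_filter_add_sum_filter_not P (fun p => p = 2)]
  have h2 : ∑ p ∈ P.filter (fun p => p = 2), ((p : ℝ) ^ η - 1) / p ≤ 1 := by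
    refine (Finset.sum_le_sum_of_subset_of_nonneg (t := {2})
      (fun p hp => by simp [(Finset.mem_filter.1 hp).2]) fun p hp _ => ?_).trans ?_
    · rw [Finset.mem_singleton] at hp
      subst hp
      have : (1 : ℝ) ≤ ((2 : ℕ) : ℝ) ^ η := Real.one_le_rpow (by norm_num) hη
      exact div_nonneg (by linarith) (by norm_num)
    · rw [Finset.sum_singleton]
      have : ((2 : ℕ) : ℝ) ^ η ≤ ((2 : ℕ) : ℝ) ^ (1 : ℝ) :=
        Real.rpow_le_rpow_of_exponent_le (by norm_num) (by linarith)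
      rw [Real.rpow_one] at this
      push_cast at this ⊢
      linarith
  set Q := P.filter (fun p => ¬ p = 2) with hQ
  have hmap : ∀ p ∈ Q, Nat.log 2 (p - 1) ∈ Finset.Icc 1 b := by
    intro p hp
    obtain ⟨hpP, hp2⟩ := Finset.mem_filter.1 hp
    obtain ⟨hpr, hpL⟩ := hP p hpP
    have := hpr.two_le
    refine Finset.mem_Icc.2 ⟨Nat.log_pos (by norm_num) (by omega), Nat.log_mono_right ?_⟩
    exact le_trans (Nat.sub_le _ _) (Nat.le_floor hpL)
  rw [← Finset.sum_fiberwise_of_maps_to hmap (fun p => ((p : ℝ) ^ η - 1) / p)]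
  have hfib : ∀ j ∈ Finset.Icc 1 b,
      ∑ p ∈ Q.filter (fun p => Nat.log 2 (p - 1) = j), ((p : ℝ) ^ η - 1) / p ≤ 24 * η := by
    intro j hj
    have hj1 := (Finset.mem_Icc.1 hj).1
    have hsub : Q.filter (fun p => Nat.log 2 (p - 1) = j) ⊆
        (Finset.Ioc (2 ^ j) (2 ^ (j + 1))).filter Nat.Prime := by
      intro p hp
      obtain ⟨hpQ, rfl⟩ := Finset.mem_filter.1 hp
      obtain ⟨hpP, hp2⟩ := Finset.mem_filter.1 hpQ
      have hpr := (hP p hpP).1
      have := hpr.two_le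
      have a1 := Nat.pow_log_le_self 2 (by omega : p - 1 ≠ 0)
      have a2 := Nat.lt_pow_succ_log_self (by norm_num : 1 < 2) (p - 1)
      refine Finset.mem_filter.2 ⟨Finset.mem_Ioc.2 ⟨by omega, ?_⟩, hpr⟩
      rw [Nat.succ_eq_add_one] at a2
      omega
    calc _ ≤ ∑ p ∈ Q.filter (fun p => Nat.log 2 (p - 1) = j), 6 * (j : ℝ) * η * (1 / p) :=
          Finset.sum_le_sum fun p hp => hpow p (Finset.mem_filter.1 (Finset.mem_filter.1 hp).1).1 j
            (Finset.mem_Ioc.1 (Finset.mem_filter.1 (hsub hp)).1).2 hj1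
      _ ≤ 6 * (j : ℝ) * η * ∑ p ∈ (Finset.Ioc (2 ^ j) (2 ^ (j + 1))).filter Nat.Prime,
            (1 : ℝ) / p := by
          rw [← Finset.mul_sum]
          exact mul_le_mul_of_nonneg_left (Finset.sum_le_sum_of_subset_of_nonneg hsub
            fun p _ _ => by positivity) (by positivity)
      _ ≤ 6 * (j : ℝ) * η * (4 / j) :=
          mul_le_mul_of_nonneg_left (sum_inv_prime_dyadic_le j hj1) (by positivity)
      _ = 24 * η := by
          have : (0 : ℝ) < j := by exact_mod_cast hj1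
          field_simp
          ring
  have := Finset.sum_le_card_nsmul _ _ _ hfib
  rw [Nat.card_Icc, nsmul_eq_mul, Nat.add_sub_cancel] at this
  have hb2 : (b : ℝ) * (24 * η) ≤ 48 := by
    calc (b : ℝ) * (24 * η) ≤ 2 * Real.log L * (24 * η) :=
          mul_le_mul_of_nonneg_right hbL (by positivity)
      _ ≤ 48 := by linarith
  linarith

theorem sum_large_le {N : ℕ} (hN : 0 < N) {L η : ℝ} (hL : 3 ≤ L) (hLN : Real.log N ≤ L)
    (hη2 : η * Real.log L ≤ 1) (hη4 : η ≤ 1 / 4) (P : Finset ℕ) (hPN : P ⊆ N.primeFactors)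
    (hP : ∀ p ∈ P, L < (p : ℝ)) :
    ∑ p ∈ P, (p : ℝ) ^ η / p ≤ 3 := by
  have hlogL : 1 ≤ Real.log L := by
    rw [Real.le_log_iff_exp_le (by linarith)]
    linarith [Real.exp_one_lt_d9]
  have hcard : (P.card : ℝ) ≤ L := by
    have hsum : ∑ p ∈ P, Real.log p ≤ Real.log N := by
      rw [← Real.log_prod fun p hp =>
        (Nat.cast_pos.2 (Nat.prime_of_mem_primeFactors (hPN hp)).pos).ne']
      refine Real.log_le_log (Finset.prod_pos fun p hp =>
        Nat.cast_pos.2 (Nat.prime_of_mem_primeFactors (hPN hp)).pos) ?_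
      rw [← Nat.cast_prod, Nat.cast_le]
      exact Nat.le_of_dvd hN ((Finset.prod_dvd_prod_of_subset _ _ _ hPN).trans
        (Nat.prod_primeFactors_dvd N))
    have : (P.card : ℝ) * 1 ≤ ∑ p ∈ P, Real.log p := by
      rw [← nsmul_eq_mul, ← Finset.sum_const]
      exact Finset.sum_le_sum fun p hp =>
        hlogL.trans (Real.log_le_log (by linarith) (hP p hp).le)
    linarith
  calc ∑ p ∈ P, (p : ℝ) ^ η / p ≤ ∑ _p ∈ P, L ^ η / L := by
        refine Finset.sum_le_sum fun p hp => ?_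
        have hp0 : (0 : ℝ) < p := by linarith [hP p hp]
        rw [← Real.rpow_sub_one hp0.ne', ← Real.rpow_sub_one (by linarith : L ≠ 0)]
        exact Real.rpow_le_rpow_of_nonpos (by linarith) (hP p hp).le (by linarith)
    _ = (P.card : ℝ) * (L ^ η / L) := by rw [Finset.sum_const, nsmul_eq_mul]
    _ ≤ L * (L ^ η / L) := mul_le_mul_of_nonneg_right hcard (by positivity)
    _ = L ^ η := by field_simp
    _ ≤ 3 := by
        rw [Real.rpow_def_of_pos (by linarith), mul_comm]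
        linarith [Real.exp_le_exp.2 hη2, Real.exp_one_lt_d9]

/-- The twisted divisor sum at `η = 1 / tailScale N` is bounded. -/
theorem exists_tailSum_le : ∃ C : ℝ, 0 < C ∧
    ∀ N : ℕ, 0 < N → tailSum (tailScale N)⁻¹ N ≤ C := by
  set S := ∑' n : ℕ, (n : ℝ) ^ (-(3 : ℝ) / 2) with hS
  have hsum : Summable fun n : ℕ => (n : ℝ) ^ (-(3 : ℝ) / 2) :=
    Real.summable_nat_rpow.2 (by norm_num)
  refine ⟨Real.exp (103 + 3 * S), Real.exp_pos _, fun N hN => ?_⟩
  obtain ⟨h4, hlog⟩ := tailScale_spec N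
  set η := (tailScale N)⁻¹ with hη
  set L := max 3 (Real.log N) with hL
  have hη0 : 0 ≤ η := by positivity
  have hη4 : η ≤ 1 / 4 := by
    rw [hη, one_div]
    exact inv_anti₀ (by norm_num) h4
  have hη2 : η * Real.log L ≤ 1 := by
    rw [hη, ← div_eq_inv_mul, div_le_one (by linarith)]
    exact hlog
  refine (tailSum_le_prod hη4 N hN).trans ?_
  refine (Finset.prod_le_prod (fun p hp => tailFac_nonneg
    (Nat.prime_of_mem_primeFactors hp).two_le) fun p _ => ?_).trans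
    ((Real.exp_sum N.primeFactors fun p : ℕ =>
      ((p : ℝ) ^ η - 1) / p + 3 * (p : ℝ) ^ (-(3 : ℝ) / 2)).symm.le.trans
      (Real.exp_le_exp.2 ?_))
  · have := Real.add_one_le_exp (((p : ℝ) ^ η - 1) / p + 3 * (p : ℝ) ^ (-(3 : ℝ) / 2))
    unfold tailFac
    linarith
  · rw [Finset.sum_add_distrib, ← Finset.mul_sum]
    have h3 : ∑ p ∈ N.primeFactors, (p : ℝ) ^ (-(3 : ℝ) / 2) ≤ S :=
      hsum.sum_le_tsum _ fun n _ => by positivity
    rw [← Finset.sum_filter_add_sum_filter_not N.primeFactors (fun p : ℕ => (p : ℝ) ≤ L)]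
    have hs := sum_small_le (le_max_left _ _) hη0 hη2 hη4
      (N.primeFactors.filter fun p : ℕ => (p : ℝ) ≤ L) fun p hp =>
        ⟨Nat.prime_of_mem_primeFactors (Finset.mem_filter.1 hp).1, (Finset.mem_filter.1 hp).2⟩
    have hl := sum_large_le hN (le_max_left _ _) (le_max_right _ _) hη2 hη4
      (N.primeFactors.filter fun p : ℕ => ¬ (p : ℝ) ≤ L) (Finset.filter_subset _ _)
      fun p hp => not_le.1 (Finset.mem_filter.1 hp).2
    have hl' : ∑ p ∈ N.primeFactors.filter (fun p : ℕ => ¬ (p : ℝ) ≤ L),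
        ((p : ℝ) ^ η - 1) / p ≤
        ∑ p ∈ N.primeFactors.filter (fun p : ℕ => ¬ (p : ℝ) ≤ L), (p : ℝ) ^ η / p :=
      Finset.sum_le_sum fun p _ =>
        div_le_div_of_nonneg_right (by linarith) (Nat.cast_nonneg p)
    linarith

/-- The tail of the downward probability (Rankin). -/
theorem exists_ptail_le : ∃ C : ℝ, 0 < C ∧ ∀ N : ℕ, 0 < N → ∀ Z : ℝ, 0 < Z →
    ∑ d ∈ N.divisors.filter (fun d : ℕ => Z ≤ (d : ℝ)),
        (N.totient : ℝ) / ((N : ℝ) * d.totient) ≤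
      C * Real.exp (-(Real.log Z / tailScale N)) := by
  obtain ⟨C, hC0, hC⟩ := exists_tailSum_le
  refine ⟨C, hC0, fun N hN Z hZ => ?_⟩
  set η := (tailScale N)⁻¹ with hη
  have hη0 : 0 ≤ η := by
    have := (tailScale_spec N).1
    positivity
  have hZη : 0 < Z ^ η := Real.rpow_pos_of_pos hZ η
  have e : Real.exp (-(Real.log Z / tailScale N)) = (Z ^ η)⁻¹ := by
    rw [Real.exp_neg, Real.rpow_def_of_pos hZ, hη, div_eq_mul_inv]
  rw [e, ← div_eq_mul_inv, le_div_iff₀ hZη, Finset.sum_mul]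
  refine le_trans ?_ (hC N hN)
  unfold tailSum
  rw [Finset.mul_sum]
  refine (Finset.sum_le_sum fun d hd => ?_).trans
    (Finset.sum_le_sum_of_subset_of_nonneg (Finset.filter_subset _ _) fun d _ _ => by positivity)
  obtain ⟨-, hZd⟩ := Finset.mem_filter.1 hd
  rw [← hη]
  calc (N.totient : ℝ) / ((N : ℝ) * d.totient) * Z ^ η
      ≤ (N.totient : ℝ) / ((N : ℝ) * d.totient) * (d : ℝ) ^ η :=
        mul_le_mul_of_nonneg_left (Real.rpow_le_rpow hZ.le hZd hη0) (by positivity)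
    _ = _ := by rw [← div_div, div_mul_div_comm, div_mul_eq_mul_div, mul_comm]; ring

/-- The tail in the form `Z ^ (-1 / tailScale)`, for every bound `Λ ≥ tailScale N`. -/
theorem exists_ptail_le_rpow : ∃ C : ℝ, 0 < C ∧ ∀ N : ℕ, 0 < N → ∀ Z Λ : ℝ, 1 ≤ Z →
    tailScale N ≤ Λ →
    ∑ d ∈ N.divisors.filter (fun d : ℕ => Z ≤ (d : ℝ)),
        (N.totient : ℝ) / ((N : ℝ) * d.totient) ≤ C * Z ^ (-Λ⁻¹) := by
  obtain ⟨C, hC0, hC⟩ := exists_ptail_le
  refine ⟨C, hC0, fun N hN Z Λ hZ hΛ => (hC N hN Z (by linarith)).trans ?_⟩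
  refine mul_le_mul_of_nonneg_left ?_ hC0.le
  rw [Real.rpow_def_of_pos (by linarith), Real.exp_le_exp, mul_neg, neg_le_neg_iff,
    ← div_eq_mul_inv]
  exact div_le_div_of_nonneg_left (Real.log_nonneg hZ) (by linarith [(tailScale_spec N).1]) hΛ

end Vale.Agent.P028.T2
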