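import Vale.Agent.P028.NumberLemmas

/-!
The number of middle edges of the paths of length three between two given moduli.
-/

noncomputable section

namespace Vale.Agent.P028.T2

open Finset

/-- A triple of quotients of a path of length three with step `m` and ends of ratio `A / C`. -/
structure PathTriple (m : ℤ) (T : ℝ) (A C a b c : ℕ) : Prop where
  a_pos : 0 < a
  a_le : (a : ℝ) ≤ T
  a_add_pos : 0 < (a : ℤ) + m
  a_add_le : (((a : ℤ) + m : ℤ) : ℝ) ≤ T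
  b_pos : 0 < b
  b_le : (b : ℝ) ≤ T
  b_add_pos : 0 < (b : ℤ) + m
  b_add_le : (((b : ℤ) + m : ℤ) : ℝ) ≤ T
  c_pos : 0 < c
  c_le : (c : ℝ) ≤ T
  c_add_pos : 0 < (c : ℤ) + m
  c_add_le : (((c : ℤ) + m : ℤ) : ℝ) ≤ T
  eq : ((a : ℤ) + m) * ((b : ℤ) + m) * ((c : ℤ) * C) = (a : ℤ) * b * (((c : ℤ) + m) * A)

/-- The divisor bound in power form. -/
theorem exists_divisors_le_rpow (δ : ℝ) (hδ : 0 < δ) :
    ∃ K : ℝ, 1 ≤ K ∧ ∀ (n : ℕ) (R : ℝ), 0 < n → 1 ≤ R → (n : ℝ) ≤ R ^ (10 : ℕ) →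
      (n.divisors.card : ℝ) ≤ K * R ^ δ := by
  obtain ⟨C, L0, hC, h⟩ := exists_divisors_card_le
  set L1 : ℝ := max (max L0 1) (Real.exp (10 * C / δ)) with hL1
  refine ⟨Real.exp (δ / 10 * L1), Real.one_le_exp (by positivity), fun n R hn hR hnR => ?_⟩
  have hlog : 0 ≤ Real.log R := Real.log_nonneg hR
  have h1 : L0 ≤ L1 := (le_max_left _ _).trans (le_max_left _ _)
  have h2 : (1 : ℝ) ≤ L1 := (le_max_right _ _).trans (le_max_left _ _)
  set L : ℝ := L1 + 10 * Real.log R with hL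
  have hb := h L (by linarith) n hn (by
    refine hnR.trans ?_
    rw [← Real.exp_log (show (0 : ℝ) < R ^ (10 : ℕ) by positivity), Real.log_pow]
    exact Real.exp_le_exp.2 (by push_cast; linarith))
  refine hb.trans ?_
  have hl : 10 * C / δ ≤ Real.log L := by
    rw [← Real.log_exp (10 * C / δ)]
    exact Real.log_le_log (Real.exp_pos _) (by linarith [le_max_right (max L0 1) (Real.exp (10 * C / δ))])
  have hlpos : 0 < Real.log L := lt_of_lt_of_le (by positivity) hl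
  rw [Real.rpow_def_of_pos (by linarith : (0 : ℝ) < R), ← Real.exp_add]
  refine Real.exp_le_exp.2 ?_
  rw [div_le_iff₀ hlpos]
  have h3 : C * 10 ≤ δ * Real.log L := by
    have := mul_le_mul_of_nonneg_left hl hδ.le
    rwa [mul_div_cancel₀ _ hδ.ne', mul_comm 10] at this
  have h4 := mul_le_mul_of_nonneg_right h3 (show (0 : ℝ) ≤ L by linarith)
  nlinarith

/-- Integers up to `T` with a large common factor with `A`. -/
theorem card_large_gcd_le {T : ℝ} (hT : 1 ≤ T) {A : ℕ} (hA : 0 < A) (U : Finset ℕ)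
    (hU : ∀ u ∈ U, 0 < u ∧ (u : ℝ) ≤ T ∧ T ^ (1 / 5 : ℝ) < (Nat.gcd A u : ℝ)) :
    (U.card : ℝ) ≤ A.divisors.card * T ^ (4 / 5 : ℝ) := by
  set D := A.divisors.filter (fun d : ℕ => T ^ (1 / 5 : ℝ) < (d : ℝ)) with hD
  have hsub : U ⊆ D.biUnion fun d => (Ioc 0 ⌊T⌋₊).filter (fun u => d ∣ u) := by
    intro u hu
    obtain ⟨h0, h1, h2⟩ := hU u hu
    refine mem_biUnion.2 ⟨Nat.gcd A u, mem_filter.2
      ⟨Nat.mem_divisors.2 ⟨Nat.gcd_dvd_left _ _, hA.ne'⟩, h2⟩, mem_filter.2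
      ⟨mem_Ioc.2 ⟨h0, Nat.le_floor h1⟩, Nat.gcd_dvd_right _ _⟩⟩
  have hT0 : 0 < T := by linarith
  have hstep : ∀ d ∈ D, ((((Ioc 0 ⌊T⌋₊).filter (fun u => d ∣ u)).card : ℕ) : ℝ) ≤
      T ^ (4 / 5 : ℝ) := by
    intro d hd
    have hd' := (mem_filter.1 hd).2
    have hd0 : (0 : ℝ) < d := lt_of_le_of_lt (by positivity) hd'
    rw [Nat.Ioc_filter_dvd_card_eq_div]
    refine Nat.cast_div_le.trans ?_
    rw [div_le_iff₀ hd0]
    calc ((⌊T⌋₊ : ℕ) : ℝ) ≤ T := Nat.floor_le hT0.le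
      _ = T ^ (4 / 5 : ℝ) * T ^ (1 / 5 : ℝ) := by rw [← Real.rpow_add hT0]; norm_num
      _ ≤ _ := mul_le_mul_of_nonneg_left hd'.le (by positivity)
  calc (U.card : ℝ)
      ≤ ((D.biUnion fun d => (Ioc 0 ⌊T⌋₊).filter (fun u => d ∣ u)).card : ℝ) := by
        exact_mod_cast card_le_card hsub
    _ ≤ ∑ d ∈ D, ((((Ioc 0 ⌊T⌋₊).filter (fun u => d ∣ u)).card : ℕ) : ℝ) := by
        exact_mod_cast card_biUnion_le
    _ ≤ D.card * T ^ (4 / 5 : ℝ) := by
        refine (sum_le_sum hstep).trans ?_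
        rw [sum_const, nsmul_eq_mul]
    _ ≤ _ := mul_le_mul_of_nonneg_right (by exact_mod_cast card_filter_le _ _) (by positivity)

namespace PathTriple

variable {m : ℤ} {T : ℝ} {A C a b c : ℕ}

theorem m_le (h : PathTriple m T A C a b c) : |(m : ℝ)| ≤ T := by
  have h1 := h.a_le
  have h2 := h.a_add_le
  have h3 : (0 : ℝ) ≤ a := Nat.cast_nonneg a
  have h4 : (0 : ℝ) ≤ (((a : ℤ) + m : ℤ) : ℝ) := by exact_mod_cast h.a_add_pos.le
  push_cast at h2 h4
  exact abs_le.2 ⟨by linarith, by linarith⟩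

/-- The natural numbers `a + m`, `b + m`, `c + m` and the identity between them. -/
theorem lift (h : PathTriple m T A C a b c) :
    ∃ a' b' c' : ℕ, (a' : ℤ) = a + m ∧ (b' : ℤ) = b + m ∧ (c' : ℤ) = c + m ∧
      (a' : ℝ) ≤ T ∧ (b' : ℝ) ≤ T ∧ (c' : ℝ) ≤ T ∧ 0 < a' ∧ 0 < b' ∧ 0 < c' ∧
      a' * b' * (c * C) = a * b * (c' * A) := by
  obtain ⟨a', ha⟩ := Int.eq_ofNat_of_zero_le h.a_add_pos.le
  obtain ⟨b', hb⟩ := Int.eq_ofNat_of_zero_le h.b_add_pos.le
  obtain ⟨c', hc⟩ := Int.eq_ofNat_of_zero_le h.c_add_pos.le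
  have e := h.eq
  rw [ha, hb, hc] at e
  refine ⟨a', b', c', ha.symm, hb.symm, hc.symm, ?_, ?_, ?_, ?_, ?_, ?_, by exact_mod_cast e⟩
  · have := h.a_add_le; rw [ha] at this; exact_mod_cast this
  · have := h.b_add_le; rw [hb] at this; exact_mod_cast this
  · have := h.c_add_le; rw [hc] at this; exact_mod_cast this
  · have := h.a_add_pos; rw [ha] at this; exact_mod_cast this
  · have := h.b_add_pos; rw [hb] at this; exact_mod_cast this
  · have := h.c_add_pos; rw [hc] at this; exact_mod_cast this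

/-- The ends are small. -/
theorem ends_le (h : PathTriple m T A C a b c) (hco : Nat.Coprime A C) :
    (A : ℝ) ≤ T ^ (3 : ℕ) ∧ (C : ℝ) ≤ T ^ (3 : ℕ) := by
  obtain ⟨a', b', c', -, -, -, ha, hb, hc, ha0, hb0, hc0, e⟩ := h.lift
  have hT : 0 ≤ T := le_trans (Nat.cast_nonneg a) h.a_le
  have h3 : ∀ x y z : ℕ, (x : ℝ) ≤ T → (y : ℝ) ≤ T → (z : ℝ) ≤ T → ((x * y * z : ℕ) : ℝ) ≤ T ^ 3 := by
    intro x y z hx hy hz
    push_cast
    calc (x : ℝ) * y * z ≤ T * T * T :=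
          mul_le_mul (mul_le_mul hx hy (Nat.cast_nonneg y) hT) hz (Nat.cast_nonneg z) (by positivity)
      _ = T ^ 3 := by ring
  constructor
  · have hd : A ∣ (a' * b' * c) * C := ⟨a * b * c', by rw [mul_assoc _ c C, e]; ring⟩
    have := Nat.le_of_dvd (by have := h.c_pos; positivity) (hco.dvd_of_dvd_mul_right hd)
    exact (Nat.cast_le.2 this).trans (h3 a' b' c ha hb h.c_le)
  · have hd : C ∣ (a * b * c') * A := ⟨a' * b' * c, by rw [mul_assoc _ c' A, ← e]; ring⟩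
    have := Nat.le_of_dvd (by have := h.a_pos; have := h.b_pos; positivity)
      (hco.symm.dvd_of_dvd_mul_right hd)
    exact (Nat.cast_le.2 this).trans (h3 a b c' h.a_le h.b_le hc)

/-- If an end is large, the middle quotient is special. -/
theorem special (h : PathTriple m T A C a b c) (hco : Nat.Coprime A C)
    (hbig : T ^ (9 / 5 : ℝ) < max (A : ℝ) C) :
    (c : ℝ) ≤ T ^ (4 / 5 : ℝ) ∨ (((c : ℤ) + m : ℤ) : ℝ) ≤ T ^ (4 / 5 : ℝ) ∨
      T ^ (1 / 5 : ℝ) < (Nat.gcd A c : ℝ) ∨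
      T ^ (1 / 5 : ℝ) < (Nat.gcd C ((c : ℤ) + m).toNat : ℝ) ∨
      T ^ (1 / 5 : ℝ) < (Nat.gcd m.natAbs c : ℝ) := by
  obtain ⟨a', b', c', -, -, hcm, ha, hb, hc, ha0, hb0, hc0, e⟩ := h.lift
  have hT : 0 < T := lt_of_lt_of_le (Nat.cast_pos.2 h.a_pos) h.a_le
  rw [← hcm, Int.toNat_natCast]
  push_cast
  by_contra hne
  push Not at hne
  obtain ⟨hc1, hc2, g1, g2, g3⟩ := hne
  set G := Nat.gcd (c' * A) (c * C) with hG
  have hGd : G ∣ Nat.gcd A c * Nat.gcd C c' * Nat.gcd m.natAbs c := by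
    have h1 : G ∣ Nat.gcd (c' * A) c * Nat.gcd (c' * A) C := Nat.gcd_mul_right_dvd_mul_gcd _ _ _
    have h2 : Nat.gcd (c' * A) C = Nat.gcd c' C := Nat.Coprime.gcd_mul_right_cancel c' hco
    have h3 : Nat.gcd (c' * A) c ∣ Nat.gcd c' c * Nat.gcd A c := by
      rw [Nat.gcd_comm (c' * A), Nat.gcd_comm c' c, Nat.gcd_comm A c]
      exact Nat.gcd_mul_right_dvd_mul_gcd _ _ _
    have h4 : Nat.gcd c' c ∣ Nat.gcd m.natAbs c := by
      refine Nat.dvd_gcd (Int.natCast_dvd.1 ?_) (Nat.gcd_dvd_right _ _)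
      have := dvd_sub (Int.natCast_dvd_natCast.2 (Nat.gcd_dvd_left c' c))
        (Int.natCast_dvd_natCast.2 (Nat.gcd_dvd_right c' c))
      rwa [hcm, show (c : ℤ) + m - c = m by ring] at this
    refine h1.trans ?_
    rw [h2, Nat.gcd_comm c' C]
    refine (Nat.mul_dvd_mul_right (h3.trans (Nat.mul_dvd_mul_right h4 _)) _).trans ?_
    exact dvd_of_eq (by ring)
  have hG0 : 0 < G := Nat.gcd_pos_of_pos_right _ (Nat.mul_pos h.c_pos (by
    rcases Nat.eq_zero_or_pos C with h0 | h0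
    · exfalso
      rw [h0, mul_zero, mul_zero] at e
      have := h.a_pos; have := h.b_pos
      rw [h0, Nat.coprime_zero_right] at hco
      rw [hco] at e
      have : 0 < a * b * (c' * 1) := by positivity
      omega
    · exact h0))
  have hpos : 0 < Nat.gcd A c * Nat.gcd C c' * Nat.gcd m.natAbs c :=
    Nat.mul_pos (Nat.mul_pos (Nat.gcd_pos_of_pos_right _ h.c_pos) (Nat.gcd_pos_of_pos_right _ hc0))
      (Nat.gcd_pos_of_pos_right _ h.c_pos)
  have hGle : (G : ℝ) ≤ T ^ (3 / 5 : ℝ) := by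
    calc (G : ℝ) ≤ ((Nat.gcd A c * Nat.gcd C c' * Nat.gcd m.natAbs c : ℕ) : ℝ) := by
          exact_mod_cast Nat.le_of_dvd hpos hGd
      _ ≤ T ^ (1 / 5 : ℝ) * T ^ (1 / 5 : ℝ) * T ^ (1 / 5 : ℝ) := by
          push_cast
          exact mul_le_mul (mul_le_mul g1 g2 (Nat.cast_nonneg _) (by positivity)) g3
            (Nat.cast_nonneg _) (by positivity)
      _ = _ := by rw [← Real.rpow_add hT, ← Real.rpow_add hT]; norm_num
  have key : ∀ u v x y : ℕ, u ∣ G * (x * y) → 0 < x * y → (x : ℝ) ≤ T → (y : ℝ) ≤ T →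
      (v : ℝ) = u → (v : ℝ) ≤ T ^ (3 / 5 : ℝ) * T ^ (2 : ℕ) := by
    intro u v x y hd hxy hx hy hv
    rw [hv]
    refine (Nat.cast_le.2 (Nat.le_of_dvd (Nat.mul_pos hG0 hxy) hd)).trans ?_
    push_cast
    calc (G : ℝ) * (x * y) ≤ T ^ (3 / 5 : ℝ) * (T * T) :=
          mul_le_mul hGle (mul_le_mul hx hy (Nat.cast_nonneg y) hT.le) (by positivity) (by positivity)
      _ = _ := by ring
  have hsplit : T ^ (4 / 5 : ℝ) * T ^ (9 / 5 : ℝ) = T ^ (3 / 5 : ℝ) * T ^ (2 : ℕ) := by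
    rw [← Real.rpow_natCast T 2, ← Real.rpow_add hT, ← Real.rpow_add hT]; norm_num
  rcases lt_max_iff.1 hbig with hA | hC
  · have hd : c' * A ∣ G * (a' * b') := by
      have : c' * A ∣ (c * C) * (a' * b') := ⟨a * b, by linarith [e]⟩
      exact (Nat.dvd_gcd_mul_iff_dvd_mul).2 this
    have := key _ (c' * A) a' b' hd (Nat.mul_pos ha0 hb0) ha hb rfl
    push_cast at this hc2
    nlinarith [mul_lt_mul'' hc2 hA (by positivity) (by positivity), hsplit]
  · have hd : c * C ∣ G * (a * b) := by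
      have : c * C ∣ (c' * A) * (a * b) := ⟨a' * b', by linarith [e]⟩
      rw [hG, Nat.gcd_comm]
      exact (Nat.dvd_gcd_mul_iff_dvd_mul).2 this
    have := key _ (c * C) a b hd (Nat.mul_pos h.a_pos h.b_pos) h.a_le h.b_le rfl
    push_cast at this
    nlinarith [mul_lt_mul'' hc1 hC (by positivity) (by positivity), hsplit]

end PathTriple

/-- For a fixed middle quotient there are few paths. -/
theorem exists_fibre_le (δ : ℝ) (hδ : 0 < δ) :
    ∃ K : ℝ, 1 ≤ K ∧ ∀ (m : ℤ) (T : ℝ) (A C c : ℕ) (U : Finset (ℕ × ℕ)), 1 ≤ T → m ≠ 0 →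
      0 < A → 0 < C → Nat.Coprime A C → (∀ u ∈ U, PathTriple m T A C u.1 u.2 c) →
      (U.card : ℝ) ≤ K * T ^ δ := by
  obtain ⟨K, hK1, hK⟩ := exists_divisors_le_rpow δ hδ
  refine ⟨2 * K, by linarith, fun m T A C c U hT hm hA hC hco hU => ?_⟩
  rcases U.eq_empty_or_nonempty with rfl | ⟨u0, hu0⟩
  · simp only [card_empty, Nat.cast_zero]; positivity
  have h0 := hU u0 hu0
  obtain ⟨hAle, hCle⟩ := h0.ends_le hco
  obtain ⟨a', b', c', -, -, hcm, -, -, hc', -, -, hc0, -⟩ := h0.lift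
  set P : ℤ := (c : ℤ) * C with hP
  set Q : ℤ := (c' : ℤ) * A with hQ
  have hPpos : 0 < P := by
    rw [hP]; have := h0.c_pos; positivity
  have hQpos : 0 < Q := by
    rw [hQ]; positivity
  set e : ℤ := P - Q with he
  set f : ℕ × ℕ → ℤ := fun u => e * u.1 + m * P with hf
  have heq : ∀ u ∈ U, e * ((u.1 : ℤ) * u.2) + m * P * ((u.1 : ℤ) + u.2) + m ^ 2 * P = 0 := by
    intro u hu
    have h := (hU u hu).eq
    rw [← hcm] at h
    linear_combination h
  have hprod : ∀ u ∈ U, f u * (e * u.2 + m * P) = m ^ 2 * P * Q := by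
    intro u hu
    simp only [hf, he]
    linear_combination (P - Q) * heq u hu
  have hne : ∀ u ∈ U, f u ≠ 0 := fun u hu hz => by
    have := hprod u hu
    rw [hz, zero_mul] at this
    simp [hm, hPpos.ne', hQpos.ne'] at this
  have he0 : e ≠ 0 := by
    intro h
    have h1 := heq u0 hu0
    rw [h, zero_mul, zero_add] at h1
    have h2 : m * P * (((u0.1 : ℤ) + m) + u0.2) = 0 := by linear_combination h1
    have h3 := h0.a_add_pos
    have h4 := h0.b_pos
    simp only [mul_eq_zero, hm, hPpos.ne', false_or, or_self] at h2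
    omega
  have hinj : Set.InjOn f U := by
    intro u hu v hv huv
    have h1 : (u.1 : ℤ) = v.1 := mul_left_cancel₀ he0 (add_right_cancel (show e * (u.1 : ℤ) + m * P =
      e * v.1 + m * P from huv))
    have h2 := (hprod u hu).trans (hprod v hv).symm
    rw [huv] at h2
    have h3 : (u.2 : ℤ) = v.2 :=
      mul_left_cancel₀ he0 (add_right_cancel (mul_left_cancel₀ (hne v hv) h2))
    exact Prod.ext (by exact_mod_cast h1) (by exact_mod_cast h3)
  set N : ℕ := (m ^ 2 * P * Q).natAbs with hN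
  have hN0 : 0 < N := Int.natAbs_pos.2 (by simp [hm, hPpos.ne', hQpos.ne'])
  have hmap : ∀ u ∈ U, ((f u).natAbs, decide (0 ≤ f u)) ∈ N.divisors ×ˢ (univ : Finset Bool) :=
    fun u hu => mem_product.2 ⟨Nat.mem_divisors.2
      ⟨Int.natAbs_dvd_natAbs.2 ⟨_, (hprod u hu).symm⟩, hN0.ne'⟩, mem_univ _⟩
  have hcard : U.card ≤ 2 * N.divisors.card := by
    refine (card_le_card_of_injOn _ hmap ?_).trans (by simp [mul_comm])
    intro u hu v hv huv
    simp only [Prod.mk.injEq] at huv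
    refine hinj hu hv ?_
    rcases Int.natAbs_eq_natAbs_iff.1 huv.1 with h | h
    · exact h
    · exfalso
      have hu' := hne u hu
      have := huv.2
      rw [decide_eq_decide] at this
      omega
  have hNle : (N : ℝ) ≤ T ^ (10 : ℕ) := by
    rw [hN, Nat.cast_natAbs, Int.cast_abs, hP, hQ]
    push_cast
    simp only [abs_mul, abs_pow, Nat.abs_cast, sq_abs]
    have hm' : (m : ℝ) ^ 2 ≤ T ^ 2 := by
      rw [← sq_abs]; exact pow_le_pow_left₀ (abs_nonneg _) h0.m_le 2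
    calc (m : ℝ) ^ 2 * ((c : ℝ) * C) * ((c' : ℝ) * A)
        ≤ T ^ 2 * (T * T ^ 3) * (T * T ^ 3) := by
          refine mul_le_mul (mul_le_mul hm' ?_ (by positivity) (by positivity)) ?_ (by positivity)
            (by positivity)
          · exact mul_le_mul h0.c_le hCle (by positivity) (by positivity)
          · exact mul_le_mul hc' hAle (by positivity) (by positivity)
      _ = T ^ 10 := by ring
  calc (U.card : ℝ) ≤ ((2 * N.divisors.card : ℕ) : ℝ) := by exact_mod_cast hcard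
    _ ≤ _ := by
        push_cast
        linarith [hK N T hN0 hT hNle]

/-- The number of middle edges. -/
theorem exists_path_count_le (δ : ℝ) (hδ : 0 < δ) :
    ∃ K : ℝ, 1 ≤ K ∧ ∀ (m : ℤ) (T : ℝ) (A C : ℕ) (U : Finset (ℕ × ℕ × ℕ)), 1 ≤ T → m ≠ 0 →
      0 < A → 0 < C → Nat.Coprime A C →
      (∀ u ∈ U, PathTriple m T A C u.1 u.2.1 u.2.2) →
      (U.card : ℝ) ≤ K * T ^ (1 + δ) ∧
        (T ^ (9 / 5 : ℝ) < max (A : ℝ) C → (U.card : ℝ) ≤ K * T ^ (4 / 5 + δ)) := by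
  obtain ⟨K1, hK1, hK⟩ := exists_fibre_le (δ / 2) (by linarith)
  obtain ⟨K2, hK2, hD⟩ := exists_divisors_le_rpow (δ / 2) (by linarith)
  refine ⟨K1 * (5 * K2), by nlinarith, fun m T A C U hT hm hA hC hco hU => ?_⟩
  have hT0 : 0 < T := by linarith
  set Cs : Finset ℕ := U.image (fun u => u.2.2) with hCs
  have hfib : (U.card : ℝ) ≤ Cs.card * (K1 * T ^ (δ / 2)) := by
    rw [card_eq_sum_card_image (fun u => u.2.2) U, Nat.cast_sum]
    refine (sum_le_sum fun c _ => ?_).trans (by rw [sum_const, nsmul_eq_mul])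
    have := hK m T A C c ((U.filter fun u => u.2.2 = c).image fun u => (u.1, u.2.1)) hT hm hA hC
      hco fun x hx => by
        obtain ⟨u, hu, rfl⟩ := mem_image.1 hx
        obtain ⟨huU, rfl⟩ := mem_filter.1 hu
        exact hU u huU
    rwa [card_image_of_injOn] at this
    intro u hu v hv huv
    simp only [Prod.mk.injEq] at huv
    exact Prod.ext huv.1 (Prod.ext huv.2 ((mem_filter.1 hu).2.trans (mem_filter.1 hv).2.symm))
  have hK12 : 0 ≤ K1 * T ^ (δ / 2) := by positivity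
  have hCsP : ∀ c ∈ Cs, ∃ a b, PathTriple m T A C a b c := fun c hc => by
    obtain ⟨u, hu, rfl⟩ := mem_image.1 hc
    exact ⟨_, _, hU u hu⟩
  have hTd : 1 ≤ T ^ (δ / 2) := Real.one_le_rpow hT (by linarith)
  constructor
  · refine hfib.trans ?_
    have h1 : (Cs.card : ℝ) ≤ T := by
      calc (Cs.card : ℝ) ≤ ((Ioc 0 ⌊T⌋₊).card : ℝ) := by
            refine Nat.cast_le.2 (card_le_card fun c hc => ?_)
            obtain ⟨a, b, h⟩ := hCsP c hc
            exact mem_Ioc.2 ⟨h.c_pos, Nat.le_floor h.c_le⟩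
        _ ≤ T := by simpa using Nat.floor_le hT0.le
    calc (Cs.card : ℝ) * (K1 * T ^ (δ / 2)) ≤ T * (K1 * T ^ (δ / 2)) :=
          mul_le_mul_of_nonneg_right h1 hK12
      _ ≤ T * (K1 * T ^ δ) := by
          exact mul_le_mul_of_nonneg_left (mul_le_mul_of_nonneg_left
            (Real.rpow_le_rpow_of_exponent_le hT (by linarith)) (by linarith)) hT0.le
      _ = K1 * T ^ (1 + δ) := by rw [Real.rpow_add hT0, Real.rpow_one]; ring
      _ ≤ _ := mul_le_mul_of_nonneg_right (by nlinarith) (by positivity)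
  · intro hbig
    refine hfib.trans ?_
    rcases Cs.eq_empty_or_nonempty with h0 | ⟨c0, hc0⟩
    · rw [h0]; simp only [card_empty, Nat.cast_zero, zero_mul]; positivity
    obtain ⟨a0, b0, h0⟩ := hCsP c0 hc0
    obtain ⟨hAle, hCle⟩ := h0.ends_le hco
    have hp : ∀ n : ℕ, 0 < n → (n : ℝ) ≤ T ^ (3 : ℕ) → (n.divisors.card : ℝ) ≤ K2 * T ^ (δ / 2) :=
      fun n hn h => hD n T hn hT (h.trans (pow_le_pow_right₀ hT (by norm_num)))
    have hm0 : 0 < m.natAbs := Int.natAbs_pos.2 hm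
    have hmle : (m.natAbs : ℝ) ≤ T ^ (3 : ℕ) := by
      rw [Nat.cast_natAbs, Int.cast_abs]
      exact h0.m_le.trans (le_self_pow₀ hT (by norm_num))
    set sh : ℕ → ℕ := fun c => ((c : ℤ) + m).toNat with hsh
    have hshinj : Set.InjOn sh Cs := by
      intro x hx y hy hxy
      obtain ⟨_, _, h1⟩ := hCsP x hx
      obtain ⟨_, _, h2⟩ := hCsP y hy
      have := h1.c_add_pos
      have := h2.c_add_pos
      simp only [hsh] at hxy
      omega
    have hshle : ∀ c ∈ Cs, 0 < sh c ∧ (sh c : ℝ) = (((c : ℤ) + m : ℤ) : ℝ) := fun c hc => by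
      obtain ⟨_, _, h⟩ := hCsP c hc
      have := h.c_add_pos
      refine ⟨by simp only [hsh]; omega, ?_⟩
      have e : ((sh c : ℕ) : ℤ) = (c : ℤ) + m := Int.toNat_of_nonneg this.le
      exact_mod_cast e
    have hsmall : ∀ V : Finset ℕ, (∀ v ∈ V, 0 < v ∧ (v : ℝ) ≤ T ^ (4 / 5 : ℝ)) →
        (V.card : ℝ) ≤ T ^ (4 / 5 : ℝ) := fun V hV => by
      calc (V.card : ℝ) ≤ ((Ioc 0 ⌊T ^ (4 / 5 : ℝ)⌋₊).card : ℝ) := by
            refine Nat.cast_le.2 (card_le_card fun v hv => ?_)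
            exact mem_Ioc.2 ⟨(hV v hv).1, Nat.le_floor (hV v hv).2⟩
        _ ≤ _ := by simpa using Nat.floor_le (by positivity)
    classical
    set S1 := Cs.filter fun c : ℕ => (c : ℝ) ≤ T ^ (4 / 5 : ℝ)
    set S2 := Cs.filter fun c : ℕ => (sh c : ℝ) ≤ T ^ (4 / 5 : ℝ)
    set S3 := Cs.filter fun c : ℕ => T ^ (1 / 5 : ℝ) < (Nat.gcd A c : ℝ)
    set S4 := Cs.filter fun c : ℕ => T ^ (1 / 5 : ℝ) < (Nat.gcd C (sh c) : ℝ)
    set S5 := Cs.filter fun c : ℕ => T ^ (1 / 5 : ℝ) < (Nat.gcd m.natAbs c : ℝ)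
    have hcov : Cs ⊆ S1 ∪ S2 ∪ S3 ∪ S4 ∪ S5 := by
      intro c hc
      obtain ⟨a, b, h⟩ := hCsP c hc
      simp only [mem_union, S1, S2, S3, S4, S5, mem_filter, hc, true_and, (hshle c hc).2]
      rcases h.special hco hbig with h | h | h | h | h <;> tauto
    have hx : 0 ≤ T ^ (4 / 5 : ℝ) := by positivity
    have hxX : T ^ (4 / 5 : ℝ) ≤ K2 * T ^ (δ / 2) * T ^ (4 / 5 : ℝ) :=
      le_mul_of_one_le_left hx (one_le_mul_of_one_le_of_one_le hK2 hTd)
    have b1 : (S1.card : ℝ) ≤ T ^ (4 / 5 : ℝ) := hsmall S1 fun c hc => by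
      obtain ⟨hc1, hc2⟩ := mem_filter.1 hc
      obtain ⟨_, _, h⟩ := hCsP c hc1
      exact ⟨h.c_pos, hc2⟩
    have b2 : (S2.card : ℝ) ≤ T ^ (4 / 5 : ℝ) := by
      rw [← card_image_of_injOn (hshinj.mono (coe_subset.2 (filter_subset _ _)))]
      refine hsmall _ fun v hv => ?_
      obtain ⟨c, hc, rfl⟩ := mem_image.1 hv
      obtain ⟨hc1, hc2⟩ := mem_filter.1 hc
      exact ⟨(hshle c hc1).1, hc2⟩
    have b3 : (S3.card : ℝ) ≤ K2 * T ^ (δ / 2) * T ^ (4 / 5 : ℝ) := by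
      refine (card_large_gcd_le hT hA S3 fun c hc => ?_).trans
        (mul_le_mul_of_nonneg_right (hp A hA hAle) hx)
      obtain ⟨hc1, hc2⟩ := mem_filter.1 hc
      obtain ⟨_, _, h⟩ := hCsP c hc1
      exact ⟨h.c_pos, h.c_le, hc2⟩
    have b4 : (S4.card : ℝ) ≤ K2 * T ^ (δ / 2) * T ^ (4 / 5 : ℝ) := by
      rw [← card_image_of_injOn (hshinj.mono (coe_subset.2 (filter_subset _ _)))]
      refine (card_large_gcd_le hT hC _ fun v hv => ?_).trans
        (mul_le_mul_of_nonneg_right (hp C hC hCle) hx)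
      obtain ⟨c, hc, rfl⟩ := mem_image.1 hv
      obtain ⟨hc1, hc2⟩ := mem_filter.1 hc
      obtain ⟨_, _, h⟩ := hCsP c hc1
      exact ⟨(hshle c hc1).1, (hshle c hc1).2 ▸ h.c_add_le, hc2⟩
    have b5 : (S5.card : ℝ) ≤ K2 * T ^ (δ / 2) * T ^ (4 / 5 : ℝ) := by
      refine (card_large_gcd_le hT hm0 S5 fun c hc => ?_).trans
        (mul_le_mul_of_nonneg_right (hp _ hm0 hmle) hx)
      obtain ⟨hc1, hc2⟩ := mem_filter.1 hc
      obtain ⟨_, _, h⟩ := hCsP c hc1
      exact ⟨h.c_pos, h.c_le, hc2⟩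
    have hsum : (Cs.card : ℝ) ≤ 5 * (K2 * T ^ (δ / 2) * T ^ (4 / 5 : ℝ)) := by
      have : (Cs.card : ℝ) ≤ S1.card + S2.card + S3.card + S4.card + S5.card := by
        have h1 := card_union_le (S1 ∪ S2 ∪ S3 ∪ S4) S5
        have h2 := card_union_le (S1 ∪ S2 ∪ S3) S4
        have h3 := card_union_le (S1 ∪ S2) S3
        have h4 := card_union_le S1 S2
        have h5 := card_le_card hcov
        exact_mod_cast (by omega : Cs.card ≤ S1.card + S2.card + S3.card + S4.card + S5.card)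
      linarith
    calc (Cs.card : ℝ) * (K1 * T ^ (δ / 2))
        ≤ 5 * (K2 * T ^ (δ / 2) * T ^ (4 / 5 : ℝ)) * (K1 * T ^ (δ / 2)) :=
          mul_le_mul_of_nonneg_right hsum hK12
      _ = K1 * (5 * K2) * (T ^ (4 / 5 : ℝ) * (T ^ (δ / 2) * T ^ (δ / 2))) := by ring
      _ = _ := by rw [← Real.rpow_add hT0, ← Real.rpow_add hT0, add_halves]

end Vale.Agent.P028.T2
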