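import Vale.Agent.P028.T2.Overlap
import Vale.Agent.P028.Bilinear
import Vale.Agent.P028.T2.BandPath

/-!
One window below `exp (-0.49 Λ)`: few differences `m`, and for each of them the three-path count.
-/

noncomputable section

namespace Vale.Agent.P028.T2

open Finset
open scoped Classical

/-- An edge with step `m`. -/
def Edge (m : ℤ) (T : ℝ) (v w : ℕ) : Prop :=
  v ≠ w ∧ mdiff v w = m ∧ (qd v w : ℝ) ≤ T ∧ (qd w v : ℝ) ≤ T

theorem qd_cross (v w : ℕ) : v * qd w v = w * qd v w := by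
  have h1 := cl_qd_mul_gcd v w
  have h2 := cl_qd_mul_gcd w v
  rw [Nat.gcd_comm w v] at h2
  calc v * qd w v = qd v w * Nat.gcd v w * qd w v := by rw [h1]
    _ = qd v w * (qd w v * Nat.gcd v w) := by ring
    _ = w * qd v w := by rw [h2]; ring

theorem Edge.cast_qd {m : ℤ} {T : ℝ} {v w : ℕ} (h : Edge m T v w) :
    (qd v w : ℤ) + m = qd w v := by
  rw [← h.2.1, mdiff]; ring

/-- A path of length three gives a triple of quotients. -/
theorem pathTriple_of_edges {m : ℤ} {T : ℝ} {w1 v1 v w : ℕ} (hv : 0 < v) (hw : 0 < w) (hw1 : 0 < w1)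
    (hv1 : 0 < v1) (h1 : Edge m T v w1) (h2 : Edge m T v w) (h3 : Edge m T v1 w) :
    PathTriple m T (qd w1 v1) (qd v1 w1) (qd v w1) (qd v1 w) (qd v w) := by
  refine ⟨cl_qd_pos hv, h1.2.2.1, ?_, ?_, cl_qd_pos hv1, h3.2.2.1, ?_, ?_, cl_qd_pos hv, h2.2.2.1,
    ?_, ?_, ?_⟩ <;> simp only [h1.cast_qd, h2.cast_qd, h3.cast_qd, Int.cast_natCast]
  · exact_mod_cast cl_qd_pos hw1
  · exact h1.2.2.2
  · exact_mod_cast cl_qd_pos hw
  · exact h3.2.2.2
  · exact_mod_cast cl_qd_pos hw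
  · exact h2.2.2.2
  · have e : qd w1 v * qd w v1 * (qd v w * qd v1 w1) * (v * v1) =
        qd v w1 * qd v1 w * (qd w v * qd w1 v1) * (v * v1) := by
      calc qd w1 v * qd w v1 * (qd v w * qd v1 w1) * (v * v1)
          = (v * qd w1 v) * (v1 * qd w v1) * (qd v w * qd v1 w1) := by ring
        _ = qd v w1 * qd v1 w * ((w * qd v w) * (w1 * qd v1 w1)) := by
            rw [qd_cross v w1, qd_cross v1 w]; ring
        _ = qd v w1 * qd v1 w * ((v * qd w v) * (v1 * qd w1 v1)) := by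
            rw [← qd_cross v w, ← qd_cross v1 w1]
        _ = _ := by ring
    exact_mod_cast mul_right_cancel₀ (Nat.mul_pos hv hv1).ne' e

theorem Edge.path_injOn {m : ℤ} {T : ℝ} {v v' w w' w1 : ℕ} (hw1 : 0 < w1) (hv : 0 < v)
    (h1 : Edge m T v w1) (h2 : Edge m T v w) (h1' : Edge m T v' w1) (h2' : Edge m T v' w')
    (ea : qd v w1 = qd v' w1) (ec : qd v w = qd v' w') : v = v' ∧ w = w' := by
  have e1 : qd w1 v = qd w1 v' := by
    have x := h1.cast_qd
    have y := h1'.cast_qd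
    rw [ea] at x
    exact_mod_cast x.symm.trans y
  have e2 : qd w v = qd w' v' := by
    have x := h2.cast_qd
    have y := h2'.cast_qd
    rw [ec] at x
    exact_mod_cast x.symm.trans y
  have hvv : v = v' := Nat.eq_of_mul_eq_mul_right (cl_qd_pos hw1 : 0 < qd w1 v) (by
    rw [qd_cross v w1, e1, qd_cross v' w1, ea])
  subst hvv
  refine ⟨rfl, Nat.eq_of_mul_eq_mul_right (cl_qd_pos hv : 0 < qd v w) ?_⟩
  rw [← qd_cross v w, e2, qd_cross v w', ← ec]

theorem wt_le {ψ : ℕ → ℝ} (hψ : ∀ q, 0 ≤ ψ q) (q : ℕ) : wt ψ q ≤ ψ q :=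
  mul_le_of_le_one_left (hψ q)
    (div_le_one_of_le₀ (by exact_mod_cast Nat.totient_le q) (Nat.cast_nonneg q))

/-- Few edges reach far: the cube of the weight of the edges is at most that of the paths. -/
theorem cube_le_paths (S : Finset ℕ) (F : ℕ → ℝ) (e : ℕ → ℕ → ℝ) (hF : ∀ q, 0 ≤ F q)
    (he : ∀ v w, 0 ≤ e v w) :
    (∑ v ∈ S, ∑ w ∈ S, e v w * (F v * F w)) ^ 3 ≤ 32 * (∑ v ∈ S, F v) ^ 2 *
      ∑ a ∈ S, ∑ b ∈ S, F a * F b * ∑ v ∈ S, ∑ w ∈ S, e v a * e v w * e b w * (F v * F w) := by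
  set E := ∑ v ∈ S, ∑ w ∈ S, e v w * (F v * F w) with hE
  set μ := ∑ v ∈ S, F v with hμ
  set dout : ℕ → ℝ := fun v => ∑ a ∈ S, e v a * F a with hdout
  set din : ℕ → ℝ := fun w => ∑ b ∈ S, e b w * F b with hdin
  have hμ0 : 0 ≤ μ := sum_nonneg fun v _ => hF v
  have hE0 : 0 ≤ E := sum_nonneg fun v _ => sum_nonneg fun w _ =>
    mul_nonneg (he v w) (mul_nonneg (hF v) (hF w))
  have ho : ∀ v, 0 ≤ dout v := fun v => sum_nonneg fun a _ => mul_nonneg (he v a) (hF a)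
  have hi : ∀ w, 0 ≤ din w := fun w => sum_nonneg fun b _ => mul_nonneg (he b w) (hF b)
  have hP : ∑ a ∈ S, ∑ b ∈ S, F a * F b * ∑ v ∈ S, ∑ w ∈ S, e v a * e v w * e b w * (F v * F w) =
      ∑ v ∈ S, ∑ w ∈ S, e v w * (F v * F w) * (dout v * din w) := by
    simp only [hdout, hdin, mul_sum, sum_mul]
    rw [sum_comm_cycle]
    refine sum_congr rfl fun v _ => ?_
    rw [sum_comm_cycle]
    refine sum_congr rfl fun w _ => ?_
    rw [sum_comm]
    exact sum_congr rfl fun b _ => sum_congr rfl fun a _ => by ring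
  rw [hP]
  rcases hμ0.eq_or_lt with h0 | hpos
  · have : E = 0 := sum_eq_zero fun v hv => sum_eq_zero fun w _ => by
      rw [(sum_eq_zero_iff_of_nonneg fun v _ => hF v).1 h0.symm v hv]; ring
    rw [this, ← h0]; simp
  set th : ℝ := E / (4 * μ) with hth
  have hth0 : 0 ≤ th := by positivity
  have key : ∀ v w, th ^ 2 * (e v w * (F v * F w)) -
      th ^ 2 * (if dout v < th then F v * (e v w * F w) else 0) -
      th ^ 2 * (if din w < th then F w * (e v w * F v) else 0) ≤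
        e v w * (F v * F w) * (dout v * din w) := by
    intro v w
    have h0 : 0 ≤ e v w * (F v * F w) := mul_nonneg (he v w) (mul_nonneg (hF v) (hF w))
    have h1 : 0 ≤ e v w * (F v * F w) * (dout v * din w) := mul_nonneg h0 (mul_nonneg (ho v) (hi w))
    have h2 : 0 ≤ th ^ 2 * (e v w * (F v * F w)) := mul_nonneg (sq_nonneg _) h0
    have e1 : F v * (e v w * F w) = e v w * (F v * F w) := by ring
    have e2 : F w * (e v w * F v) = e v w * (F v * F w) := by ring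
    rw [e1, e2]
    split_ifs with ha hb hb
    · linarith
    · linarith
    · linarith
    · have := mul_le_mul_of_nonneg_left
        (mul_le_mul (not_lt.1 ha) (not_lt.1 hb) hth0 (ho v)) h0
      linarith
  have hsum := sum_le_sum (s := S) fun v _ => sum_le_sum (s := S) fun w _ => key v w
  simp only [sum_sub_distrib, ← mul_sum] at hsum
  rw [← hE] at hsum
  have hl1 : ∑ v ∈ S, ∑ w ∈ S, (if dout v < th then F v * (e v w * F w) else 0) ≤ th * μ := by
    rw [hμ, mul_sum]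
    refine sum_le_sum fun v _ => ?_
    split_ifs with h
    · rw [← mul_sum, mul_comm th]
      exact mul_le_mul_of_nonneg_left h.le (hF v)
    · rw [sum_const_zero]; exact mul_nonneg hth0 (hF v)
  have hl2 : ∑ v ∈ S, ∑ w ∈ S, (if din w < th then F w * (e v w * F v) else 0) ≤ th * μ := by
    rw [sum_comm, hμ, mul_sum]
    refine sum_le_sum fun w _ => ?_
    split_ifs with h
    · rw [← mul_sum, mul_comm th]
      exact mul_le_mul_of_nonneg_left h.le (hF w)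
    · rw [sum_const_zero]; exact mul_nonneg hth0 (hF w)
  have h3 : th ^ 2 * (E - 2 * (th * μ)) ≤ ∑ v ∈ S, ∑ w ∈ S, e v w * (F v * F w) * (dout v * din w) := by
    nlinarith [mul_le_mul_of_nonneg_left hl1 (sq_nonneg th), mul_le_mul_of_nonneg_left hl2 (sq_nonneg th)]
  have h4 : th ^ 2 * (E - 2 * (th * μ)) * (32 * μ ^ 2) = E ^ 3 := by
    rw [hth]; field_simp; ring
  rw [← h4, mul_comm]
  exact mul_le_mul_of_nonneg_left h3 (by positivity)

/-- The middle edges of the paths with given ends. -/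
theorem paths_le {K : ℝ} (hK1 : 1 ≤ K)
    (hK : ∀ (m : ℤ) (T : ℝ) (A C : ℕ) (U : Finset (ℕ × ℕ × ℕ)), 1 ≤ T → m ≠ 0 →
      0 < A → 0 < C → Nat.Coprime A C →
      (∀ u ∈ U, PathTriple m T A C u.1 u.2.1 u.2.2) →
      (U.card : ℝ) ≤ K * T ^ (1 + 1 / 1000 : ℝ) ∧
        (T ^ (9 / 5 : ℝ) < max (A : ℝ) C → (U.card : ℝ) ≤ K * T ^ (4 / 5 + 1 / 1000 : ℝ)))
    {ψ : ℕ → ℝ} {S : Finset ℕ} {m : ℤ} {T ε : ℝ} (hT1 : 1 ≤ T) (hm : m ≠ 0)
    (hψ : ∀ q, 0 ≤ ψ q) (hS : ∀ q ∈ S, 0 < q ∧ ψ q ≤ ε) {a b : ℕ} (ha : a ∈ S) (hb : b ∈ S) :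
    let e : ℕ → ℕ → ℝ := fun v w => if Edge m T v w then 1 else 0
    ∑ v ∈ S, ∑ w ∈ S, e v a * e v w * e b w * (wt ψ v * wt ψ w) ≤
      ε ^ 2 * (K * T ^ ((4 / 5 : ℝ) + 1 / 1000) +
        (if max (qd a b : ℝ) (qd b a) ≤ T ^ (9 / 5 : ℝ) then 1 else 0) *
          (K * T ^ ((1 : ℝ) + 1 / 1000))) := by
  intro e
  have he : e = fun v w => if Edge m T v w then 1 else 0 := rfl
  set F : ℕ → ℝ := wt ψ
  have hF0 : ∀ q, 0 ≤ F q := BilinearAux.wt_nonneg hψ
  have hFε : ∀ q ∈ S, F q ≤ ε := fun q hq => (wt_le hψ q).trans (hS q hq).2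
  have hε0 : 0 ≤ ε := (hF0 a).trans (hFε a ha)
  set N1 : ℝ := K * T ^ ((4 / 5 : ℝ) + 1 / 1000)
  set N2 : ℝ := K * T ^ ((1 : ℝ) + 1 / 1000)
  set Q : Finset (ℕ × ℕ) :=
    (S ×ˢ S).filter (fun u => Edge m T u.1 a ∧ Edge m T u.1 u.2 ∧ Edge m T b u.2) with hQ
  have h1 : ∑ v ∈ S, ∑ w ∈ S, e v a * e v w * e b w * (F v * F w) ≤ Q.card * ε ^ 2 := by
    rw [← sum_product', ← nsmul_eq_mul, ← sum_const, hQ, sum_filter]
    refine sum_le_sum fun u hu => ?_
    obtain ⟨hu1, hu2⟩ := mem_product.1 hu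
    by_cases hc : Edge m T u.1 a ∧ Edge m T u.1 u.2 ∧ Edge m T b u.2
    · simp only [he, if_pos hc.1, if_pos hc.2.1, if_pos hc.2.2, if_pos hc, one_mul, sq]
      exact mul_le_mul (hFε _ hu1) (hFε _ hu2) (hF0 _) hε0
    · rw [if_neg hc]
      rcases not_and_or.1 hc with h | h
      · simp only [he, if_neg h, zero_mul, le_refl]
      · rcases not_and_or.1 h with h | h <;> simp only [he, if_neg h, zero_mul, mul_zero, le_refl]
  refine h1.trans (by
    rw [mul_comm]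
    refine mul_le_mul_of_nonneg_left ?_ (sq_nonneg ε)
    set f : ℕ × ℕ → ℕ × ℕ × ℕ := fun u => (qd u.1 a, qd b u.2, qd u.1 u.2) with hf
    have hinj : Set.InjOn f Q := by
      intro u hu u' hu' huv
      obtain ⟨hu0, c1, c2, -⟩ := mem_filter.1 hu
      obtain ⟨-, c1', c2', -⟩ := mem_filter.1 hu'
      simp only [hf, Prod.mk.injEq] at huv
      have := Edge.path_injOn (hS a ha).1 (hS _ (mem_product.1 hu0).1).1 c1 c2 c1' c2'
        huv.1 huv.2.2
      exact Prod.ext this.1 this.2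
    have hk := hK m T (qd a b) (qd b a) (Q.image f) hT1 hm (cl_qd_pos (hS a ha).1)
      (cl_qd_pos (hS b hb).1) (cl_coprime_qd (hS a ha).1) fun t ht => by
        obtain ⟨u, hu, rfl⟩ := mem_image.1 ht
        obtain ⟨hu0, c1, c2, c3⟩ := mem_filter.1 hu
        obtain ⟨m1, m2⟩ := mem_product.1 hu0
        exact pathTriple_of_edges (hS _ m1).1 (hS _ m2).1 (hS a ha).1 (hS b hb).1 c1 c2 c3
    rw [card_image_of_injOn hinj] at hk
    have n1 : 0 ≤ N1 := by positivity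
    by_cases hl : max (qd a b : ℝ) (qd b a) ≤ T ^ (9 / 5 : ℝ)
    · rw [if_pos hl, one_mul]; simp only [N1, N2] at n1 ⊢; linarith [hk.1]
    · rw [if_neg hl, zero_mul, add_zero]; exact hk.2 (not_le.1 hl))

/-- The paths with close ends. -/
theorem low_sum_le {Cm : ℝ}
    (hCm : ∀ (ψ : ℕ → ℝ) (S : Finset ℕ) (x : ℝ) (y s : ℕ),
      (∀ q ∈ S, 0 < q) → (∀ q, 0 ≤ ψ q) → 0 < x → (s : ℝ) ≤ 0 * ((y : ℝ) + 1) →
      ∑ q ∈ S, ∑ r ∈ S.filter (fun r => q ≠ r ∧ dist2 ψ q r ≤ x),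
          wt ψ q * wt ψ r * hFac y (qd q r * qd r q) ^ s ≤
        Cm * (mass ψ S + mass ψ S ^ 2) * x ^ (993 / 1000 : ℝ))
    {ψ : ℕ → ℝ} {S : Finset ℕ} {T Λ : ℝ} (hT1 : 1 ≤ T) (hε1 : Real.exp (-Λ) ≤ 1)
    (hψ : ∀ q, 0 ≤ ψ q) (hS : ∀ q ∈ S, 0 < q ∧ ψ q ≤ Real.exp (-Λ)) :
    ∑ a ∈ S, ∑ b ∈ S, wt ψ a * wt ψ b *
        (if max (qd a b : ℝ) (qd b a) ≤ T ^ (9 / 5 : ℝ) then 1 else 0) ≤
      (1 + |Cm|) * (mass ψ S + mass ψ S ^ 2) *
        (Real.exp (-Λ) * T ^ (9 / 5 : ℝ)) ^ (993 / 1000 : ℝ) := by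
  set ε : ℝ := Real.exp (-Λ)
  set x : ℝ := ε * T ^ (9 / 5 : ℝ)
  have hx0 : 0 < x := mul_pos (Real.exp_pos _) (Real.rpow_pos_of_pos (by linarith) _)
  set F : ℕ → ℝ := wt ψ with hF
  have hF0 : ∀ q, 0 ≤ F q := BilinearAux.wt_nonneg hψ
  have hFε : ∀ q ∈ S, F q ≤ ε := fun q hq => (wt_le hψ q).trans (hS q hq).2
  set μ := mass ψ S with hμdef
  have hμ : 0 ≤ μ := BilinearAux.mass_nonneg hψ S
  have hd : ∀ a ∈ S, ∀ b ∈ S, max (qd a b : ℝ) (qd b a) ≤ T ^ (9 / 5 : ℝ) → dist2 ψ a b ≤ x := by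
    intro a ha b hb hl
    refine max_le ?_ ?_
    · exact mul_le_mul (hS a ha).2 ((le_max_right _ _).trans hl) (Nat.cast_nonneg _)
        (Real.exp_pos _).le
    · exact mul_le_mul (hS b hb).2 ((le_max_left _ _).trans hl) (Nat.cast_nonneg _)
        (Real.exp_pos _).le
  have hεx : ε ≤ x ^ (993 / 1000 : ℝ) := by
    calc ε = ε ^ (1 : ℝ) := (Real.rpow_one ε).symm
      _ ≤ ε ^ (993 / 1000 : ℝ) :=
        Real.rpow_le_rpow_of_exponent_ge (Real.exp_pos _) hε1 (by norm_num)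
      _ ≤ _ := Real.rpow_le_rpow (Real.exp_pos _).le
        (le_mul_of_one_le_right (Real.exp_pos _).le (Real.one_le_rpow hT1 (by norm_num)))
        (by norm_num)
  have hmom := hCm ψ S x 0 0 (fun q hq => (hS q hq).1) hψ hx0 (by simp)
  simp only [pow_zero, mul_one] at hmom
  have hstep : ∀ a ∈ S, ∑ b ∈ S, F a * F b * (if max (qd a b : ℝ) (qd b a) ≤ T ^ (9 / 5 : ℝ) then 1 else 0) ≤ F a * ε +
      ∑ b ∈ S.filter (fun b => a ≠ b ∧ dist2 ψ a b ≤ x), F a * F b := by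
    intro a ha
    rw [← add_sum_erase S _ ha, sum_filter, ← add_sum_erase S _ ha]
    refine add_le_add ?_ ?_
    · split_ifs
      · rw [mul_one]; exact mul_le_mul_of_nonneg_left (hFε a ha) (hF0 a)
      · rw [mul_zero]; exact mul_nonneg (hF0 a) (Real.exp_pos _).le
    · rw [if_neg (fun h => h.1 rfl), zero_add]
      refine sum_le_sum fun b hb => ?_
      obtain ⟨hba, hbS⟩ := mem_erase.1 hb
      split_ifs with hl hc hc
      · rw [mul_one]
      · exact absurd ⟨Ne.symm hba, hd a ha b hbS hl⟩ hc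
      · rw [mul_zero]; exact mul_nonneg (hF0 a) (hF0 b)
      · rw [mul_zero]
  refine (sum_le_sum hstep).trans ?_
  rw [sum_add_distrib, ← sum_mul]
  have hX : 0 ≤ (μ + μ ^ 2) * x ^ (993 / 1000 : ℝ) := by positivity
  have h1 : μ * ε ≤ (μ + μ ^ 2) * x ^ (993 / 1000 : ℝ) :=
    mul_le_mul (by nlinarith) hεx (Real.exp_pos _).le (by positivity)
  have h2 := mul_le_mul_of_nonneg_right (le_abs_self Cm) hX
  simp only [hμdef, mass] at h1 h2 hmom ⊢
  simp only [hF] at hmom ⊢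
  linarith

/-- The two exponents of the three-path count. -/
theorem exp_bounds (K Λ : ℝ) (hK : 0 ≤ K) (hΛ : 0 ≤ Λ) :
    let T : ℝ := 4 * Real.exp (511 / 1000 * Λ)
    let ε : ℝ := Real.exp (-Λ)
    let G : ℝ := Real.exp (-(156 / 100 * Λ))
    ε ^ 2 * (K * T ^ ((4 / 5 : ℝ) + 1 / 1000)) ≤ 64 * K * G ∧
      ε ^ 2 * (K * T ^ ((1 : ℝ) + 1 / 1000)) * (ε * T ^ (9 / 5 : ℝ)) ^ (993 / 1000 : ℝ) ≤
        64 * K * 64 * G := by
  intro T ε G
  have hT : T = 4 * Real.exp (511 / 1000 * Λ) := rfl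
  have hε : ε = Real.exp (-Λ) := rfl
  have hG : G = Real.exp (-(156 / 100 * Λ)) := rfl
  have hT0 : 0 < T := by rw [hT]; positivity
  set N1 : ℝ := K * T ^ ((4 / 5 : ℝ) + 1 / 1000) with hN1
  set N2 : ℝ := K * T ^ ((1 : ℝ) + 1 / 1000) with hN2
  set x : ℝ := ε * T ^ (9 / 5 : ℝ) with hx
  have hT5 : ∀ r : ℝ, 0 ≤ r → r ≤ 3 → T ^ r ≤ 64 * Real.exp (511 / 1000 * Λ * r) := by
    intro r hr hr3
    rw [hT, Real.mul_rpow (by norm_num) (Real.exp_pos _).le, ← Real.exp_mul]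
    refine mul_le_mul_of_nonneg_right ?_ (Real.exp_pos _).le
    calc (4 : ℝ) ^ r ≤ (4 : ℝ) ^ (3 : ℝ) := Real.rpow_le_rpow_of_exponent_le (by norm_num) hr3
      _ = 64 := by norm_num
  have hA : ε ^ 2 * N1 ≤ 64 * K * G := by
    have h := hT5 ((4 / 5 : ℝ) + 1 / 1000) (by norm_num) (by norm_num)
    calc ε ^ 2 * N1 = K * (ε ^ 2 * T ^ ((4 / 5 : ℝ) + 1 / 1000)) := by rw [hN1]; ring
      _ ≤ K * (ε ^ 2 * (64 * Real.exp (511 / 1000 * Λ * ((4 / 5 : ℝ) + 1 / 1000)))) := by gcongr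
      _ ≤ K * (64 * G) := by
          refine mul_le_mul_of_nonneg_left ?_ (by linarith)
          rw [hε, hG, ← Real.exp_nat_mul, mul_left_comm, ← Real.exp_add]
          refine mul_le_mul_of_nonneg_left (Real.exp_le_exp.2 ?_) (by norm_num)
          push_cast; linarith
      _ = _ := by ring
  have hB : ε ^ 2 * N2 * x ^ (993 / 1000 : ℝ) ≤ 64 * K * 64 * G := by
    have h := hT5 ((1 : ℝ) + 1 / 1000) (by norm_num) (by norm_num)
    have h' : x ^ (993 / 1000 : ℝ) ≤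
        64 * Real.exp (-Λ * (993 / 1000) + 511 / 1000 * Λ * (9 / 5 * (993 / 1000))) := by
      rw [hx, Real.mul_rpow (Real.exp_pos _).le (by positivity), ← Real.rpow_mul hT0.le,
        ← Real.exp_mul, Real.exp_add, ← mul_assoc, mul_comm (64 : ℝ), mul_assoc]
      exact mul_le_mul_of_nonneg_left (hT5 _ (by norm_num) (by norm_num)) (Real.exp_pos _).le
    calc ε ^ 2 * N2 * x ^ (993 / 1000 : ℝ)
        ≤ ε ^ 2 * (K * (64 * Real.exp (511 / 1000 * Λ * ((1 : ℝ) + 1 / 1000)))) *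
          (64 * Real.exp (-Λ * (993 / 1000) + 511 / 1000 * Λ * (9 / 5 * (993 / 1000)))) := by
          rw [hN2]; gcongr
      _ = 64 * K * 64 * Real.exp ((2 : ℕ) * (-Λ) + (511 / 1000 * Λ * ((1 : ℝ) + 1 / 1000) +
          (-Λ * (993 / 1000) + 511 / 1000 * Λ * (9 / 5 * (993 / 1000))))) := by
          simp only [hε, Real.exp_add, Real.exp_nat_mul]; ring
      _ ≤ _ := by
          refine mul_le_mul_of_nonneg_left (Real.exp_le_exp.2 ?_) (by linarith)
          push_cast; linarith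
  exact ⟨hA, hB⟩

/-- The edges with a fixed difference weigh little. -/
theorem exists_threePath_le :
    ∃ C lam0 : ℝ, ∀ (ψ : ℕ → ℝ) (S : Finset ℕ) (Λ : ℝ) (m : ℤ), lam0 ≤ Λ → m ≠ 0 →
      (∀ q, 0 ≤ ψ q) → (∀ q ∈ S, 0 < q ∧ ψ q ≤ Real.exp (-Λ)) →
      ∑ v ∈ S, ∑ w ∈ S.filter (fun w => v ≠ w ∧ mdiff v w = m ∧
          (qd v w : ℝ) ≤ 4 * Real.exp (511 / 1000 * Λ) ∧
          (qd w v : ℝ) ≤ 4 * Real.exp (511 / 1000 * Λ)), wt ψ v * wt ψ w ≤
        C * Real.exp (-(52 / 100 * Λ)) * (mass ψ S + mass ψ S ^ 2) := by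
  obtain ⟨K, hK1, hK⟩ := exists_path_count_le (1 / 1000) (by norm_num)
  obtain ⟨Cm, hCm⟩ := exists_moment_le 0 le_rfl
  set K' : ℝ := 64 * K * (1 + (1 + |Cm|) * 64) with hK'
  refine ⟨32 * K' + 1, 0, fun ψ S Λ m hΛ hm hψ hS => ?_⟩
  set T : ℝ := 4 * Real.exp (511 / 1000 * Λ) with hT
  set ε : ℝ := Real.exp (-Λ) with hε
  have hT1 : 1 ≤ T := by
    have := Real.one_le_exp (show (0 : ℝ) ≤ 511 / 1000 * Λ by linarith)
    linarith
  have hT0 : 0 < T := by linarith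
  have hε1 : ε ≤ 1 := Real.exp_le_one_iff.2 (by linarith)
  set F : ℕ → ℝ := wt ψ with hF
  have hF0 : ∀ q, 0 ≤ F q := BilinearAux.wt_nonneg hψ
  have hFε : ∀ q ∈ S, F q ≤ ε := fun q hq => (wt_le hψ q).trans (hS q hq).2
  set μ := mass ψ S with hμdef
  have hμ : 0 ≤ μ := BilinearAux.mass_nonneg hψ S
  set e : ℕ → ℕ → ℝ := fun v w => if Edge m T v w then 1 else 0 with he
  have he0 : ∀ v w, 0 ≤ e v w := fun v w => by simp only [he]; split_ifs <;> norm_num
  have hLHS : ∑ v ∈ S, ∑ w ∈ S.filter (fun w => v ≠ w ∧ mdiff v w = m ∧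
      (qd v w : ℝ) ≤ T ∧ (qd w v : ℝ) ≤ T), F v * F w =
      ∑ v ∈ S, ∑ w ∈ S, e v w * (F v * F w) :=
    sum_congr rfl fun v _ => by
      rw [sum_filter]
      exact sum_congr rfl fun w _ => by simp only [he, Edge]; split_ifs <;> simp_all
  rw [hLHS]
  set x : ℝ := ε * T ^ (9 / 5 : ℝ) with hx
  have hx0 : 0 < x := by positivity
  set low : ℕ → ℕ → ℝ := fun a b =>
    if max (qd a b : ℝ) (qd b a) ≤ T ^ (9 / 5 : ℝ) then 1 else 0 with hlow
  set N1 : ℝ := K * T ^ ((4 / 5 : ℝ) + 1 / 1000) with hN1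
  set N2 : ℝ := K * T ^ ((1 : ℝ) + 1 / 1000) with hN2
  have hcount : ∀ a ∈ S, ∀ b ∈ S,
      ∑ v ∈ S, ∑ w ∈ S, e v a * e v w * e b w * (F v * F w) ≤
        ε ^ 2 * (N1 + low a b * N2) := fun a ha b hb =>
    paths_le hK1 hK hT1 hm hψ hS ha hb
  have hlowsum : ∑ a ∈ S, ∑ b ∈ S, F a * F b * low a b ≤
      (1 + |Cm|) * (μ + μ ^ 2) * x ^ (993 / 1000 : ℝ) :=
    low_sum_le hCm hT1 hε1 hψ hS
  set G : ℝ := Real.exp (-(156 / 100 * Λ)) with hG
  obtain ⟨hA, hB⟩ := exp_bounds K Λ (by linarith) hΛ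
  have hP3 : ∑ a ∈ S, ∑ b ∈ S, F a * F b * ∑ v ∈ S, ∑ w ∈ S, e v a * e v w * e b w * (F v * F w) ≤
      K' * G * (μ + μ ^ 2) := by
    calc _ ≤ ∑ a ∈ S, ∑ b ∈ S, (ε ^ 2 * N1 * (F a * F b) + ε ^ 2 * N2 * (F a * F b * low a b)) :=
          sum_le_sum fun a ha => sum_le_sum fun b hb => by
            refine (mul_le_mul_of_nonneg_left (hcount a ha b hb)
              (mul_nonneg (hF0 a) (hF0 b))).trans_eq ?_
            ring
      _ = ε ^ 2 * N1 * μ ^ 2 + ε ^ 2 * N2 * ∑ a ∈ S, ∑ b ∈ S, F a * F b * low a b := by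
          simp only [sum_add_distrib, ← mul_sum]
          rw [← sum_mul, sq μ]
          simp only [hμdef, mass, hF]
      _ ≤ 64 * K * G * (μ + μ ^ 2) + (1 + |Cm|) * (μ + μ ^ 2) * (64 * K * 64 * G) := by
          refine add_le_add (mul_le_mul hA (by linarith) (sq_nonneg μ) (by positivity)) ?_
          refine (mul_le_mul_of_nonneg_left hlowsum (by positivity)).trans ?_
          calc ε ^ 2 * N2 * ((1 + |Cm|) * (μ + μ ^ 2) * x ^ (993 / 1000 : ℝ))
              = (1 + |Cm|) * (μ + μ ^ 2) * (ε ^ 2 * N2 * x ^ (993 / 1000 : ℝ)) := by ring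
            _ ≤ _ := mul_le_mul_of_nonneg_left hB (by positivity)
      _ = _ := by rw [hK']; ring
  have hcube := cube_le_paths S F e hF0 he0
  have hμS : ∑ v ∈ S, F v = μ := rfl
  rw [hμS] at hcube
  have hK'0 : 0 ≤ K' := by rw [hK']; positivity
  refine le_of_pow_le_pow_left₀ (by norm_num : (3 : ℕ) ≠ 0) (by positivity) (hcube.trans ?_)
  calc 32 * μ ^ 2 * _ ≤ 32 * μ ^ 2 * (K' * G * (μ + μ ^ 2)) :=
        mul_le_mul_of_nonneg_left hP3 (by positivity)
    _ = 32 * K' * G * (μ ^ 3 + μ ^ 4) := by ring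
    _ ≤ (32 * K' + 1) ^ 3 * G * (μ + μ ^ 2) ^ 3 := by
        refine mul_le_mul (mul_le_mul_of_nonneg_right ?_ (Real.exp_pos _).le) ?_ (by positivity)
          (by positivity)
        · calc 32 * K' ≤ 32 * K' + 1 := by linarith
            _ ≤ _ := le_self_pow₀ (by linarith) (by norm_num)
        · have h4 : 0 ≤ μ ^ 4 := by positivity
          have h5 : 0 ≤ μ ^ 5 := by positivity
          have h6 : 0 ≤ μ ^ 6 := by positivity
          nlinarith
    _ = _ := by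
        rw [hG, mul_pow, mul_pow, ← Real.exp_nat_mul]
        congr 3
        push_cast; ring

/-- The differences with a coincidence off the line are few. -/
theorem exists_card_diff_le :
    ∃ C : ℝ, ∀ (γ p x : ℝ) (A : ℤ) (B : ℕ) (T : Finset ℤ), ShortVec γ p A B → 0 < p → 0 < x →
      x ≤ 1 / 16 →
      (∀ m ∈ T, p * |(m : ℝ)| ≤ 4 * x ∧
        ∃ n : ℤ, |(n : ℝ) + γ * m| ≤ 4 * x ∧ n * (B : ℤ) + A * m ≠ 0) →
      (T.card : ℝ) ≤ C * (x ^ 2 / p) := by
  refine ⟨2 * (8 * (16 + 8 * 4 + 4 * 16)), fun γ p x A B T hv hp hx hx16 hT => ?_⟩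
  rcases T.eq_empty_or_nonempty with rfl | ⟨m0, hm0⟩
  · simp only [card_empty, Nat.cast_zero]; positivity
  choose! nf hnf hne using fun m hm => (hT m hm).2
  set R : ℝ := 4 * x with hR
  have hR0 : 0 < R := by positivity
  have hm_ne : ∀ m ∈ T, m ≠ 0 := by
    rintro m hm rfl
    have h1 := hnf 0 hm
    have h2 := hne 0 hm
    rw [Int.cast_zero, mul_zero, add_zero] at h1
    have h3 : |nf 0| < 1 := by exact_mod_cast lt_of_le_of_lt h1 (by linarith : 4 * x < 1)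
    rw [abs_lt] at h3
    exact h2 (by rw [show nf 0 = 0 by omega]; ring)
  set U : Finset ℕ := T.image Int.natAbs with hU
  have hmem : ∀ m ∈ T, ((m.natAbs, decide (0 ≤ m))) ∈ U ×ˢ (univ : Finset Bool) := fun m hm =>
    mem_product.2 ⟨mem_image_of_mem _ hm, mem_univ _⟩
  have hcard : T.card ≤ 2 * U.card := by
    refine (card_le_card_of_injOn _ hmem ?_).trans (by simp [mul_comm])
    intro u hu v hv huv
    simp only [Prod.mk.injEq, decide_eq_decide] at huv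
    have := hm_ne u hu
    have := hm_ne v hv
    rcases Int.natAbs_eq_natAbs_iff.1 huv.1 with h | h
    · exact h
    · omega
  set lam := latNorm γ p A B with hlam
  have hl : 0 < lam := hv.norm_pos hp
  have hdet : p ≤ 2 * R * lam := by
    have hd := det_le hv hp (a := -nf m0) (b := (m0 : ℝ)) (R := R) (hT m0 hm0).1 (by
      push_cast
      rw [show (m0 : ℝ) * γ - -(nf m0 : ℝ) = (nf m0 : ℝ) + γ * m0 by ring]
      exact hnf m0 hm0)
    have h1 : (1 : ℝ) ≤ |(m0 : ℝ) * A - ((-nf m0 : ℤ) : ℝ) * B| := by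
      have : (1 : ℤ) ≤ |nf m0 * (B : ℤ) + A * m0| := Int.one_le_abs (hne m0 hm0)
      have e : (m0 : ℝ) * A - ((-nf m0 : ℤ) : ℝ) * B = ((nf m0 * (B : ℤ) + A * m0 : ℤ) : ℝ) := by
        push_cast; ring
      rw [e]; exact_mod_cast this
    calc p = p * 1 := (mul_one p).symm
      _ ≤ p * _ := mul_le_mul_of_nonneg_left h1 hp.le
      _ ≤ _ := hd
  have hRl : R / lam ≤ 2 * (R ^ 2 / p) := by
    rw [← mul_div_assoc, div_le_div_iff₀ hl hp]
    nlinarith [mul_le_mul_of_nonneg_left hdet hR0.le]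
  have hone : 1 ≤ 4 * (R ^ 2 / p) := by
    rw [← mul_div_assoc, one_le_div hp]
    have h1 : p ^ 2 ≤ (2 * R) ^ 2 * p :=
      (pow_le_pow_left₀ hp.le hdet 2).trans (by
        rw [mul_pow]; exact mul_le_mul_of_nonneg_left hv.norm_sq_le (by positivity))
    exact le_of_mul_le_mul_right (by linarith) hp
  have hUc := card_lattice_le hv hp hR0.le U (by
    intro u hu
    obtain ⟨m, hm, rfl⟩ := mem_image.1 hu
    have e : ((m.natAbs : ℕ) : ℝ) = |(m : ℝ)| := by rw [Nat.cast_natAbs, Int.cast_abs]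
    refine ⟨by rw [e]; exact (hT m hm).1, ?_⟩
    rcases le_or_gt 0 m with h | h
    · refine ⟨-nf m, ?_⟩
      rw [e, abs_of_nonneg (show (0 : ℝ) ≤ (m : ℝ) by exact_mod_cast h)]
      push_cast
      rw [show (m : ℝ) * γ - -(nf m : ℝ) = (nf m : ℝ) + γ * m by ring]
      exact hnf m hm
    · refine ⟨nf m, ?_⟩
      rw [e, abs_of_neg (show (m : ℝ) < 0 by exact_mod_cast h),
        show -(m : ℝ) * γ - (nf m : ℝ) = -((nf m : ℝ) + γ * m) by ring, abs_neg]
      exact hnf m hm)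
  calc (T.card : ℝ) ≤ ((2 * U.card : ℕ) : ℝ) := by exact_mod_cast hcard
    _ ≤ 2 * (8 * (7 * (R ^ 2 / p))) := by push_cast; linarith
    _ = _ := by rw [hR]; ring

theorem exists_band_le :
    ∃ C lam0 : ℝ, ∀ P : Sys, P.Ok lam0 → ∀ S : Finset ℕ, S ⊆ P.S →
      ∀ Λ : ℝ, (∀ q ∈ S, P.lam q = Λ) →
      ∑ v ∈ S, ∑ w ∈ S.filter (fun w => v ≠ w ∧
          dist2 P.ψ v w ≤ 2 * Real.exp (-(49 / 100 * Λ)) ∧ (P.goodSet v w).Nonempty),
          wt P.ψ v * wt P.ψ w / dist2 P.ψ v w ≤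
        C * Real.exp (-(Λ / 200)) * (mass P.ψ S + mass P.ψ S ^ 2) := by
  obtain ⟨C1, lam1, hC1⟩ := exists_threePath_le
  obtain ⟨C2, hC2⟩ := exists_card_diff_le
  refine ⟨max C1 0 * max C2 0 * 8, max lam1 20, fun P hP S hS Λ hΛS => ?_⟩
  have hψ : ∀ q, 0 ≤ P.ψ q := hP.nonneg
  set μ := mass P.ψ S with hμdef
  have hμ : 0 ≤ μ := BilinearAux.mass_nonneg hψ S
  rcases S.eq_empty_or_nonempty with rfl | ⟨q0, hq0⟩
  · simp [hμdef, mass]
  have hΛ : max lam1 20 ≤ Λ := hΛS q0 hq0 ▸ hP.lam_ge q0 (hS hq0)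
  have hΛ20 : 20 ≤ Λ := (le_max_right _ _).trans hΛ
  set p : ℝ := Real.exp (-(rhoC * Λ)) with hp
  have hp0 : 0 < p := Real.exp_pos _
  set x0 : ℝ := 2 * Real.exp (-(49 / 100 * Λ)) with hx0
  have hx0pos : 0 < x0 := by positivity
  have hx16 : x0 ≤ 1 / 16 := by
    have h : Real.exp (-(49 / 100 * Λ)) ≤ 1 / 32 := by
      rw [Real.exp_neg, one_div]
      refine inv_anti₀ (by norm_num) ?_
      calc (32 : ℝ) = 2 ^ 5 := by norm_num
        _ ≤ Real.exp 1 ^ 5 := pow_le_pow_left₀ (by norm_num) (by linarith [Real.exp_one_gt_d9]) 5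
        _ ≤ _ := by rw [← Real.exp_nat_mul]; exact Real.exp_le_exp.2 (by push_cast; linarith)
    linarith
  have hpψ : ∀ q ∈ S, p ≤ P.ψ q := fun q hq => by
    have := hP.le_psi q (hS hq)
    rwa [hΛS q hq] at this
  have hSq : ∀ q ∈ S, 0 < q ∧ P.ψ q ≤ Real.exp (-Λ) := fun q hq =>
    ⟨hP.pos q (hS hq), hΛS q hq ▸ hP.psi_le q (hS hq)⟩
  have hqd : ∀ v ∈ S, ∀ w ∈ S, p * qd w v ≤ dist2 P.ψ v w ∧ p * qd v w ≤ dist2 P.ψ v w :=
    fun v hv w hw => ⟨(mul_le_mul_of_nonneg_right (hpψ v hv) (Nat.cast_nonneg _)).trans (le_max_left _ _),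
      (mul_le_mul_of_nonneg_right (hpψ w hw) (Nat.cast_nonneg _)).trans (le_max_right _ _)⟩
  have hDp : ∀ v ∈ S, ∀ w ∈ S, p ≤ dist2 P.ψ v w := fun v hv w hw =>
    le_trans (le_mul_of_one_le_right hp0.le
      (by exact_mod_cast cl_qd_pos (hSq w hw).1)) (hqd v hv w hw).1
  set T : ℝ := 4 * Real.exp (511 / 1000 * Λ) with hT
  have hxp : x0 / p = 2 * Real.exp (511 / 1000 * Λ) := by
    rw [hx0, hp, mul_div_assoc, ← Real.exp_sub]; congr 2; rw [rhoC]; ring
  obtain ⟨N, hN⟩ := pow_unbounded_of_one_lt (x0 / p) (show (1 : ℝ) < 2 by norm_num)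
  set xk : ℕ → ℝ := fun k => x0 / 2 ^ k with hxk
  set cond : ℕ → ℕ → ℕ → Prop := fun k v w =>
    v ≠ w ∧ dist2 P.ψ v w ≤ xk k ∧ (P.goodSet v w).Nonempty with hcond
  have hwt := BilinearAux.wt_nonneg hψ
  have hterm : ∀ v ∈ S, ∀ w ∈ S, (v ≠ w ∧ dist2 P.ψ v w ≤ x0 ∧ (P.goodSet v w).Nonempty) →
      wt P.ψ v * wt P.ψ w / dist2 P.ψ v w ≤ ∑ k ∈ range N,
        if cond k v w then 2 / xk k * (wt P.ψ v * wt P.ψ w) else 0 := by
    intro v hv w hw ⟨hvw, hD, hg⟩
    set D := dist2 P.ψ v w with hDdef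
    have hD0 : 0 < D := hp0.trans_le (hDp v hv w hw)
    have hex : ∃ k, xk (k + 1) < D := ⟨N, by
      refine lt_of_lt_of_le ?_ (hDp v hv w hw)
      simp only [hxk]
      rw [div_lt_iff₀ (by positivity), pow_succ, ← mul_assoc]
      rw [div_lt_iff₀ hp0] at hN
      nlinarith [show (0 : ℝ) < p * 2 ^ N by positivity]⟩
    set k := Nat.find hex with hk
    have hk1 : xk (k + 1) < D := Nat.find_spec hex
    have hk2 : D ≤ xk k := by
      rcases Nat.eq_zero_or_pos k with h | h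
      · simpa [hxk, h] using hD
      · have := Nat.find_min hex (show k - 1 < k by omega)
        rw [Nat.sub_add_cancel h] at this
        exact not_lt.1 this
    have hkN : k ∈ range N := by
      rw [mem_range]
      by_contra hc
      have h1 : xk k ≤ xk N := by
        simp only [hxk]
        exact div_le_div_of_nonneg_left hx0pos.le (by positivity)
          (pow_le_pow_right₀ (by norm_num) (not_lt.1 hc))
      have h2 : xk N < p := by
        simp only [hxk]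
        rw [div_lt_iff₀ (by positivity), mul_comm, ← div_lt_iff₀ hp0]
        exact hN
      linarith [hDp v hv w hw]
    have hnn : ∀ i ∈ range N, 0 ≤ if cond i v w then 2 / xk i * (wt P.ψ v * wt P.ψ w) else 0 := by
      intro i _
      split_ifs
      · exact mul_nonneg (by positivity) (mul_nonneg (hwt v) (hwt w))
      · exact le_rfl
    refine le_trans ?_ (single_le_sum hnn hkN)
    rw [if_pos (show cond k v w from ⟨hvw, hk2, hg⟩), div_eq_inv_mul]
    refine mul_le_mul_of_nonneg_right ?_ (mul_nonneg (hwt v) (hwt w))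
    have e : xk (k + 1) = xk k / 2 := by simp only [hxk, pow_succ]; ring
    rw [← one_div, div_le_div_iff₀ hD0 (by positivity)]
    linarith
  have hlevel : ∀ k, ∑ v ∈ S, ∑ w ∈ S, (if cond k v w then wt P.ψ v * wt P.ψ w else 0) ≤
      max C2 0 * (xk k ^ 2 / p) * (max C1 0 * Real.exp (-(52 / 100 * Λ)) * (μ + μ ^ 2)) := by
    intro k
    set M : Finset ℤ := ((S ×ˢ S).filter fun u => cond k u.1 u.2).image
      (fun u => mdiff u.1 u.2) with hM
    have hxk0 : 0 < xk k := by positivity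
    have hxkx : xk k ≤ x0 := div_le_self hx0pos.le (one_le_pow₀ (by norm_num))
    have hshort : ShortVec P.γ p (P.A q0) (P.B q0) := by
      have := hP.short q0 (hS hq0)
      rwa [hΛS q0 hq0] at this
    have hMc : (M.card : ℝ) ≤ C2 * (xk k ^ 2 / p) := by
      refine hC2 P.γ p (xk k) (P.A q0) (P.B q0) M hshort hp0 hxk0 (hxkx.trans hx16) fun m hm => ?_
      obtain ⟨⟨v, w⟩, hu, rfl⟩ := mem_image.1 hm
      obtain ⟨hu0, -, hD, n, hn⟩ := mem_filter.1 hu
      obtain ⟨hv, hw⟩ := mem_product.1 hu0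
      dsimp only at hv hw hD hn ⊢
      refine ⟨?_, n, ?_, ?_⟩
      · obtain ⟨h1, h2⟩ := hqd v hv w hw
        have h3 : (0 : ℝ) ≤ p * qd w v := by positivity
        have h4 : (0 : ℝ) ≤ p * qd v w := by positivity
        rw [← abs_of_pos hp0, ← abs_mul, mdiff, abs_le]
        push_cast
        constructor <;> nlinarith
      · obtain ⟨hn1, -⟩ := mem_filter.1 hn
        have := (mem_filter.1 hn1).2
        linarith
      · obtain ⟨-, hgood⟩ := mem_filter.1 hn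
        obtain ⟨e1, e2⟩ := hP.const v (hS hv) q0 (hS hq0) ((hΛS v hv).trans (hΛS q0 hq0).symm)
        obtain ⟨e3, e4⟩ := hP.const v (hS hv) w (hS hw) ((hΛS v hv).trans (hΛS w hw).symm)
        rw [← e1, ← e2]
        exact fun h0 => hgood ⟨e3, e4, h0⟩
    have hMne : ∀ m ∈ M, m ≠ 0 := by
      intro m hm
      obtain ⟨⟨v, w⟩, hu, rfl⟩ := mem_image.1 hm
      obtain ⟨hu0, hvw, -⟩ := mem_filter.1 hu
      obtain ⟨hv, -⟩ := mem_product.1 hu0
      intro h0
      refine hvw ?_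
      have e : qd w v = qd v w := by simp only [mdiff] at h0; omega
      have h1 : qd v w = 1 := by
        have := cl_coprime_qd (r := w) (hSq v hv).1
        rwa [e, Nat.coprime_self] at this
      have hc := qd_cross v w
      rw [e, h1, mul_one, mul_one] at hc
      exact hc
    have hsum : ∑ v ∈ S, ∑ w ∈ S, (if cond k v w then wt P.ψ v * wt P.ψ w else 0) ≤
        ∑ m ∈ M, ∑ v ∈ S, ∑ w ∈ S.filter (fun w => v ≠ w ∧ mdiff v w = m ∧
          (qd v w : ℝ) ≤ T ∧ (qd w v : ℝ) ≤ T), wt P.ψ v * wt P.ψ w := by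
      rw [sum_comm (s := M)]
      refine sum_le_sum fun v hv => ?_
      simp only [sum_filter]
      rw [sum_comm (s := M)]
      refine sum_le_sum fun w hw => ?_
      by_cases hc : cond k v w
      · obtain ⟨h1, h2⟩ := hqd v hv w hw
        have hle : ∀ q : ℕ, p * q ≤ dist2 P.ψ v w → (q : ℝ) ≤ T := fun q hq => by
          have hq' : (q : ℝ) * p ≤ x0 := by linarith [hc.2.1]
          rw [← le_div_iff₀ hp0, hxp] at hq'
          linarith [Real.exp_pos (511 / 1000 * Λ)]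
        have hmem : mdiff v w ∈ M :=
          mem_image.2 ⟨(v, w), mem_filter.2 ⟨mem_product.2 ⟨hv, hw⟩, hc⟩, rfl⟩
        rw [if_pos hc]
        refine le_trans (le_of_eq ?_) (single_le_sum (fun i _ => ?_) hmem)
        · rw [if_pos ⟨hc.1, rfl, hle _ h2, hle _ h1⟩]
        · split_ifs
          · exact mul_nonneg (hwt v) (hwt w)
          · exact le_rfl
      · rw [if_neg hc]
        refine sum_nonneg fun i _ => ?_
        split_ifs
        · exact mul_nonneg (hwt v) (hwt w)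
        · exact le_rfl
    refine hsum.trans ?_
    have hX : 0 ≤ Real.exp (-(52 / 100 * Λ)) * (μ + μ ^ 2) := by positivity
    calc ∑ m ∈ M, _ ≤ ∑ _m ∈ M, max C1 0 * Real.exp (-(52 / 100 * Λ)) * (μ + μ ^ 2) :=
          sum_le_sum fun m hm =>
            (hC1 P.ψ S Λ m ((le_max_left _ _).trans hΛ) (hMne m hm) hψ hSq).trans (by
              rw [mul_assoc, mul_assoc]
              exact mul_le_mul_of_nonneg_right (le_max_left _ _) hX)
      _ = M.card * (max C1 0 * Real.exp (-(52 / 100 * Λ)) * (μ + μ ^ 2)) := by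
          rw [sum_const, nsmul_eq_mul]
      _ ≤ _ := mul_le_mul_of_nonneg_right
          (hMc.trans (mul_le_mul_of_nonneg_right (le_max_left _ _) (by positivity)))
          (by positivity)
  have hgeo : ∑ k ∈ range N, xk k ≤ 2 * x0 := by
    have e : ∀ k, xk k = x0 * (1 / 2 : ℝ) ^ k := fun k => by
      simp only [hxk, div_eq_mul_inv, one_mul, inv_pow]
    simp only [e, ← mul_sum]
    have := sum_geometric_two_le N
    nlinarith
  calc ∑ v ∈ S, ∑ w ∈ S.filter (fun w => v ≠ w ∧ dist2 P.ψ v w ≤ x0 ∧ (P.goodSet v w).Nonempty),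
        wt P.ψ v * wt P.ψ w / dist2 P.ψ v w
      ≤ ∑ v ∈ S, ∑ w ∈ S, ∑ k ∈ range N,
          if cond k v w then 2 / xk k * (wt P.ψ v * wt P.ψ w) else 0 := by
        refine sum_le_sum fun v hv => ?_
        rw [sum_filter]
        refine sum_le_sum fun w hw => ?_
        split_ifs with h
        · exact hterm v hv w hw h
        · refine sum_nonneg fun i _ => ?_
          split_ifs
          · exact mul_nonneg (by positivity) (mul_nonneg (hwt v) (hwt w))
          · exact le_rfl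
    _ = ∑ k ∈ range N, 2 / xk k *
          ∑ v ∈ S, ∑ w ∈ S, (if cond k v w then wt P.ψ v * wt P.ψ w else 0) := by
        rw [sum_comm_cycle]
        simp only [mul_sum, mul_ite, mul_zero]
    _ ≤ ∑ k ∈ range N, 2 / xk k * (max C2 0 * (xk k ^ 2 / p) *
          (max C1 0 * Real.exp (-(52 / 100 * Λ)) * (μ + μ ^ 2))) :=
        sum_le_sum fun k _ => mul_le_mul_of_nonneg_left (hlevel k) (by positivity)
    _ = max C1 0 * max C2 0 * 2 / p * Real.exp (-(52 / 100 * Λ)) * (μ + μ ^ 2) *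
          ∑ k ∈ range N, xk k := by
        rw [mul_sum]
        refine sum_congr rfl fun k _ => ?_
        have : xk k ≠ 0 := by positivity
        field_simp
    _ ≤ max C1 0 * max C2 0 * 2 / p * Real.exp (-(52 / 100 * Λ)) * (μ + μ ^ 2) * (2 * x0) :=
        mul_le_mul_of_nonneg_left hgeo (by positivity)
    _ = max C1 0 * max C2 0 * 4 * (x0 / p * Real.exp (-(52 / 100 * Λ))) * (μ + μ ^ 2) := by ring
    _ ≤ max C1 0 * max C2 0 * 4 * (2 * Real.exp (-(Λ / 200))) * (μ + μ ^ 2) := by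
        refine mul_le_mul_of_nonneg_right (mul_le_mul_of_nonneg_left ?_ (by positivity))
          (by positivity)
        rw [hxp, mul_assoc, ← Real.exp_add]
        exact mul_le_mul_of_nonneg_left (Real.exp_le_exp.2 (by linarith)) (by norm_num)
    _ = _ := by ring

end Vale.Agent.P028.T2
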