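import Vale.Agent.P028.T2.CoarseSide

/-!
The coarse bound in a final state, for two windows at distance at most `exp (r / 100)`.

If the product of the fixed parts is large there is a spare.  Otherwise the large quotient of a pair
consists of two factors: a large downward deviation has a small tail, a large upward one a ratio gain.
-/

noncomputable section

namespace Vale.Agent.P028.T2

open Finset
open scoped Classical

/-- The least common multiple is `v * qd w v`. -/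
theorem lcm_eq_mul_qd (v w : ℕ) : Nat.lcm v w = v * qd w v := by
  rw [Nat.lcm, qd, Nat.gcd_comm w v, Nat.mul_div_assoc v (Nat.gcd_dvd_right v w)]

/-- The pairs of the coarse bound: the quotient at the deep radius is large. -/
def CoarseRel (P : Sys) (S : Finset ℕ) (Λ r : ℝ) (v w : ℕ) : Prop :=
  v ∈ S ∧ w ∈ S ∧ P.lam v ≠ P.lam w ∧ dist2 P.ψ v w ≤ Real.exp (r / 100) ∧
    ((P.lam v = Λ ∧ Real.exp (r ^ 2 / 2) < (qd v w : ℝ)) ∨
      (P.lam w = Λ ∧ Real.exp (r ^ 2 / 2) < (qd w v : ℝ)))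

theorem CoarseRel.symm {P : Sys} {S : Finset ℕ} {Λ r : ℝ} {v w : ℕ}
    (h : CoarseRel P S Λ r v w) : CoarseRel P S Λ r w v := by
  obtain ⟨h1, h2, h3, h4, h5⟩ := h
  exact ⟨h2, h1, h3.symm, by rwa [BilinearAux.dist2_comm], h5.symm⟩

/-- A shallow modulus has small quotients against it. -/
theorem coarse_shallow_le {P : Sys} {lam0 : ℝ} (hP : P.Ok lam0) {Λ r : ℝ} {v : ℕ} (hv : v ∈ P.S)
    (he : P.lam v = Λ) {w : ℕ} (hd : dist2 P.ψ v w ≤ Real.exp (r / 100)) :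
    (qd w v : ℝ) ≤ Real.exp (rhoC * Λ + r / 100) := by
  have h1 : Real.exp (-(rhoC * Λ)) * (qd w v : ℝ) ≤ Real.exp (r / 100) :=
    (mul_le_mul_of_nonneg_right (he ▸ hP.le_psi v hv) (Nat.cast_nonneg _)).trans
      ((le_max_left _ _).trans hd)
  refine le_of_mul_le_mul_left (h1.trans_eq ?_) (Real.exp_pos (-(rhoC * Λ)))
  rw [← Real.exp_add, neg_add_cancel_left]

theorem coarse_lcm_log_le {P : Sys} {lam0 : ℝ} (hP : P.Ok lam0) {Λ r : ℝ} (hr : 10 ^ 10 ≤ r)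
    (hΛ0 : 0 ≤ Λ) (hΛ : 1000 * Λ ≤ r ^ 2) {v w : ℕ} (hv : v ∈ P.S) (hw : w ∈ P.S)
    (he : P.lam v = Λ) (hd : dist2 P.ψ v w ≤ Real.exp (r / 100)) :
    Real.log (Nat.lcm v w : ℝ) ≤ Real.exp (r / 6) := by
  have hq : (0 : ℝ) < qd w v := Nat.cast_pos.2 (BilinearAux.qd_pos (hP.pos w hw))
  rw [lcm_eq_mul_qd, Nat.cast_mul, Real.log_mul (Nat.cast_pos.2 (hP.pos v hv)).ne' hq.ne']
  refine le_trans (add_le_add (he ▸ hP.log_le v hv) ?_) (coarse_log_le hr hΛ0 hΛ)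
  exact (Real.log_le_iff_le_exp hq).2 (coarse_shallow_le hP hv he hd)

variable {Pr S U V W : Finset ℕ} {i j k : ℕ → ℕ}

/-- The facts on the centre given by one pair. -/
theorem coarse_centre_facts {P : Sys} {lam0 : ℝ} (hP : P.Ok lam0) (hS : S ⊆ P.S) {Λ r : ℝ}
    (hr : 10 ^ 10 ≤ r) (hΛ0 : 0 ≤ Λ) (hΛ : 1000 * Λ ≤ r ^ 2) (h : FinState Pr S U V W i j)
    {v w : ℕ} (hv : v ∈ V) (hw : w ∈ W) (hk : NoCoDev U k v w)
    (hR : CoarseRel P S Λ r v w) :
    downDev U k v ∈ (centre U k).divisors ∧ downDev U k w ∈ (centre U k).divisors ∧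
      Real.log (centre U k) ≤ Real.exp (r / 6) := by
  obtain ⟨hvS, hwS, -, hd, hcase⟩ := hR
  obtain ⟨e1, e2, e3⟩ := centre_dvd_lcm h hv hw hk
  have hN : 0 < centre U k := BilinearAux.prodPow_pos h.prime_U k
  refine ⟨Nat.mem_divisors.2 ⟨e2, hN.ne'⟩, Nat.mem_divisors.2 ⟨e3, hN.ne'⟩, ?_⟩
  have hle : Real.log (centre U k) ≤ Real.log (Nat.lcm v w : ℝ) :=
    Real.log_le_log (Nat.cast_pos.2 hN) (Nat.cast_le.2 (Nat.le_of_dvd (Nat.pos_of_ne_zero
      (Nat.lcm_ne_zero (hP.pos v (hS hvS)).ne' (hP.pos w (hS hwS)).ne')) e1))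
  refine hle.trans ?_
  rcases hcase with ⟨hc, -⟩ | ⟨hc, -⟩
  · exact coarse_lcm_log_le hP hr hΛ0 hΛ (hS hvS) (hS hwS) hc hd
  · rw [Nat.lcm_comm]
    exact coarse_lcm_log_le hP hr hΛ0 hΛ (hS hwS) (hS hvS) hc (by rwa [BilinearAux.dist2_comm])

/-- Three factors with a large product. -/
theorem coarse_third {r a b c : ℝ} (hb : 0 ≤ b) (hc : 0 ≤ c)
    (haz : a ≤ Real.exp (r ^ 2 / 6)) (hbz : b ≤ Real.exp (r ^ 2 / 6))
    (hlt : Real.exp (r ^ 2 / 2) < a * (b * c)) : Real.exp (r ^ 2 / 6) ≤ c := by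
  have hcube : Real.exp (r ^ 2 / 2) =
      Real.exp (r ^ 2 / 6) * (Real.exp (r ^ 2 / 6) * Real.exp (r ^ 2 / 6)) := by
    rw [← Real.exp_add, ← Real.exp_add]
    congr 1
    ring
  by_contra hcz
  rw [hcube] at hlt
  exact hlt.not_ge (mul_le_mul haz (mul_le_mul hbz (le_of_not_ge hcz) hc (Real.exp_pos _).le)
    (mul_nonneg hb hc) (Real.exp_pos _).le)

/-- The first sum, from the sums over the two deviations. -/
theorem coarse_first_le (h : FinState Pr S U V W i j) (v : ℕ) (W' : Finset ℕ) (hsub : W' ⊆ W)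
    (D : Finset ℕ) {B B' : ℝ} (hD : ∀ w ∈ W', downDev U k w ∈ D) (hB : 0 ≤ B)
    (hDB : ∑ d ∈ D, (Nat.totient (centre U k) : ℝ) / centre U k / Nat.totient d ≤ B)
    (hTB : ∑ c ∈ W'.image (upDev U k), ((upDev U k v : ℝ) / c) ^ sT / upDev U k v ≤ B') :
    ∑ w ∈ W', (Nat.totient (centre U k) : ℝ) / centre U k / Nat.totient (downDev U k w) *
        (((upDev U k v : ℝ) / upDev U k w) ^ sT / upDev U k v) ≤ B * B' := by
  refine (coarse_side_le h W' hsub D (W'.image (upDev U k)) hD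
    (fun w hw => Finset.mem_image_of_mem _ hw)
    (fun c : ℕ => ((upDev U k v : ℝ) / c) ^ sT / upDev U k v) fun c => by positivity).trans ?_
  exact mul_le_mul hDB hTB (Finset.sum_nonneg fun c _ => by positivity) hB

/-- The second sum, from the sum over the downward deviations. -/
theorem coarse_second_le {Cs : ℝ}
    (hCs : ∀ a : ℕ, 0 < a → ∀ T : Finset ℕ,
      (∀ c ∈ T, a ≤ c) → ∑ c ∈ T, ((a : ℝ) / c) ^ tT / a ≤ Cs)
    (h : FinState Pr S U V W i j) (w : ℕ) (V' : Finset ℕ) (hsub : V' ⊆ V) (D : Finset ℕ) {B : ℝ}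
    (hle : ∀ v ∈ V', upDev U k w ≤ upDev U k v)
    (hD : ∀ v ∈ V', downDev U k v ∈ D) (hB : 0 ≤ B)
    (hDB : ∑ d ∈ D, (Nat.totient (centre U k) : ℝ) / centre U k / Nat.totient d ≤ B) :
    ∑ v ∈ V', (Nat.totient (centre U k) : ℝ) / centre U k / Nat.totient (downDev U k v) *
        (((upDev U k w : ℝ) / upDev U k v) ^ tT / upDev U k w) ≤ B * Cs := by
  refine (coarse_side_le h.symm V' hsub D (V'.image (upDev U k)) hD
    (fun v hv => Finset.mem_image_of_mem _ hv)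
    (fun c : ℕ => ((upDev U k w : ℝ) / c) ^ tT / upDev U k w) fun c => by positivity).trans ?_
  refine mul_le_mul hDB (hCs _ (upDev_pos h.prime_U k w) _ fun c hc => ?_)
    (Finset.sum_nonneg fun c _ => by positivity) hB
  obtain ⟨v, hv, rfl⟩ := Finset.mem_image.1 hc
  exact hle v hv

/-- Both sums are bounded. -/
theorem exists_coarse_gen_le :
    ∃ C : ℝ, 0 ≤ C ∧ ∀ (Pr S U V W : Finset ℕ) (i j k : ℕ → ℕ),
      FinState Pr S U V W i j →
      (∀ (v : ℕ) (W' : Finset ℕ), W' ⊆ W →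
        (∀ w ∈ W', downDev U k w ∈ (centre U k).divisors ∧ upDev U k w ≤ upDev U k v) →
        ∑ w ∈ W', (Nat.totient (centre U k) : ℝ) / centre U k / Nat.totient (downDev U k w) *
          (((upDev U k v : ℝ) / upDev U k w) ^ sT / upDev U k v) ≤ C) ∧
      ∀ (w : ℕ) (V' : Finset ℕ), V' ⊆ V →
        (∀ v ∈ V', downDev U k v ∈ (centre U k).divisors ∧ upDev U k w ≤ upDev U k v) →
        ∑ v ∈ V', (Nat.totient (centre U k) : ℝ) / centre U k / Nat.totient (downDev U k v) *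
          (((upDev U k w : ℝ) / upDev U k v) ^ tT / upDev U k w) ≤ C := by
  obtain ⟨Cc, hCc0, hCc⟩ := exists_coarse_centre_le
  obtain ⟨Cs, hCs⟩ := exists_ratio_sums_T2
  refine ⟨Cc * max Cs 0, mul_nonneg hCc0 (le_max_right _ _), fun Pr S U V W i j k h => ?_⟩
  have hN : 0 < centre U k := BilinearAux.prodPow_pos h.prime_U k
  refine ⟨fun v W' hsub hW' => ?_, fun w V' hsub hV' => ?_⟩
  · refine coarse_first_le h v W' hsub _ (fun w hw => (hW' w hw).1) hCc0 (hCc _ hN)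
      (((hCs _ (upDev_pos h.prime_U k v) _).1 fun c hc => ?_).trans (le_max_left _ _))
    obtain ⟨w, hw, rfl⟩ := Finset.mem_image.1 hc
    exact ⟨upDev_pos h.prime_U k w, (hW' w hw).2⟩
  · exact coarse_second_le (fun a ha T hT => ((hCs a ha T).2 hT).trans (le_max_left _ _)) h w V'
      hsub _ (fun v hv => (hV' v hv).2) (fun v hv => (hV' v hv).1) hCc0 (hCc _ hN)

/-- If the first modulus is shallow the first sum gains. -/
theorem exists_coarse_shallow_side_le :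
    ∃ C : ℝ, 0 ≤ C ∧ ∀ (P : Sys) (lam0 : ℝ), P.Ok lam0 → ∀ (Pr S U V W : Finset ℕ)
      (i j k : ℕ → ℕ) (Λ r : ℝ), S ⊆ P.S → 10 ^ 10 ≤ r → 0 ≤ Λ → 1000 * Λ ≤ r ^ 2 →
      FinState Pr S U V W i j → (fixedPart (Pr \ U) i j : ℝ) ≤ Real.exp (r ^ 2 / 6) →
      ∀ v ∈ V, P.lam v = Λ → ∀ W' : Finset ℕ, W' ⊆ W →
      (∀ w ∈ W', CoarseRel P S Λ r v w ∧ NoCoDev U k v w ∧ upDev U k w ≤ upDev U k v) →
      ∑ w ∈ W', (Nat.totient (centre U k) : ℝ) / centre U k / Nat.totient (downDev U k w) *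
        (((upDev U k v : ℝ) / upDev U k w) ^ sT / upDev U k v) ≤ C * Real.exp (-r) := by
  obtain ⟨Cc, hCc0, hCc⟩ := exists_coarse_centre_le
  obtain ⟨Ct, hCt0, hCt⟩ := exists_coarse_tail_le
  obtain ⟨Cs, hCs⟩ := exists_ratio_sums_T2
  refine ⟨Cc * 100000000 + Ct * max Cs 0, by positivity,
    fun P lam0 hP Pr S U V W i j k Λ r hS hr hΛ0 hΛ h hQ v hv hvΛ W' hsub hW' => ?_⟩
  rcases W'.eq_empty_or_nonempty with rfl | ⟨w₀, hw₀⟩
  · rw [Finset.sum_empty]
    positivity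
  obtain ⟨hR₀, hk₀, -⟩ := hW' w₀ hw₀
  have hlog := (coarse_centre_facts hP hS hr hΛ0 hΛ h hv (hsub hw₀) hk₀ hR₀).2.2
  have hN : 0 < centre U k := BilinearAux.prodPow_pos h.prime_U k
  have hE := (Real.exp_pos (-r)).le
  have hdown : ∀ w ∈ W', downDev U k w ∈ (centre U k).divisors := fun w hw =>
    (coarse_centre_facts hP hS hr hΛ0 hΛ h hv (hsub hw) (hW' w hw).2.1 (hW' w hw).1).2.1
  by_cases ha : Real.exp (r ^ 2 / 6) ≤ (upDev U k v : ℝ)
  · have hc0 : rhoC * Λ + r / 100 ≤ 11 / 10000 * r ^ 2 := by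
      rw [rhoC]
      nlinarith
    refine (coarse_first_le h v W' hsub _ hdown hCc0 (hCc _ hN)
      (coarse_ratio_le hr hc0 ha _ fun c hc => ?_)).trans ?_
    · obtain ⟨w, hw, rfl⟩ := Finset.mem_image.1 hc
      obtain ⟨⟨hvS, -, -, hd, -⟩, hk, -⟩ := hW' w hw
      refine ⟨upDev_pos h.prime_U k w, le_trans ?_ (coarse_shallow_le hP (hS hvS) hvΛ hd)⟩
      rw [(qd_eq_of_finState h hv (hsub hw) hk).2]
      exact Nat.cast_le.2 (le_trans (Nat.le_mul_of_pos_right _ (downDev_pos h.prime_U k v))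
        (Nat.le_mul_of_pos_left _ (fixedPart_pos h.prime_sdiff j i)))
    · rw [add_mul, ← mul_assoc]
      exact le_add_of_nonneg_right (mul_nonneg (mul_nonneg hCt0 (le_max_right _ _)) hE)
  · refine (coarse_first_le h v W' hsub _ (fun w hw => ?_) (mul_nonneg hCt0 hE)
      (hCt _ r hN hr hlog)
      (((hCs _ (upDev_pos h.prime_U k v) _).1 fun c hc => ?_).trans (le_max_left _ 0))).trans ?_
    · refine Finset.mem_filter.2 ⟨hdown w hw, ?_⟩
      obtain ⟨⟨-, -, hne, -, hcase⟩, hk, -⟩ := hW' w hw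
      obtain ⟨-, hbig⟩ := hcase.resolve_right fun hc => hne (hvΛ.trans hc.1.symm)
      rw [(qd_eq_of_finState h hv (hsub hw) hk).1] at hbig
      push_cast at hbig
      exact coarse_third (Nat.cast_nonneg _) (Nat.cast_nonneg _) hQ (le_of_not_ge ha) hbig
    · obtain ⟨w, hw, rfl⟩ := Finset.mem_image.1 hc
      exact ⟨upDev_pos h.prime_U k w, (hW' w hw).2.2⟩
    · rw [add_mul, mul_right_comm]
      exact le_add_of_nonneg_left (mul_nonneg (mul_nonneg hCc0 (by norm_num)) hE)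

/-- If the second modulus is shallow the second sum gains. -/
theorem exists_coarse_deep_side_le :
    ∃ C : ℝ, 0 ≤ C ∧ ∀ (P : Sys) (lam0 : ℝ), P.Ok lam0 → ∀ (Pr S U V W : Finset ℕ)
      (i j k : ℕ → ℕ) (Λ r : ℝ), S ⊆ P.S → 10 ^ 10 ≤ r → 0 ≤ Λ → 1000 * Λ ≤ r ^ 2 →
      FinState Pr S U V W i j → (fixedPart (Pr \ U) j i : ℝ) ≤ Real.exp (r ^ 2 / 6) →
      ∀ w ∈ W, ∀ V' : Finset ℕ, V' ⊆ V →
      (∀ v ∈ V', P.lam v ≠ Λ ∧ CoarseRel P S Λ r v w ∧ NoCoDev U k v w ∧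
        upDev U k w ≤ upDev U k v) →
      ∑ v ∈ V', (Nat.totient (centre U k) : ℝ) / centre U k / Nat.totient (downDev U k v) *
        (((upDev U k w : ℝ) / upDev U k v) ^ tT / upDev U k w) ≤ C * Real.exp (-r) := by
  obtain ⟨Ct, hCt0, hCt⟩ := exists_coarse_tail_le
  obtain ⟨Cs, hCs⟩ := exists_ratio_sums_T2
  refine ⟨Ct * max Cs 0, by positivity,
    fun P lam0 hP Pr S U V W i j k Λ r hS hr hΛ0 hΛ h hQ w hw V' hsub hV' => ?_⟩
  rcases V'.eq_empty_or_nonempty with rfl | ⟨v₀, hv₀⟩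
  · rw [Finset.sum_empty]
    positivity
  obtain ⟨-, hR₀, hk₀, -⟩ := hV' v₀ hv₀
  have hlog := (coarse_centre_facts hP hS hr hΛ0 hΛ h (hsub hv₀) hw hk₀ hR₀).2.2
  have hN : 0 < centre U k := BilinearAux.prodPow_pos h.prime_U k
  have hE := (Real.exp_pos (-r)).le
  refine (coarse_second_le (fun a ha T hT => ((hCs a ha T).2 hT).trans (le_max_left _ 0)) h w V'
    hsub _ (fun v hv => (hV' v hv).2.2.2) (fun v hv => ?_) (mul_nonneg hCt0 hE)
    (hCt _ r hN hr hlog)).trans (le_of_eq (mul_right_comm _ _ _))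
  obtain ⟨hne, hR, hk, hca⟩ := hV' v hv
  refine Finset.mem_filter.2
    ⟨(coarse_centre_facts hP hS hr hΛ0 hΛ h (hsub hv) hw hk hR).1, ?_⟩
  obtain ⟨hvS, hwS, -, hd, hcase⟩ := hR
  obtain ⟨hcΛ, hbig⟩ := hcase.resolve_left fun hc => hne hc.1
  obtain ⟨e1, e2⟩ := qd_eq_of_finState h (hsub hv) hw hk
  rw [e2] at hbig
  push_cast at hbig
  have hup : (upDev U k w : ℝ) ≤ Real.exp (r ^ 2 / 6) := by
    have hs := coarse_shallow_le hP (hS hwS) hcΛ (w := v) (r := r)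
      (by rwa [BilinearAux.dist2_comm])
    rw [e1] at hs
    refine le_trans ?_ (hs.trans (Real.exp_le_exp.2 (by rw [rhoC]; nlinarith)))
    exact Nat.cast_le.2 (hca.trans (le_trans (Nat.le_mul_of_pos_right _
      (downDev_pos h.prime_U k w)) (Nat.le_mul_of_pos_left _ (fixedPart_pos h.prime_sdiff i j))))
  exact coarse_third (Nat.cast_nonneg _) (Nat.cast_nonneg _) hQ hup hbig

/-- One part of the kernel, once the two sums are known. -/
theorem coarse_part_le {P : Sys} {lam0 : ℝ} (hP : P.Ok lam0) {Λ r M G1 G2 : ℝ}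
    (hr : 10 ^ 10 ≤ r) (hM : 1 ≤ M) (h : FinState Pr S U V W i j) (K : ℕ → ℕ → ℝ)
    (hK0 : ∀ v w, 0 ≤ K v w) (hK1 : ∀ v w, K v w ≤ 1)
    (hKs : ∀ v w, K v w ≠ 0 →
      CoarseRel P S Λ r v w ∧ NoCoDev U k v w ∧ upDev U k w ≤ upDev U k v)
    (h10 : 0 ≤ G1) (h20 : 0 ≤ G2) (h1M : G1 ≤ M) (h2M : G2 ≤ M)
    (hgain : Real.exp (r ^ 2 / 6) ≤
        (fixedPart (Pr \ U) i j : ℝ) * (fixedPart (Pr \ U) j i : ℝ) ∨
      G1 ≤ M * Real.exp (-r) ∨ G2 ≤ M * Real.exp (-r))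
    (hG1 : ∀ v ∈ V, ∑ w ∈ W.filter (fun w => K v w ≠ 0),
      (Nat.totient (centre U k) : ℝ) / centre U k / Nat.totient (downDev U k w) *
        (((upDev U k v : ℝ) / upDev U k w) ^ sT / upDev U k v) ≤ G1)
    (hG2 : ∀ w ∈ W, ∑ v ∈ V.filter (fun v => K v w ≠ 0),
      (Nat.totient (centre U k) : ℝ) / centre U k / Nat.totient (downDev U k v) *
        (((upDev U k w : ℝ) / upDev U k v) ^ tT / upDev U k w) ≤ G2) :
    ∑ v ∈ V, ∑ w ∈ W, K v w * (wt P.ψ v * wt P.ψ w) ≤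
      M * Real.exp (-(r / 20)) *
        (mass P.ψ S ^ (aOne - aTwo) * (mass P.ψ V * mass P.ψ W) ^ thetaT) /
        ((fixedPart (Pr \ U) i j : ℝ) * (fixedPart (Pr \ U) j i : ℝ)) ^ betaT := by
  refine (finalLe2 h P.ψ hP.nonneg (Real.exp (r / 100)) (Real.exp (r / 100)) (Real.exp_pos _)
    (Real.exp_pos _) K hK0 hK1 (fun v _ w _ hne => ?_) G1 G2 h10 h20 hG1 hG2).trans ?_
  · obtain ⟨⟨-, -, -, hd, -⟩, hk, hca⟩ := hKs v w hne
    exact ⟨hk, (le_max_right _ _).trans hd, (le_max_left _ _).trans hd, hca⟩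
  · have hQ : (1 : ℝ) ≤ fixedPart (Pr \ U) i j := by
      exact_mod_cast fixedPart_pos h.prime_sdiff i j
    have hQ' : (1 : ℝ) ≤ fixedPart (Pr \ U) j i := by
      exact_mod_cast fixedPart_pos h.prime_sdiff j i
    have hT : 0 ≤ mass P.ψ S ^ (aOne - aTwo) * (mass P.ψ V * mass P.ψ W) ^ thetaT :=
      mul_nonneg (Real.rpow_nonneg (BilinearAux.mass_nonneg hP.nonneg S) _)
        (Real.rpow_nonneg (mul_nonneg (BilinearAux.mass_nonneg hP.nonneg V)
          (BilinearAux.mass_nonneg hP.nonneg W)) _)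
    rw [mul_assoc, mul_div_assoc, mul_div_right_comm]
    refine le_of_eq_of_le ?_ ((mul_le_mul_of_nonneg_right
      (coarse_combine hr hM h10 h20 h1M h2M hQ hQ' hgain) hT).trans_eq ?_)
    · ring
    · ring

/-- The parts of the kernel by the window of the first modulus. -/
theorem coarse_split_le {P : Sys} {lam0 : ℝ} (hP : P.Ok lam0) {Λ r M : ℝ}
    (hr : 10 ^ 10 ≤ r) (hM : 1 ≤ M) (h : FinState Pr S U V W i j) (K : ℕ → ℕ → ℝ)
    (hK0 : ∀ v w, 0 ≤ K v w) (hK1 : ∀ v w, K v w ≤ 1)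
    (hKs : ∀ v w, K v w ≠ 0 →
      CoarseRel P S Λ r v w ∧ NoCoDev U k v w ∧ upDev U k w ≤ upDev U k v)
    (gen1 : ∀ v ∈ V, ∑ w ∈ W.filter (fun w => K v w ≠ 0),
      (Nat.totient (centre U k) : ℝ) / centre U k / Nat.totient (downDev U k w) *
        (((upDev U k v : ℝ) / upDev U k w) ^ sT / upDev U k v) ≤ M)
    (gen2 : ∀ w ∈ W, ∑ v ∈ V.filter (fun v => K v w ≠ 0),
      (Nat.totient (centre U k) : ℝ) / centre U k / Nat.totient (downDev U k v) *
        (((upDev U k w : ℝ) / upDev U k v) ^ tT / upDev U k w) ≤ M)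
    (side1 : (fixedPart (Pr \ U) i j : ℝ) ≤ Real.exp (r ^ 2 / 6) → ∀ v ∈ V, P.lam v = Λ →
      ∑ w ∈ W.filter (fun w => K v w ≠ 0),
        (Nat.totient (centre U k) : ℝ) / centre U k / Nat.totient (downDev U k w) *
          (((upDev U k v : ℝ) / upDev U k w) ^ sT / upDev U k v) ≤ M * Real.exp (-r))
    (side2 : (fixedPart (Pr \ U) j i : ℝ) ≤ Real.exp (r ^ 2 / 6) → ∀ w ∈ W,
      ∑ v ∈ V.filter (fun v => P.lam v ≠ Λ ∧ K v w ≠ 0),
        (Nat.totient (centre U k) : ℝ) / centre U k / Nat.totient (downDev U k v) *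
          (((upDev U k w : ℝ) / upDev U k v) ^ tT / upDev U k w) ≤ M * Real.exp (-r)) :
    ∑ v ∈ V, ∑ w ∈ W, K v w * (wt P.ψ v * wt P.ψ w) ≤
      2 * (M * Real.exp (-(r / 20)) *
        (mass P.ψ S ^ (aOne - aTwo) * (mass P.ψ V * mass P.ψ W) ^ thetaT) /
        ((fixedPart (Pr \ U) i j : ℝ) * (fixedPart (Pr \ U) j i : ℝ)) ^ betaT) := by
  have hM0 : (0 : ℝ) ≤ M := zero_le_one.trans hM
  have heps : M * Real.exp (-r) ≤ M :=
    mul_le_of_le_one_right hM0 (Real.exp_le_one_iff.2 (by linarith))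
  have heps0 : 0 ≤ M * Real.exp (-r) := mul_nonneg hM0 (Real.exp_pos _).le
  by_cases hsp : Real.exp (r ^ 2 / 6) ≤
      (fixedPart (Pr \ U) i j : ℝ) * (fixedPart (Pr \ U) j i : ℝ)
  · have h1 := coarse_part_le hP hr hM h K hK0 hK1 hKs hM0 hM0 le_rfl le_rfl (Or.inl hsp) gen1 gen2
    have h0 : 0 ≤ ∑ v ∈ V, ∑ w ∈ W, K v w * (wt P.ψ v * wt P.ψ w) :=
      Finset.sum_nonneg fun v _ => Finset.sum_nonneg fun w _ => mul_nonneg (hK0 v w)
        (mul_nonneg (BilinearAux.wt_nonneg hP.nonneg v) (BilinearAux.wt_nonneg hP.nonneg w))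
    exact h1.trans (le_mul_of_one_le_left (h0.trans h1) one_le_two)
  have hQ : (1 : ℝ) ≤ fixedPart (Pr \ U) i j := by
    exact_mod_cast fixedPart_pos h.prime_sdiff i j
  have hQ' : (1 : ℝ) ≤ fixedPart (Pr \ U) j i := by
    exact_mod_cast fixedPart_pos h.prime_sdiff j i
  have h1 := side1 ((le_mul_of_one_le_right (zero_le_one.trans hQ) hQ').trans (le_of_not_ge hsp))
  have h2 := side2 ((le_mul_of_one_le_left (zero_le_one.trans hQ') hQ).trans (le_of_not_ge hsp))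
  have h3a := coarse_part_le hP hr hM h (fun v w => if P.lam v = Λ then K v w else 0)
    (fun v w => by split_ifs; exacts [hK0 v w, le_rfl])
    (fun v w => by split_ifs; exacts [hK1 v w, zero_le_one])
    (fun v w e => hKs v w (ite_ne_right_iff.1 e).2) heps0 hM0 heps le_rfl
    (Or.inr (Or.inl le_rfl))
    (fun v hv => by
      by_cases e : P.lam v = Λ
      · simpa only [if_pos e] using h1 v hv e
      · simpa only [if_neg e, ne_eq, not_true_eq_false, Finset.filter_false, Finset.sum_empty]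
          using heps0)
    (fun w hw => (Finset.sum_le_sum_of_subset_of_nonneg
      (Finset.monotone_filter_right V fun v _ e => (ite_ne_right_iff.1 e).2)
      fun v _ _ => by positivity).trans (gen2 w hw))
  have hb : ∀ v w, (if P.lam v = Λ then 0 else K v w) ≠ 0 → P.lam v ≠ Λ ∧ K v w ≠ 0 :=
    fun v w e => ⟨(ite_ne_left_iff.1 e).1, (ite_ne_left_iff.1 e).2.symm⟩
  have h3b := coarse_part_le hP hr hM h (fun v w => if P.lam v = Λ then 0 else K v w)
    (fun v w => by split_ifs; exacts [le_rfl, hK0 v w])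
    (fun v w => by split_ifs; exacts [zero_le_one, hK1 v w])
    (fun v w e => hKs v w (hb v w e).2) hM0 heps0 le_rfl heps
    (Or.inr (Or.inr le_rfl))
    (fun v hv => (Finset.sum_le_sum_of_subset_of_nonneg
      (Finset.monotone_filter_right W fun w _ e => (hb v w e).2)
      fun w _ _ => by positivity).trans (gen1 v hv))
    (fun w hw => (Finset.sum_le_sum_of_subset_of_nonneg
      (Finset.monotone_filter_right V fun v _ e => hb v w e)
      fun v _ _ => by positivity).trans (h2 w hw))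
  refine le_of_eq_of_le ?_ ((add_le_add h3a h3b).trans_eq (two_mul _).symm)
  simp only [← Finset.sum_add_distrib]
  refine Finset.sum_congr rfl fun v _ => Finset.sum_congr rfl fun w _ => ?_
  split_ifs <;> ring

/-- The bound in a final state. -/
theorem exists_coarse_state_le :
    ∃ M : ℝ, 0 ≤ M ∧ ∀ (P : Sys) (lam0 : ℝ), P.Ok lam0 → ∀ (Pr S U V W : Finset ℕ)
      (i j k : ℕ → ℕ) (K : ℕ → ℕ → ℝ) (Λ r : ℝ), S ⊆ P.S → 10 ^ 10 ≤ r → 0 ≤ Λ →
      1000 * Λ ≤ r ^ 2 → FinState Pr S U V W i j →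
      (∀ v w, 0 ≤ K v w) → (∀ v w, K v w ≤ 1) →
      (∀ v w, K v w ≠ 0 →
        CoarseRel P S Λ r v w ∧ NoCoDev U k v w ∧ upDev U k w ≤ upDev U k v) →
      ∑ v ∈ V, ∑ w ∈ W, K v w * (wt P.ψ v * wt P.ψ w) ≤
        M * Real.exp (-(r / 20)) *
          (mass P.ψ S ^ (aOne - aTwo) * (mass P.ψ V * mass P.ψ W) ^ thetaT) /
          ((fixedPart (Pr \ U) i j : ℝ) * (fixedPart (Pr \ U) j i : ℝ)) ^ betaT := by
  obtain ⟨Cg, hCg0, hCg⟩ := exists_coarse_gen_le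
  obtain ⟨C1, hC10, hC1⟩ := exists_coarse_shallow_side_le
  obtain ⟨C2, hC20, hC2⟩ := exists_coarse_deep_side_le
  refine ⟨2 * (1 + Cg + C1 + C2), by positivity,
    fun P lam0 hP Pr S U V W i j k K Λ r hS hr hΛ0 hΛ h hK0 hK1 hKs => ?_⟩
  have hM : 1 ≤ 1 + Cg + C1 + C2 := by linarith
  obtain ⟨hg1, hg2⟩ := hCg Pr S U V W i j k h
  refine (coarse_split_le hP hr hM h K hK0 hK1 hKs ?_ ?_ ?_ ?_).trans_eq (by ring)
  · intro v hv
    refine (hg1 v _ (Finset.filter_subset _ _) fun w hw => ?_).trans (by linarith)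
    obtain ⟨hw, h0⟩ := Finset.mem_filter.1 hw
    obtain ⟨hR, hk, hca⟩ := hKs v w h0
    exact ⟨(coarse_centre_facts hP hS hr hΛ0 hΛ h hv hw hk hR).2.1, hca⟩
  · intro w hw
    refine (hg2 w _ (Finset.filter_subset _ _) fun v hv => ?_).trans (by linarith)
    obtain ⟨hv, h0⟩ := Finset.mem_filter.1 hv
    obtain ⟨hR, hk, hca⟩ := hKs v w h0
    exact ⟨(coarse_centre_facts hP hS hr hΛ0 hΛ h hv hw hk hR).1, hca⟩
  · intro hQ v hv hvΛ
    refine (hC1 P lam0 hP Pr S U V W i j k Λ r hS hr hΛ0 hΛ h hQ v hv hvΛ _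
      (Finset.filter_subset _ _) fun w hw => hKs v w (Finset.mem_filter.1 hw).2).trans ?_
    exact mul_le_mul_of_nonneg_right (by linarith) (Real.exp_pos _).le
  · intro hQ w hw
    refine (hC2 P lam0 hP Pr S U V W i j k Λ r hS hr hΛ0 hΛ h hQ w hw _
      (Finset.filter_subset _ _) fun v hv =>
        ⟨(Finset.mem_filter.1 hv).2.1, hKs v w (Finset.mem_filter.1 hv).2.2⟩).trans ?_
    exact mul_le_mul_of_nonneg_right (by linarith) (Real.exp_pos _).le

end Vale.Agent.P028.T2
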