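import Vale.Agent.P028.T2.State
import Vale.Agent.P028.T2.PTail
import Vale.Agent.P028.T2.CoarseState

/-!
Two windows at distances within `exp (± √Λ' / 100)`: either the deep quotient is small and the count
is elementary, or it carries a spare, a tail or a ratio gain.
-/

noncomputable section

namespace Vale.Agent.P028.T2

open Finset
open scoped Classical

/-- The deep moduli with small quotients against one shallow modulus. -/
theorem coarse_count_le {ψ : ℕ → ℝ} {v : ℕ} (hv : 0 < v) (W : Finset ℕ) {Y Y' e : ℝ}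
    (hY : 0 ≤ Y) (hY' : 0 ≤ Y') (he : 0 ≤ e) (hψ : ∀ q, 0 ≤ ψ q)
    (hW : ∀ w ∈ W, 0 < w ∧ ψ w ≤ e ∧ (qd v w : ℝ) ≤ Y ∧ (qd w v : ℝ) ≤ Y') :
    ∑ w ∈ W, wt ψ w ≤ Y * Y' * e := by
  have hwt : ∀ w ∈ W, wt ψ w ≤ e := by
    intro w hw
    obtain ⟨hw0, hwe, -, -⟩ := hW w hw
    refine le_trans (mul_le_of_le_one_left (hψ w) ?_) hwe
    rw [div_le_one (Nat.cast_pos.2 hw0)]
    exact_mod_cast Nat.totient_le w
  have hcard : (W.card : ℝ) ≤ Y * Y' := by
    have h : W.card ≤ (Finset.Icc 1 ⌊Y⌋₊ ×ˢ Finset.Icc 1 ⌊Y'⌋₊).card := by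
      refine Finset.card_le_card_of_injOn (fun w => (qd v w, qd w v)) (fun w hw => ?_) ?_
      · obtain ⟨hw0, -, h1, h2⟩ := hW w hw
        exact Finset.mem_product.2 ⟨Finset.mem_Icc.2 ⟨BilinearAux.qd_pos hv, Nat.le_floor h1⟩,
          Finset.mem_Icc.2 ⟨BilinearAux.qd_pos hw0, Nat.le_floor h2⟩⟩
      · intro w _ w' _ e'
        simp only [Prod.mk.injEq] at e'
        have g1 : qd v w * Nat.gcd v w = v := Nat.div_mul_cancel (Nat.gcd_dvd_left v w)
        have g2 : qd v w' * Nat.gcd v w' = v := Nat.div_mul_cancel (Nat.gcd_dvd_left v w')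
        have g3 : qd w v * Nat.gcd w v = w := Nat.div_mul_cancel (Nat.gcd_dvd_left w v)
        have g4 : qd w' v * Nat.gcd w' v = w' := Nat.div_mul_cancel (Nat.gcd_dvd_left w' v)
        have hg : Nat.gcd v w = Nat.gcd v w' := by
          rw [← e'.1] at g2
          exact Nat.eq_of_mul_eq_mul_left (BilinearAux.qd_pos hv) (g1.trans g2.symm)
        rw [Nat.gcd_comm w v] at g3
        rw [Nat.gcd_comm w' v, ← hg, ← e'.2] at g4
        exact g3.symm.trans g4
    rw [Finset.card_product, Nat.card_Icc, Nat.card_Icc, Nat.add_sub_cancel,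
      Nat.add_sub_cancel] at h
    refine (Nat.cast_le.2 h).trans ?_
    push_cast
    exact mul_le_mul (Nat.floor_le hY) (Nat.floor_le hY') (Nat.cast_nonneg _) hY
  refine (Finset.sum_le_card_nsmul _ _ _ hwt).trans ?_
  rw [nsmul_eq_mul]
  exact mul_le_mul_of_nonneg_right hcard he

/-- The pairs of a shallow modulus with a small deep quotient. -/
def CoarseSmall (P : Sys) (Λ r : ℝ) (v w : ℕ) : Prop :=
  P.lam v = Λ ∧ P.lam w ≠ Λ ∧ dist2 P.ψ v w ≤ Real.exp (r / 100) ∧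
    (qd v w : ℝ) ≤ Real.exp (r ^ 2 / 2)

theorem coarse_small_le {P : Sys} {lam0 : ℝ} (hP : P.Ok lam0) {S : Finset ℕ} (hS : S ⊆ P.S)
    {Λ r : ℝ} (hr : 10 ^ 10 ≤ r) (hΛ : 1000 * Λ ≤ r ^ 2)
    (hlam : ∀ q ∈ S, P.lam q = Λ ∨ P.lam q = r ^ 2) {v : ℕ} (hv : v ∈ S) :
    ∑ w ∈ S.filter (fun w => CoarseSmall P Λ r v w), wt P.ψ v * wt P.ψ w ≤
      wt P.ψ v * Real.exp (-(r / 20)) := by
  have hψ := hP.nonneg
  rw [← Finset.mul_sum]
  refine mul_le_mul_of_nonneg_left ?_ (BilinearAux.wt_nonneg hψ v)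
  refine (coarse_count_le (hP.pos v (hS hv)) _ (Real.exp_pos (r ^ 2 / 2)).le
    (Real.exp_pos (rhoC * Λ + r / 100)).le (Real.exp_pos (-(r ^ 2))).le hψ
    fun w hw => ?_).trans ?_
  · obtain ⟨hwS, hvΛ, hne, hd, hq⟩ := Finset.mem_filter.1 hw
    refine ⟨hP.pos w (hS hwS), ?_, hq, coarse_shallow_le hP (hS hv) hvΛ hd⟩
    rw [← (hlam w hwS).resolve_left hne]
    exact hP.psi_le w (hS hwS)
  · rw [← Real.exp_add, ← Real.exp_add]
    exact Real.exp_le_exp.2 (by rw [rhoC]; nlinarith)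

theorem exists_coarse_le :
    ∃ C lam0 : ℝ, ∀ P : Sys, P.Ok lam0 → ∀ S : Finset ℕ, S ⊆ P.S →
      ∀ Λ Λ' : ℝ, 1000 * Λ ≤ Λ' → (∀ q ∈ S, P.lam q = Λ ∨ P.lam q = Λ') →
      ∑ v ∈ S, ∑ w ∈ S.filter (fun w => P.lam v ≠ P.lam w ∧
          Real.exp (-(Real.sqrt Λ' / 100)) ≤ dist2 P.ψ v w ∧
          dist2 P.ψ v w ≤ Real.exp (Real.sqrt Λ' / 100)), wt P.ψ v * wt P.ψ w ≤
        C * (mass P.ψ S + mass P.ψ S ^ 2) * Real.exp (-(Real.sqrt Λ' / 20)) := by
  obtain ⟨M, hM0, hM⟩ := exists_coarse_state_le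
  obtain ⟨Csym, hCsym⟩ := exists_symm_split_le
  refine ⟨max Csym 0 * M + 2, 10 ^ 20, fun P hP S hS Λ Λ' hΛ hlam => ?_⟩
  set r := Real.sqrt Λ' with hr'
  set E := Real.exp (-(r / 20)) with hE
  have hψ := hP.nonneg
  have hmass : 0 ≤ mass P.ψ S := BilinearAux.mass_nonneg hψ S
  by_cases hex : ∃ q ∈ S, P.lam q = Λ
  swap
  · refine le_of_eq_of_le ?_ (mul_nonneg (mul_nonneg (by positivity) (by positivity))
      (Real.exp_pos _).le)
    refine Finset.sum_eq_zero fun v hv => Finset.sum_eq_zero fun w hw => ?_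
    obtain ⟨hw, hne, -⟩ := Finset.mem_filter.1 hw
    rw [(hlam v hv).resolve_left fun e => hex ⟨v, hv, e⟩,
      (hlam w hw).resolve_left fun e => hex ⟨w, hw, e⟩] at hne
    exact absurd rfl hne
  obtain ⟨q0, hq0, hq0Λ⟩ := hex
  have hΛ20 : (10 : ℝ) ^ 20 ≤ Λ := hq0Λ ▸ hP.lam_ge q0 (hS hq0)
  have hr : (10 : ℝ) ^ 10 ≤ r := Real.le_sqrt_of_sq_le (by linarith)
  have hr2 : r ^ 2 = Λ' := Real.sq_sqrt (by linarith)
  rw [← hr2] at hΛ hlam
  have hsmall := fun v (hv : v ∈ S) =>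
    coarse_small_le hP hS hr hΛ hlam hv
  have hbig := hCsym P.ψ S (CoarseRel P S Λ r) (M * E) (fun q hq => hP.pos q (hS hq)) hψ
    (fun v w h => h.symm) (by positivity) fun Pr U V W i j k K h hK0 hK1 hKs =>
      hM P _ hP Pr S U V W i j k K Λ r hS hr (by linarith) hΛ h hK0 hK1 hKs
  have hswap : ∑ v ∈ S, ∑ w ∈ S.filter (fun w => CoarseSmall P Λ r w v),
        wt P.ψ v * wt P.ψ w =
      ∑ v ∈ S, ∑ w ∈ S.filter (fun w => CoarseSmall P Λ r v w), wt P.ψ v * wt P.ψ w := by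
    simp only [Finset.sum_filter]
    rw [Finset.sum_comm]
    exact Finset.sum_congr rfl fun v _ => Finset.sum_congr rfl fun w _ => by
      split_ifs <;> ring
  calc _ ≤ ∑ v ∈ S, (∑ w ∈ S.filter (fun w => CoarseRel P S Λ r v w), wt P.ψ v * wt P.ψ w +
        (∑ w ∈ S.filter (fun w => CoarseSmall P Λ r v w), wt P.ψ v * wt P.ψ w +
          ∑ w ∈ S.filter (fun w => CoarseSmall P Λ r w v), wt P.ψ v * wt P.ψ w)) := by
        refine Finset.sum_le_sum fun v hv => ?_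
        simp only [Finset.sum_filter, ← Finset.sum_add_distrib]
        refine Finset.sum_le_sum fun w hw => ?_
        have hp : 0 ≤ wt P.ψ v * wt P.ψ w :=
          mul_nonneg (BilinearAux.wt_nonneg hψ v) (BilinearAux.wt_nonneg hψ w)
        have n0 : ∀ (p : Prop) [Decidable p], 0 ≤ if p then wt P.ψ v * wt P.ψ w else 0 := by
          intro p _
          split_ifs
          exacts [hp, le_rfl]
        by_cases hc : P.lam v ≠ P.lam w ∧ Real.exp (-(r / 100)) ≤ dist2 P.ψ v w ∧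
            dist2 P.ψ v w ≤ Real.exp (r / 100)
        swap
        · rw [if_neg hc]
          exact add_nonneg (n0 _) (add_nonneg (n0 _) (n0 _))
        rw [if_pos hc]
        obtain ⟨hne, -, hd⟩ := hc
        by_cases hR : CoarseRel P S Λ r v w
        · rw [if_pos hR]
          exact le_add_of_nonneg_right (add_nonneg (n0 _) (n0 _))
        rcases hlam v hv with hvΛ | hvΛ
        · have hs : CoarseSmall P Λ r v w := ⟨hvΛ, fun e => hne (hvΛ.trans e.symm), hd,
            le_of_not_gt fun hlt => hR ⟨hv, hw, hne, hd, Or.inl ⟨hvΛ, hlt⟩⟩⟩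
          rw [if_pos hs]
          exact le_add_of_nonneg_of_le (n0 _) (le_add_of_nonneg_right (n0 _))
        · have hwΛ : P.lam w = Λ :=
            (hlam w hw).resolve_right fun e => hne (hvΛ.trans e.symm)
          have hs : CoarseSmall P Λ r w v := ⟨hwΛ, fun e => hne (e.trans hwΛ.symm),
            by rwa [BilinearAux.dist2_comm],
            le_of_not_gt fun hlt => hR ⟨hv, hw, hne, hd, Or.inr ⟨hwΛ, hlt⟩⟩⟩
          rw [if_pos hs]
          exact le_add_of_nonneg_of_le (n0 _) (le_add_of_nonneg_left (n0 _))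
    _ ≤ Csym * (M * E) * (mass P.ψ S + mass P.ψ S ^ 2) +
          (∑ v ∈ S, wt P.ψ v * E + ∑ v ∈ S, wt P.ψ v * E) := by
        rw [Finset.sum_add_distrib, Finset.sum_add_distrib, hswap]
        exact add_le_add hbig
          (add_le_add (Finset.sum_le_sum hsmall) (Finset.sum_le_sum hsmall))
    _ ≤ _ := by
        rw [← Finset.sum_mul]
        have h1 : Csym * (M * E) * (mass P.ψ S + mass P.ψ S ^ 2) ≤
            max Csym 0 * (M * E) * (mass P.ψ S + mass P.ψ S ^ 2) :=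
          mul_le_mul_of_nonneg_right
            (mul_le_mul_of_nonneg_right (le_max_left _ _) (by positivity)) (by positivity)
        have h2 : 0 ≤ mass P.ψ S ^ 2 * E := by positivity
        rw [mass] at h1 h2 ⊢
        nlinarith

end Vale.Agent.P028.T2
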