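import Vale.Agent.P028.T2.State
import Vale.Agent.P028.T2.PTail

/-!
The sums over one side of a final state which the coarse bound uses.

`r` is the square root of the parameter of the deep window, `exp (r ^ 2 / 6)` the size from which a
variable is large and `exp (-r)` the gain.
-/

noncomputable section

namespace Vale.Agent.P028.T2

open Finset
open scoped Classical

/-- The sum over one side factors over the two deviations. -/
theorem coarse_side_le {P S U V W : Finset ℕ} {i j k : ℕ → ℕ} (h : FinState P S U V W i j)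
    (W' : Finset ℕ) (hsub : W' ⊆ W) (D T : Finset ℕ) (hD : ∀ w ∈ W', downDev U k w ∈ D)
    (hT : ∀ w ∈ W', upDev U k w ∈ T) (F : ℕ → ℝ) (hF : ∀ c, 0 ≤ F c) :
    ∑ w ∈ W', (Nat.totient (centre U k) : ℝ) / centre U k / Nat.totient (downDev U k w) *
        F (upDev U k w) ≤
      (∑ d ∈ D, (Nat.totient (centre U k) : ℝ) / centre U k / Nat.totient d) * ∑ c ∈ T, F c := by
  calc _ = ∑ q ∈ W'.image (fun w => (upDev U k w, downDev U k w)),
        (Nat.totient (centre U k) : ℝ) / centre U k / Nat.totient q.2 * F q.1 := by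
        rw [Finset.sum_image ((dev_injOn h).2.mono (by exact_mod_cast hsub))]
    _ ≤ ∑ q ∈ T ×ˢ D,
        (Nat.totient (centre U k) : ℝ) / centre U k / Nat.totient q.2 * F q.1 := by
        refine Finset.sum_le_sum_of_subset_of_nonneg (fun q hq => ?_)
          fun q _ _ => mul_nonneg (by positivity) (hF _)
        obtain ⟨w, hw, rfl⟩ := Finset.mem_image.1 hq
        exact Finset.mem_product.2 ⟨hT w hw, hD w hw⟩
    _ = _ := by
        rw [Finset.sum_product, Finset.sum_mul_sum, Finset.sum_comm]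

/-- The whole divisor sum of the centre. -/
theorem exists_coarse_centre_le :
    ∃ C : ℝ, 0 ≤ C ∧ ∀ N : ℕ, 0 < N →
      ∑ d ∈ N.divisors, (Nat.totient N : ℝ) / N / Nat.totient d ≤ C := by
  obtain ⟨C, hC⟩ := exists_centre_sum_le
  refine ⟨max C 0, le_max_right _ _, fun N hN => (le_of_eq ?_).trans
    ((hC N hN).trans (le_max_left _ _))⟩
  rw [Finset.mul_sum]
  exact Finset.sum_congr rfl fun d _ => by ring

/-- The logarithms which occur are small against `r ^ 2`. -/
theorem coarse_log_le {Λ r : ℝ} (hr : 10 ^ 10 ≤ r) (hΛ0 : 0 ≤ Λ) (hΛ : 1000 * Λ ≤ r ^ 2) :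
    Real.exp (2 * Real.sqrt Λ) + (rhoC * Λ + r / 100) ≤ Real.exp (r / 6) := by
  have hs : Real.sqrt Λ ≤ r / 31 :=
    (Real.sqrt_le_left (by linarith)).2 (by nlinarith)
  have h1 : Real.exp (2 * Real.sqrt Λ) ≤ Real.exp (r / 7) := Real.exp_le_exp.2 (by linarith)
  have h2 : rhoC * Λ + r / 100 ≤ r ^ 2 := by
    have : rhoC * Λ ≤ 2 * Λ := mul_le_mul_of_nonneg_right (by norm_num [rhoC]) hΛ0
    nlinarith
  have h3 : r ^ 2 + 1 ≤ Real.exp (r / 42) := by
    refine le_trans ?_ (Real.pow_div_factorial_le_exp (r / 42) (by linarith) 3)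
    norm_num [Nat.factorial]
    nlinarith
  have h4 : Real.exp (r / 6) = Real.exp (r / 7) * Real.exp (r / 42) := by
    rw [← Real.exp_add]
    congr 1
    ring
  have h5 : 1 ≤ Real.exp (r / 7) := Real.one_le_exp (by linarith)
  rw [h4]
  nlinarith [sq_nonneg r]

/-- The tail of the centre beyond `exp (r ^ 2 / 6)`. -/
theorem exists_coarse_tail_le :
    ∃ C : ℝ, 0 ≤ C ∧ ∀ (N : ℕ) (r : ℝ), 0 < N → 10 ^ 10 ≤ r →
      Real.log N ≤ Real.exp (r / 6) →
      ∑ d ∈ N.divisors.filter (fun d : ℕ => Real.exp (r ^ 2 / 6) ≤ (d : ℝ)),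
          (Nat.totient N : ℝ) / N / Nat.totient d ≤ C * Real.exp (-r) := by
  obtain ⟨C, hC0, hC⟩ := exists_ptail_le
  refine ⟨C, hC0.le, fun N r hN hr hlog => ?_⟩
  have hts : tailScale N ≤ r / 6 := by
    refine max_le (by linarith) ?_
    rcases (Real.log_natCast_nonneg N).eq_or_lt with e | e
    · rw [← e, Real.log_zero]
      linarith
    · exact (Real.log_le_iff_le_exp e).2 hlog
  refine (le_of_eq (Finset.sum_congr rfl fun d _ => div_div _ _ _)).trans
    ((hC N hN _ (Real.exp_pos _)).trans ?_)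
  refine mul_le_mul_of_nonneg_left (Real.exp_le_exp.2 ?_) hC0.le
  rw [Real.log_exp, neg_le_neg_iff,
    le_div_iff₀ (lt_of_lt_of_le (by norm_num) (tailScale_spec N).1)]
  nlinarith

/-- Small `c` against a large `a`. -/
theorem coarse_ratio_le {r c0 : ℝ} (hr : 10 ^ 10 ≤ r) (hc0 : c0 ≤ 11 / 10000 * r ^ 2) {a : ℕ}
    (ha : Real.exp (r ^ 2 / 6) ≤ (a : ℝ)) (T : Finset ℕ)
    (hT : ∀ c ∈ T, 1 ≤ c ∧ (c : ℝ) ≤ Real.exp c0) :
    ∑ c ∈ T, ((a : ℝ) / c) ^ sT / a ≤ 100000000 * Real.exp (-r) := by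
  set X := Real.exp c0 with hX
  have hX0 : 0 < X := Real.exp_pos _
  have ha0 : (0 : ℝ) < a := (Real.exp_pos _).trans_le ha
  have hs0 : 0 < sT := by norm_num [sT]
  have e : ∀ c ∈ T, ((a : ℝ) / c) ^ sT / a = ((a : ℝ) / X) ^ sT / a * (X / c) ^ sT := by
    intro c _
    rw [div_mul_eq_mul_div, ← Real.mul_rpow (by positivity) (by positivity),
      div_mul_div_cancel₀ hX0.ne']
  rw [Finset.sum_congr rfl e, ← Finset.mul_sum]
  refine (mul_le_mul_of_nonneg_left (BilinearAux.sum_small_le hs0 sT_lt_one hX0 T hT)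
    (by positivity)).trans ?_
  have e2 : ((a : ℝ) / X) ^ sT / a * (X / (1 - sT)) = ((a : ℝ) / X) ^ (sT - 1) * 100000000 := by
    rw [Real.rpow_sub_one (div_pos ha0 hX0).ne']
    norm_num [sT]
    field_simp
  rw [e2, mul_comm]
  refine mul_le_mul_of_nonneg_left ?_ (by norm_num)
  refine (Real.rpow_le_rpow_of_nonpos (by positivity)
    (div_le_div_of_nonneg_right ha hX0.le) (by norm_num [sT])).trans ?_
  rw [hX, ← Real.exp_sub, ← Real.exp_mul, Real.exp_le_exp]
  norm_num [sT]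
  nlinarith

/-- The gain and the slack combine. -/
theorem coarse_combine {M r G1 G2 Q R : ℝ} (hr : 10 ^ 10 ≤ r) (hM : 1 ≤ M) (h10 : 0 ≤ G1)
    (h20 : 0 ≤ G2) (h1 : G1 ≤ M) (h2 : G2 ≤ M) (hQ : 1 ≤ Q) (hR : 1 ≤ R)
    (hgain : Real.exp (r ^ 2 / 6) ≤ Q * R ∨ G1 ≤ M * Real.exp (-r) ∨ G2 ≤ M * Real.exp (-r)) :
    Real.exp (r / 100) ^ aOne * Real.exp (r / 100) ^ aTwo * (G1 ^ aOne * G2 ^ aTwo) /
        (Q ^ aOne * R ^ aTwo) ≤
      M * Real.exp (-(r / 20)) / (Q * R) ^ betaT := by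
  have hM0 : 0 < M := by linarith
  have ha1 : 0 < aOne := by norm_num [aOne]
  have ha2 : 0 < aTwo := by norm_num [aTwo]
  have hQR : 1 ≤ Q * R := one_le_mul_of_one_le_of_one_le hQ hR
  have hden : (Q * R) ^ betaT * (Q * R) ^ (aTwo - betaT) ≤ Q ^ aOne * R ^ aTwo := by
    rw [← Real.rpow_add (by linarith), add_sub_cancel,
      Real.mul_rpow (by linarith) (by linarith)]
    exact mul_le_mul_of_nonneg_right
      (Real.rpow_le_rpow_of_exponent_le hQ (by norm_num [aOne, aTwo]))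
      (Real.rpow_nonneg (by linarith) _)
  have hx : Real.exp (r / 100) ^ aOne * Real.exp (r / 100) ^ aTwo ≤ Real.exp (r / 100) := by
    rw [← Real.rpow_add (Real.exp_pos _)]
    exact Real.rpow_le_self_of_one_le (Real.one_le_exp (by linarith))
      (by norm_num [aOne, aTwo])
  have hgg : ∀ {g b : ℝ}, 0 ≤ g → g ≤ M * Real.exp (-b) → ∀ a : ℝ, 0 ≤ a →
      g ^ a ≤ M ^ a * Real.exp (-(b * a)) := by
    intro g b hg0 hg a ha
    refine (Real.rpow_le_rpow hg0 hg ha).trans_eq ?_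
    rw [Real.mul_rpow hM0.le (Real.exp_pos _).le, ← Real.exp_mul, neg_mul]
  have hMa : M ^ aOne * M ^ aTwo ≤ M := by
    rw [← Real.rpow_add hM0]
    exact Real.rpow_le_self_of_one_le hM (by norm_num [aOne, aTwo])
  have hkey : Real.exp (r / 100) * (G1 ^ aOne * G2 ^ aTwo) ≤
      M * Real.exp (-(r / 20)) * (Q * R) ^ (aTwo - betaT) := by
    have hP : 1 ≤ (Q * R) ^ (aTwo - betaT) :=
      Real.one_le_rpow hQR (by norm_num [aTwo, betaT])
    have base : ∀ b1 b2 : ℝ, G1 ≤ M * Real.exp (-b1) → G2 ≤ M * Real.exp (-b2) →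
        G1 ^ aOne * G2 ^ aTwo ≤ M * Real.exp (-(b1 * aOne + b2 * aTwo)) := by
      intro b1 b2 e1 e2
      refine (mul_le_mul (hgg h10 e1 _ ha1.le) (hgg h20 e2 _ ha2.le)
        (Real.rpow_nonneg h20 _) (by positivity)).trans ?_
      rw [mul_mul_mul_comm, ← Real.exp_add, ← neg_add]
      exact mul_le_mul_of_nonneg_right hMa (Real.exp_pos _).le
    have z1 : G1 ≤ M * Real.exp (-0) := by simpa using h1
    have z2 : G2 ≤ M * Real.exp (-0) := by simpa using h2
    rcases hgain with hg | hg | hg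
    · refine le_trans (mul_le_mul_of_nonneg_left (base 0 0 z1 z2) (Real.exp_pos _).le) ?_
      refine le_trans ?_ (mul_le_mul_of_nonneg_left
        (Real.rpow_le_rpow (Real.exp_pos _).le hg (by norm_num [aTwo, betaT])) (by positivity))
      rw [← Real.exp_mul, mul_left_comm, ← Real.exp_add, mul_assoc, ← Real.exp_add]
      refine mul_le_mul_of_nonneg_left (Real.exp_le_exp.2 ?_) hM0.le
      norm_num [aTwo, betaT]
      nlinarith
    · refine le_trans ?_ (le_mul_of_one_le_right (by positivity) hP)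
      refine le_trans (mul_le_mul_of_nonneg_left (base r 0 hg z2) (Real.exp_pos _).le) ?_
      rw [mul_left_comm, ← Real.exp_add]
      refine mul_le_mul_of_nonneg_left (Real.exp_le_exp.2 ?_) hM0.le
      norm_num [aOne, aTwo]
      linarith
    · refine le_trans ?_ (le_mul_of_one_le_right (by positivity) hP)
      refine le_trans (mul_le_mul_of_nonneg_left (base 0 r z1 hg) (Real.exp_pos _).le) ?_
      rw [mul_left_comm, ← Real.exp_add]
      refine mul_le_mul_of_nonneg_left (Real.exp_le_exp.2 ?_) hM0.le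
      norm_num [aOne, aTwo]
      linarith
  calc _ ≤ M * Real.exp (-(r / 20)) * (Q * R) ^ (aTwo - betaT) /
        ((Q * R) ^ betaT * (Q * R) ^ (aTwo - betaT)) :=
        div_le_div₀ (by positivity)
          ((mul_le_mul_of_nonneg_right hx (by positivity)).trans hkey) (by positivity) hden
    _ = _ := mul_div_mul_right _ _ (Real.rpow_pos_of_pos (by linarith) _).ne'

end Vale.Agent.P028.T2
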