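import Vale.Agent.P028.Overlap
import Vale.Agent.P028.BilinearAux

/-!
Local factors of an overlap for two arbitrary approximations, and elementary facts on coincidence
numbers.
-/

noncomputable section

namespace Vale.Agent.P028.T2

open Finset
open scoped Classical

theorem mem_nearSet {γ : ℝ} {ψ : ℕ → ℝ} {q r : ℕ} {n : ℤ} :
    n ∈ nearSet γ ψ q r ↔ |(n : ℝ) + γ * mdiff q r| < 2 * dist2 ψ q r := by
  refine ⟨fun h => (mem_filter.1 h).2, fun h => mem_filter.2 ⟨mem_Icc.2 ⟨?_, ?_⟩, h⟩⟩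
  · have h1 := Int.floor_le (-(γ * mdiff q r) - 2 * dist2 ψ q r)
    have h2 := (abs_lt.1 h).1
    exact_mod_cast (by linarith : ((⌊-(γ * mdiff q r) - 2 * dist2 ψ q r⌋ : ℤ) : ℝ) ≤ (n : ℝ))
  · have h1 := Int.le_ceil (-(γ * mdiff q r) + 2 * dist2 ψ q r)
    have h2 := (abs_lt.1 h).2
    exact_mod_cast (by linarith : (n : ℝ) ≤ ((⌈-(γ * mdiff q r) + 2 * dist2 ψ q r⌉ : ℤ) : ℝ))

theorem neg_mem_nearSet {γ : ℝ} {ψ : ℕ → ℝ} {q r : ℕ} {n : ℤ} (h : n ∈ nearSet γ ψ q r) :
    -n ∈ nearSet γ ψ r q := by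
  rw [mem_nearSet] at h ⊢
  have e : ((-n : ℤ) : ℝ) + γ * mdiff r q = -((n : ℝ) + γ * mdiff q r) := by
    simp only [mdiff]; push_cast; ring
  rwa [e, abs_neg, dist2, max_comm]

theorem prod_ratio_eq {q : ℕ} (hq : 0 < q) :
    ∏ p ∈ q.primeFactors, ratio p = (q : ℝ) / Nat.totient q := by
  have h : (∏ p ∈ q.primeFactors, (1 - 1 / (p : ℝ))) * ∏ p ∈ q.primeFactors, ratio p = 1 := by
    rw [← prod_mul_distrib]
    exact prod_eq_one fun p hp => ratio_mul_one_sub (Nat.prime_of_mem_primeFactors hp)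
  have hφ : (0 : ℝ) < Nat.totient q := by exact_mod_cast Nat.totient_pos.2 hq
  rw [eq_div_iff hφ.ne', totient_eq_prod]
  linear_combination (q : ℝ) * h

theorem one_le_prod_ratio {s : Finset ℕ} (hs : ∀ p ∈ s, p.Prime) : 1 ≤ ∏ p ∈ s, ratio p :=
  one_le_prod fun p hp => BilinearAux.one_le_ratio (hs p hp)

theorem lineAvg_swap (A : ℤ) (B : ℕ) (A' : ℤ) (B' q r : ℕ) (a0 b0 : ℤ) (p : ℕ) :
    lineAvg A B A' B' q r a0 b0 p = lineAvg A' B' A B r q b0 a0 p := by
  unfold lineAvg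
  congr 1
  exact sum_congr rfl fun i _ => mul_comm _ _

theorem lineAvg_nonneg (A : ℤ) (B : ℕ) (A' : ℤ) (B' q r : ℕ) (a0 b0 : ℤ) {p : ℕ} (hp : p.Prime) :
    0 ≤ lineAvg A B A' B' q r a0 b0 p :=
  div_nonneg (sum_nonneg fun _ _ => mul_nonneg (lw_nonneg _ _ _ hp _) (lw_nonneg _ _ _ hp _))
    (Nat.cast_nonneg p)

/-- A line average is at most the average of one of the two moduli, if that modulus is free on the
line or carries a weight. -/
theorem lineAvg_le_right (A : ℤ) (B : ℕ) {A' : ℤ} {B' q r p : ℕ} (a0 b0 : ℤ) (hp : p.Prime)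
    (h : p ∣ qd r q → p ∣ B') : lineAvg A B A' B' q r a0 b0 p ≤ lwAvg r p := by
  have hp0 : (0 : ℝ) < p := by exact_mod_cast hp.pos
  rw [lineAvg, div_le_iff₀ hp0]
  refine (sum_le_sum fun i _ => mul_le_of_le_one_left (lw_nonneg A' B' r hp _)
    (lw_le_one A B q hp _)).trans (le_of_eq ?_)
  by_cases hd : p ∣ qd r q
  · have e : ∀ b : ℤ, lw A' B' r p b = lwAvg r p := fun b => by simp [lw, lwAvg, h hd]
    simp only [e, sum_const, card_range, nsmul_eq_mul]
    ring
  · rw [sum_lw_line hp hd, mul_comm]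

theorem lineAvg_le_left {A : ℤ} {B : ℕ} (A' : ℤ) (B' : ℕ) {q r p : ℕ} (a0 b0 : ℤ) (hp : p.Prime)
    (h : p ∣ qd q r → p ∣ B) : lineAvg A B A' B' q r a0 b0 p ≤ lwAvg q p := by
  rw [lineAvg_swap]
  exact lineAvg_le_right A' B' b0 a0 hp h

/-- The local bound on a line, for two bumps: beyond the product of the averages a factor is lost
at the primes of `q' r'` and where the two deleted classes coincide (the condition `E`). -/
theorem lineAvg_le_two {A A' : ℤ} {B B' q r : ℕ} (hq : 0 < q) (a0 b0 : ℤ) {p : ℕ} (hp : p.Prime)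
    (hpT : p ∣ q ∨ p ∣ r) (E : Prop)
    (hE : p ∣ Nat.gcd q r → ¬ p ∣ qd q r * qd r q → ¬ p ∣ B → ¬ p ∣ B' → ∀ i : ℕ,
      (p : ℤ) ∣ (a0 + (qd q r : ℤ) * i) * B + A →
      (p : ℤ) ∣ (b0 + (qd r q : ℤ) * i) * B' + A' → E) :
    lineAvg A B A' B' q r a0 b0 p ≤ lwAvg q p * lwAvg r p *
      ((if p ∣ qd q r * qd r q then ratio p else 1) * (if E then ratio p else 1)) := by
  have hp0 : (0 : ℝ) < p := by exact_mod_cast hp.pos
  have hr1 := ratio_mul_one_sub hp
  have hone : (1 : ℝ) ≤ (if E then ratio p else 1) := by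
    split_ifs
    · exact BilinearAux.one_le_ratio hp
    · exact le_rfl
  have havg : 0 ≤ lwAvg q p * lwAvg r p := (mul_pos (lwAvg_pos q hp) (lwAvg_pos r hp)).le
  by_cases hd : p ∣ qd q r * qd r q
  · rw [if_pos hd, ← mul_assoc]
    refine le_trans ?_ (le_mul_of_one_le_right
      (mul_nonneg havg (zero_le_one.trans (BilinearAux.one_le_ratio hp))) hone)
    by_cases hg : p ∣ Nat.gcd q r
    · have hdq : p ∣ q := hg.trans (Nat.gcd_dvd_left q r)
      have hdr : p ∣ r := hg.trans (Nat.gcd_dvd_right q r)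
      have eq' : lwAvg q p = 1 - 1 / (p : ℝ) := by simp [lwAvg, hdq]
      have er' : lwAvg r p = 1 - 1 / (p : ℝ) := by simp [lwAvg, hdr]
      rw [eq', er', mul_assoc, hr1, mul_one]
      by_cases hdd : p ∣ qd q r
      · rw [← er']
        exact lineAvg_le_right A B a0 b0 hp fun h2 => (not_dvd_both hp hq hdd h2).elim
      · rw [← eq']
        exact lineAvg_le_left A' B' a0 b0 hp fun h2 => absurd h2 hdd
    · have e : lwAvg q p * lwAvg r p = 1 - 1 / (p : ℝ) := by
        have hnot : ¬ (p ∣ q ∧ p ∣ r) := fun h' => hg (Nat.dvd_gcd h'.1 h'.2)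
        rcases hpT with h' | h'
        · have n1 : ¬ p ∣ r := fun h'' => hnot ⟨h', h''⟩
          simp [lwAvg, h', n1]
        · have n1 : ¬ p ∣ q := fun h'' => hnot ⟨h'', h'⟩
          simp [lwAvg, h', n1]
      rw [e, hr1, lineAvg, div_le_iff₀ hp0, one_mul]
      refine (sum_le_sum fun i _ => mul_le_one₀ (lw_le_one A B q hp _) (lw_nonneg A' B' r hp _)
        (lw_le_one A' B' r hp _)).trans (le_of_eq ?_)
      simp
  have hd1 : ¬ p ∣ qd q r := fun h' => hd (h'.mul_right _)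
  have hd2 : ¬ p ∣ qd r q := fun h' => hd (h'.mul_left _)
  have hg : p ∣ Nat.gcd q r := by
    by_contra hg
    rcases hpT with h' | h'
    · exact hd1 (dvd_qd_of_not_dvd_gcd hp h' hg)
    · exact hd2 (dvd_qd_of_not_dvd_gcd hp h' (by rwa [Nat.gcd_comm]))
  have hdq : p ∣ q := hg.trans (Nat.gcd_dvd_left q r)
  have hdr : p ∣ r := hg.trans (Nat.gcd_dvd_right q r)
  have eq' : lwAvg q p = 1 - 1 / (p : ℝ) := by simp [lwAvg, hdq]
  have er' : lwAvg r p = 1 - 1 / (p : ℝ) := by simp [lwAvg, hdr]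
  rw [if_neg hd, one_mul]
  by_cases hB : p ∣ B
  · refine le_trans (le_of_eq ?_) (le_mul_of_one_le_right havg hone)
    have e : ∀ a : ℤ, lw A B q p a = lwAvg q p := fun a => by simp [lw, lwAvg, hB]
    simp only [lineAvg, e, ← mul_sum, sum_lw_line hp hd2]
    field_simp
  by_cases hB' : p ∣ B'
  · refine le_trans (le_of_eq ?_) (le_mul_of_one_le_right havg hone)
    have e : ∀ a : ℤ, lw A' B' r p a = lwAvg r p := fun a => by simp [lw, lwAvg, hB']
    simp only [lineAvg, e, ← sum_mul, sum_lw_line hp hd1]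
    field_simp
  by_cases hEt : E
  · rw [if_pos hEt, eq', er', mul_assoc, hr1, mul_one, ← eq']
    exact lineAvg_le_left A' B' a0 b0 hp fun h2 => absurd h2 hd1
  · rw [if_neg hEt, mul_one, eq', er', lineAvg]
    have ex : ∀ i : ℕ,
        lw A B q p (a0 + (qd q r : ℤ) * i) * lw A' B' r p (b0 + (qd r q : ℤ) * i) =
        lw A B q p (a0 + (qd q r : ℤ) * i) + lw A' B' r p (b0 + (qd r q : ℤ) * i) - 1 := by
      intro i
      simp only [lw, hdq, hdr, hB, hB', if_true, if_false]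
      split_ifs with h1 h2
      · exact absurd (hE hg hd hB hB' i h1 h2) hEt
      all_goals norm_num
    rw [sum_congr rfl fun i _ => ex i, sum_sub_distrib, sum_add_distrib, sum_lw_line hp hd1,
      sum_lw_line hp hd2, eq', er', sum_const, card_range, nsmul_one, div_le_iff₀ hp0]
    field_simp
    nlinarith

end Vale.Agent.P028.T2
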