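import Vale.Agent.P028.T2.Elem
import Vale.Agent.P028.Overlap
import Vale.Agent.P028.T2.OverlapLocal
import Vale.Agent.P028.Lift.Sep

/-!
The overlap of two bumps of the second stage.

A coincidence number on the line of a common approximation is killed unless all primes of `q' r'`
carry weights; the other coincidence numbers give `gTerm`.
-/

noncomputable section

namespace Vale.Agent.P028.T2

open Finset MeasureTheory
open scoped Classical

variable {P : Sys}

theorem isCoprime_At_Bt (P : Sys) (q : ℕ) : IsCoprime (P.At q) ((P.Bt q : ℕ) : ℤ) := by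
  refine ⟨1, -((Nat.gcdA (P.Bt q) (P.detProd q)) *
    (P.A q * (primorial (P.y q) : ℤ) - 1)), ?_⟩
  simp only [Sys.At]
  ring

theorem prime_dvd_Bt_iff (P : Sys) (q : ℕ) {p : ℕ} (hp : p.Prime) :
    p ∣ P.Bt q ↔ p ∣ P.B q ∨ p ≤ P.y q := by
  have h : p ∣ primorial (P.y q) ↔ p ≤ P.y q := by
    constructor
    · intro h
      obtain ⟨r, hr, hpr⟩ := (Prime.dvd_finsetProd_iff hp.prime _).1 h
      obtain ⟨hr1, hr2⟩ := mem_filter.1 hr
      rw [(Nat.prime_dvd_prime_iff_eq hp hr2).1 hpr]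
      exact Nat.lt_succ_iff.1 (mem_range.1 hr1)
    · intro h
      exact dvd_prod_of_mem _ (mem_filter.2 ⟨mem_range.2 (Nat.lt_succ_of_le h), hp⟩)
  rw [Sys.Bt, hp.dvd_mul, h]

/-- At a deleted prime the modified approximation has the class of `A / B`. -/
theorem dvd_At_sub (P : Sys) (q : ℕ) {p : ℕ} (hp : p ∈ q.primeFactors) (hB : ¬ p ∣ P.Bt q) :
    (p : ℤ) ∣ P.At q - P.A q * (primorial (P.y q) : ℤ) := by
  have hmem : p ∈ q.primeFactors.filter (fun l => ¬ l ∣ P.Bt q) := mem_filter.2 ⟨hp, hB⟩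
  have hdvd : (p : ℤ) ∣ (P.detProd q : ℤ) := Int.natCast_dvd_natCast.2 (dvd_prod_of_mem _ hmem)
  have hcop : Nat.gcd (P.Bt q) (P.detProd q) = 1 := by
    refine Nat.Coprime.prod_right fun l hl => ?_
    exact ((Nat.prime_of_mem_primeFactors (mem_filter.1 hl).1).coprime_iff_not_dvd.2
      (mem_filter.1 hl).2).symm
  have hb := Nat.gcd_eq_gcd_ab (P.Bt q) (P.detProd q)
  rw [hcop] at hb
  push_cast at hb
  have e : P.At q - P.A q * (primorial (P.y q) : ℤ) = (P.detProd q : ℤ) *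
      (-(Nat.gcdB (P.Bt q) (P.detProd q) * (P.A q * (primorial (P.y q) : ℤ) - 1))) := by
    simp only [Sys.At]
    linear_combination -(P.A q * (primorial (P.y q) : ℤ) - 1) * hb
  rw [e]
  exact hdvd.mul_right _

/-- The deleted class. -/
theorem dvd_class_iff (P : Sys) (q : ℕ) {p : ℕ} (hp : p ∈ q.primeFactors) (hB : ¬ p ∣ P.Bt q)
    (a : ℤ) :
    (p : ℤ) ∣ a * (P.Bt q : ℤ) + P.At q ↔ (p : ℤ) ∣ a * (P.B q : ℤ) + P.A q := by
  have hpp := Nat.prime_of_mem_primeFactors hp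
  have hpi := Nat.prime_iff_prime_int.1 hpp
  have hpr : ¬ (p : ℤ) ∣ (primorial (P.y q) : ℤ) := fun h =>
    hB ((Int.natCast_dvd_natCast.1 h).mul_left _)
  have hd : (p : ℤ) ∣ (a * (P.Bt q : ℤ) + P.At q) -
      (primorial (P.y q) : ℤ) * (a * (P.B q : ℤ) + P.A q) := by
    have e : (a * (P.Bt q : ℤ) + P.At q) -
        (primorial (P.y q) : ℤ) * (a * (P.B q : ℤ) + P.A q) =
        P.At q - P.A q * (primorial (P.y q) : ℤ) := by
      simp only [Sys.Bt]
      push_cast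
      ring
    rw [e]
    exact dvd_At_sub P q hp hB
  rw [dvd_iff_dvd_of_dvd_sub hd, hpi.dvd_mul]
  exact or_iff_right hpr

/-- The cut is at most `√Λ + 1`. -/
theorem exists_y_le :
    ∃ lam0 : ℝ, ∀ P : Sys, P.Ok lam0 → ∀ q ∈ P.S, (P.y q : ℝ) ≤ Real.sqrt (P.lam q) + 1 := by
  refine ⟨8, fun P h q hq => ?_⟩
  have hl : 8 ≤ P.lam q := h.lam_ge q hq
  set e : ℝ := rhoC * P.lam q with he
  have he0 : 0 ≤ e := by rw [he, rhoC]; positivity
  obtain ⟨hB, hd⟩ := shortVec_bounds (h.short q hq)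
  have hψ := h.psi_pos q hq
  have hd' : |(P.B q : ℝ) * P.γ - P.A q| / P.ψ q ≤ Real.exp (e / 2) := by
    rw [div_le_iff₀ hψ]
    refine hd.trans (le_trans (le_of_eq ?_)
      (mul_le_mul_of_nonneg_left (h.le_psi q hq) (Real.exp_pos _).le))
    rw [← Real.exp_add, ← he]
    ring_nf
  have harg : 2 + (P.B q : ℝ) + |(P.B q : ℝ) * P.γ - P.A q| / P.ψ q ≤ Real.exp (P.lam q) := by
    have h1 : 1 ≤ Real.exp (e / 2) := Real.one_le_exp (by linarith)
    have h2 : 4 * Real.exp (e / 2) ≤ Real.exp (P.lam q) := by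
      have h3 : Real.exp (e / 2) * Real.exp 3 ≤ Real.exp (P.lam q) := by
        rw [← Real.exp_add]
        refine Real.exp_le_exp.2 ?_
        rw [he, rhoC]
        linarith
      have h4 : (4 : ℝ) ≤ Real.exp 3 := by linarith [Real.add_one_le_exp (3 : ℝ)]
      have := mul_le_mul_of_nonneg_left h4 (Real.exp_pos (e / 2)).le
      linarith
    linarith
  have hlog : Real.log (2 + (P.B q : ℝ) + |(P.B q : ℝ) * P.γ - P.A q| / P.ψ q) ≤ P.lam q :=
    (Real.log_le_log (by positivity) harg).trans (Real.log_exp _).le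
  have hs := Real.sqrt_le_sqrt hlog
  have hc := Nat.ceil_lt_add_one (Real.sqrt_nonneg
    (Real.log (2 + (P.B q : ℝ) + |(P.B q : ℝ) * P.γ - P.A q| / P.ψ q)))
  simp only [Sys.y, yCut]
  linarith

theorem excTerm_nonneg {lam0 : ℝ} (h : P.Ok lam0) (q r : ℕ) : 0 ≤ P.excTerm q r := by
  have h1 := BilinearAux.wt_nonneg h.nonneg q
  have h2 := BilinearAux.wt_nonneg h.nonneg r
  have h3 : 0 ≤ dist2 P.ψ q r := le_max_of_le_left (mul_nonneg (h.nonneg q) (Nat.cast_nonneg _))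
  rw [Sys.excTerm]
  split_ifs <;> first
    | exact le_rfl
    | exact div_nonneg (mul_nonneg zero_le_two (mul_nonneg (by assumption) (h.nonneg _))) h3


theorem ok_mono {a b : ℝ} (h : P.Ok a) (hb : b ≤ a) : P.Ok b :=
  { h with lam_ge := fun q hq => hb.trans (h.lam_ge q hq) }

theorem psi_le_half {lam0 : ℝ} (h0 : 2 ≤ lam0) (h : P.Ok lam0) {q : ℕ} (hq : q ∈ P.S) :
    P.ψ q ≤ 1 / 2 := by
  refine (h.psi_le q hq).trans ?_
  rw [Real.exp_neg, inv_le_comm₀ (Real.exp_pos _) (by norm_num)]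
  linarith [Real.add_one_le_exp (P.lam q), h.lam_ge q hq]

theorem bmp_mem (P : Sys) {q : ℕ} (hq : 0 < q) (hψ : P.ψ q ≤ 1 / 2) (x : ℝ) :
    0 ≤ P.bmp q x ∧ P.bmp q x ≤ 1 := by
  have hqR : (0 : ℝ) < q := by exact_mod_cast hq
  have hw := (wConst_pos (P.Bt q) q).le
  rw [Sys.bmp, bump_eq]
  refine ⟨mul_nonneg hw (sum_nonneg fun a _ => Set.indicator_nonneg (fun _ _ => zero_le_one) _),
    mul_le_one₀ (wConst_le_one _ _)
      (sum_nonneg fun a _ => Set.indicator_nonneg (fun _ _ => zero_le_one) _) ?_⟩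
  simp only [Set.indicator_apply]
  rw [← sum_filter, sum_const, nsmul_one, ← Nat.cast_one, Nat.cast_le]
  refine card_le_one.2 fun a ha b hb => ?_
  obtain ⟨a1, a2⟩ := (mem_filter.1 ha).2
  obtain ⟨b1, b2⟩ := (mem_filter.1 hb).2
  rw [div_lt_iff₀ hqR] at a1 b1
  rw [lt_div_iff₀ hqR] at a2 b2
  have e1 : (a : ℝ) < b + 1 := by linarith
  have e2 : (b : ℝ) < a + 1 := by linarith
  norm_cast at e1 e2
  omega

theorem wF_swap (P : Sys) (q r : ℕ) (n : ℤ) : P.wF 0 r q (-n) = P.wF 0 q r n := by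
  have e : zform2 (P.A r) (P.B r) (P.A q) (P.B q) r q (-n) =
      -zform2 (P.A q) (P.B q) (P.A r) (P.B r) q r n := by
    rw [zform2, zform2]
    ring
  rw [Sys.wF, Sys.wF, Nat.gcd_comm r q]
  refine prod_congr (filter_congr fun p _ => ?_) fun _ _ => rfl
  rw [e, dvd_neg, mul_comm (qd r q) (qd q r)]
  tauto

theorem neg_mem_goodSet {q r : ℕ} {n : ℤ} (hn : n ∈ P.goodSet q r) : -n ∈ P.goodSet r q := by
  obtain ⟨h1, h2⟩ := mem_filter.1 hn
  refine mem_filter.2 ⟨neg_mem_nearSet h1, fun ⟨hA, hB, hz⟩ => h2 ⟨hA.symm, hB.symm, ?_⟩⟩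
  rw [← hA, ← hB]
  rw [zform, mdiff] at hz ⊢
  linear_combination (-1 : ℤ) * hz

/-- Both factors are at most the product over all the primes of the two moduli. -/
theorem factor_le_prod {q r : ℕ} (hq : 0 < q) (hr : 0 < r) (n : ℤ) :
    hFac 0 (qd q r * qd r q) * P.wF 0 q r n ≤
      (∏ p ∈ q.primeFactors, ratio p) * ∏ p ∈ r.primeFactors, ratio p := by
  have hp : ∀ p ∈ q.primeFactors ∪ r.primeFactors, p.Prime := fun p hp =>
    prime_of_mem_pairPrimes hp
  have hge : ∀ p ∈ q.primeFactors ∪ r.primeFactors, 1 ≤ ratio p := fun p h =>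
    BilinearAux.one_le_ratio (hp p h)
  rw [hFac, Sys.wF, ← prod_union ?_]
  swap
  · refine disjoint_left.2 fun p h1 h2 => ?_
    exact (mem_filter.1 h2).2.2.2.2.1 (Nat.dvd_of_mem_primeFactors (mem_filter.1 h1).1)
  refine (prod_le_prod_of_subset_of_one_le (t := q.primeFactors ∪ r.primeFactors) ?_
    (fun p h => ?_) fun p h _ => hge p h).trans ?_
  · intro p h
    rcases mem_union.1 h with h1 | h1
    · have hpp := Nat.prime_of_mem_primeFactors (mem_filter.1 h1).1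
      rcases hpp.dvd_mul.1 (Nat.dvd_of_mem_primeFactors (mem_filter.1 h1).1) with h' | h'
      · exact mem_union_left _
          (mem_primeFactors_of hq hpp ((h'.mul_left _).trans (gcd_mul_qd q r).dvd))
      · exact mem_union_right _
          (mem_primeFactors_of hr hpp ((h'.mul_left _).trans (gcd_mul_qd' q r).dvd))
    · exact mem_union_left _ (Nat.primeFactors_mono (Nat.gcd_dvd_left q r) hq.ne' (mem_filter.1 h1).1)
  · rcases mem_union.1 h with h1 | h1 <;>
      exact zero_le_one.trans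
        (BilinearAux.one_le_ratio (Nat.prime_of_mem_primeFactors (mem_filter.1 h1).1))
  · rw [← prod_union_inter]
    exact le_mul_of_one_le_right (zero_le_one.trans (one_le_prod_ratio hp))
      (one_le_prod_ratio fun p h => hp p (mem_union_left _ (mem_inter.1 h).1))

/-- The coincidences at one number, against the two factors. -/
theorem coin_le {q r : ℕ} (hq : 0 < q) (hr : 0 < r) (n : ℤ) :
    wConst (P.Bt q) q * wConst (P.Bt r) r *
        (coinSet (P.At q) (P.Bt q) (P.At r) (P.Bt r) q r n).card ≤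
      (Nat.gcd q r : ℝ) * ((Nat.totient q : ℝ) / q * ((Nat.totient r : ℝ) / r)) *
        (hFac 0 (qd q r * qd r q) * P.wF 0 q r n) := by
  have hne : qd q r * qd r q ≠ 0 := (mul_pos (qd_pos hq) (qd_pos hr)).ne'
  rcases (coinSet (P.At q) (P.Bt q) (P.At r) (P.Bt r) q r n).eq_empty_or_nonempty with
    he | ⟨⟨a0, b0⟩, h0⟩
  · rw [he, card_empty, Nat.cast_zero, mul_zero]
    refine mul_nonneg (by positivity) (mul_nonneg
      (zero_le_one.trans (BilinearAux.one_le_hFac _ _)) ?_)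
    exact zero_le_one.trans
      (one_le_prod_ratio fun p hp => Nat.prime_of_mem_primeFactors (mem_filter.1 hp).1)
  have heq : (qd r q : ℤ) * a0 - (qd q r : ℤ) * b0 = n := (mem_filter.1 h0).2
  set T := pairPrimes q r with hT
  refine (coinSet_card_le hq hr h0 T fun p hp => prime_of_mem_pairPrimes hp).trans ?_
  rw [mul_assoc]
  refine mul_le_mul_of_nonneg_left ?_ (Nat.cast_nonneg _)
  refine (prod_le_prod
    (fun p hp => lineAvg_nonneg _ _ _ _ q r _ _ (prime_of_mem_pairPrimes hp)) fun p hp =>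
    lineAvg_le_two hq (a0 : ℤ) (b0 : ℤ) (prime_of_mem_pairPrimes hp) ?_
      (p ∈ (Nat.gcd q r).primeFactors.filter (fun p => 0 < p ∧ P.y q < p ∧ P.y r < p ∧
        ¬ p ∣ qd q r * qd r q ∧ ¬ p ∣ P.B q ∧ ¬ p ∣ P.B r ∧
        (p : ℤ) ∣ zform2 (P.A q) (P.B q) (P.A r) (P.B r) q r n)) ?_).trans (le_of_eq ?_)
  · rcases mem_union.1 hp with h | h
    · exact Or.inl (Nat.dvd_of_mem_primeFactors h)
    · exact Or.inr (Nat.dvd_of_mem_primeFactors h)
  · intro hg hd hB hB' i h1 h2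
    have hpp := prime_of_mem_pairPrimes hp
    have hpq := mem_primeFactors_of hq hpp (hg.trans (Nat.gcd_dvd_left q r))
    have hpr := mem_primeFactors_of hr hpp (hg.trans (Nat.gcd_dvd_right q r))
    rw [dvd_class_iff P q hpq hB] at h1
    rw [dvd_class_iff P r hpr hB'] at h2
    rw [prime_dvd_Bt_iff P q hpp, not_or, not_le] at hB
    rw [prime_dvd_Bt_iff P r hpp, not_or, not_le] at hB'
    refine mem_filter.2 ⟨mem_primeFactors_of (Nat.gcd_pos_of_pos_left r hq) hpp hg,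
      hpp.pos, hB.2, hB'.2, hd, hB.1, hB'.1, ?_⟩
    have e : zform2 (P.A q) (P.B q) (P.A r) (P.B r) q r n =
        ((qd r q : ℤ) * P.B r) * (((a0 : ℤ) + (qd q r : ℤ) * i) * P.B q + P.A q) -
          ((qd q r : ℤ) * P.B q) * (((b0 : ℤ) + (qd r q : ℤ) * i) * P.B r + P.A r) := by
      rw [← heq, zform2]
      ring
    rw [e]
    exact (h1.mul_left _).sub (h2.mul_left _)
  · rw [prod_mul_distrib, prod_lwAvg_pairPrimes hq hr]
    congr 1
    rw [prod_mul_distrib]
    congr 1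
    · rw [← prod_filter, hFac]
      refine prod_congr ?_ fun _ _ => rfl
      ext p
      simp only [mem_filter, pairPrimes, mem_union, Nat.mem_primeFactors]
      constructor
      · rintro ⟨h1, h2⟩
        exact ⟨⟨h1.elim (·.1) (·.1), h2, hne⟩, (h1.elim (·.1) (·.1)).pos⟩
      · rintro ⟨⟨h1, h2, -⟩, -⟩
        refine ⟨?_, h2⟩
        rcases h1.dvd_mul.1 h2 with h | h
        · exact Or.inl ⟨h1, (h.mul_left _).trans (gcd_mul_qd q r).dvd, hq.ne'⟩
        · exact Or.inr ⟨h1, (h.mul_left _).trans (gcd_mul_qd' q r).dvd, hr.ne'⟩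
    · rw [Sys.wF]
      refine ((prod_subset ?_ ?_).symm).trans (prod_congr rfl fun p hp => if_pos hp)
      · exact fun p hp => mem_union_left _
          (Nat.primeFactors_mono (Nat.gcd_dvd_left q r) hq.ne' (mem_filter.1 hp).1)
      · exact fun p _ hp => if_neg hp

/-- On the line of a common approximation the primes of `q'` and `r'` carry weights. -/
theorem coin_kill {q r : ℕ} {n : ℤ} (hq : 0 < q) (hcop : IsCoprime (P.A q) (P.B q : ℤ))
    (hz : zform (P.A q) (P.B q) q r n = 0)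
    {a b : ℕ} (hab : (a, b) ∈ coinSet (P.At q) (P.Bt q) (P.At r) (P.Bt r) q r n) {p : ℕ}
    (hp : p ∈ (qd q r).primeFactors) : p ≤ P.y q := by
  obtain ⟨hmem, heq⟩ := mem_filter.1 hab
  obtain ⟨ha, -⟩ := mem_product.1 hmem
  have hpp := Nat.prime_of_mem_primeFactors hp
  have hpi := Nat.prime_iff_prime_int.1 hpp
  have hpd := Nat.dvd_of_mem_primeFactors hp
  by_contra hy
  rw [zform_eq (a : ℤ) (b : ℤ) heq] at hz
  have h1 : (p : ℤ) ∣ (qd r q : ℤ) * ((a : ℤ) * P.B q + P.A q) := by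
    rw [sub_eq_zero.1 hz]
    exact (Int.natCast_dvd_natCast.2 hpd).mul_right _
  have h2 : (p : ℤ) ∣ (a : ℤ) * P.B q + P.A q :=
    (hpi.dvd_or_dvd h1).resolve_left fun h => not_dvd_both hpp hq hpd (Int.natCast_dvd_natCast.1 h)
  have hpq := mem_primeFactors_of hq hpp ((hpd.mul_left _).trans (gcd_mul_qd q r).dvd)
  by_cases hBq : p ∣ P.B q
  · have hdA : (p : ℤ) ∣ P.A q :=
      (dvd_add_right ((Int.natCast_dvd_natCast.2 hBq).mul_left _)).1 h2
    exact hpi.not_isUnit (hcop.isUnit_of_dvd' hdA (Int.natCast_dvd_natCast.2 hBq))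
  · have hBt : ¬ p ∣ P.Bt q := by
      rw [prime_dvd_Bt_iff P q hpp]
      exact not_or.2 ⟨hBq, hy⟩
    exact (mem_filter.1 ha).2 p (mem_filter.2 ⟨hpq, hBt⟩) ((dvd_class_iff P q hpq hBt _).2 h2)

theorem swap_mem_coinSet {q r : ℕ} {n : ℤ} {a b : ℕ} {A A' : ℤ} {B B' : ℕ}
    (h : (a, b) ∈ coinSet A B A' B' q r n) : (b, a) ∈ coinSet A' B' A B r q (-n) := by
  obtain ⟨hmem, heq⟩ := mem_filter.1 h
  obtain ⟨ha, hb⟩ := mem_product.1 hmem
  refine mem_filter.2 ⟨mem_product.2 ⟨hb, ha⟩, ?_⟩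
  simp only at heq ⊢
  linarith

/-- The coincidences on the line. -/
theorem coin_line_le {lam0 : ℝ} (h : P.Ok lam0) {q r : ℕ} (hq : q ∈ P.S) (hr : r ∈ P.S)
    (hne : q ≠ r) :
    2 * (P.ψ q * P.ψ r / (Nat.gcd q r * dist2 P.ψ q r)) *
        ∑ n ∈ (nearSet P.γ P.ψ q r).filter (fun n => ¬ P.Good q r n),
          wConst (P.Bt q) q * wConst (P.Bt r) r *
            (coinSet (P.At q) (P.Bt q) (P.At r) (P.Bt r) q r n).card ≤ P.excTerm q r := by
  have hq0 := h.pos q hq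
  have hr0 := h.pos r hr
  have hψq := h.psi_pos q hq
  have hψr := h.psi_pos r hr
  have hD := dist2_pos (ψ := P.ψ) hr0 hψq (q := q)
  have hg : (0 : ℝ) < Nat.gcd q r := by exact_mod_cast Nat.gcd_pos_of_pos_left r hq0
  set c := 2 * (P.ψ q * P.ψ r / (Nat.gcd q r * dist2 P.ψ q r)) with hc
  set S0 := ((nearSet P.γ P.ψ q r).filter (fun n => ¬ P.Good q r n)).filter
    (fun n => (coinSet (P.At q) (P.Bt q) (P.At r) (P.Bt r) q r n).Nonempty) with hS0
  rw [← sum_subset (filter_subset _ _) (s₁ := S0) fun n hn hn' => by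
    have : coinSet (P.At q) (P.Bt q) (P.At r) (P.Bt r) q r n = ∅ :=
      not_nonempty_iff_eq_empty.1 fun h' => hn' (mem_filter.2 ⟨hn, h'⟩)
    simp [this]]
  rcases S0.eq_empty_or_nonempty with he | ⟨n, hn⟩
  · rw [he, sum_empty, mul_zero]
    exact excTerm_nonneg h q r
  obtain ⟨hn1, ⟨⟨a0, b0⟩, h0⟩⟩ := mem_filter.1 hn
  obtain ⟨hnear, hgood⟩ := mem_filter.1 hn1
  obtain ⟨hA, hB, hz⟩ : P.A q = P.A r ∧ P.B q = P.B r ∧ zform (P.A q) (P.B q) q r n = 0 :=
    not_not.1 hgood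
  have hcop := (h.short q hq).coprime
  have hkq : ∀ p ∈ (qd q r).primeFactors, p ≤ P.y q := fun p hp =>
    coin_kill hq0 hcop hz h0 hp
  have hkr : ∀ p ∈ (qd r q).primeFactors, p ≤ P.y r := by
    refine fun p hp => coin_kill hr0 (h.short r hr).coprime ?_
      (swap_mem_coinSet h0) hp
    rw [← hA, ← hB]
    rw [zform, mdiff] at hz ⊢
    linear_combination (-1 : ℤ) * hz
  have hexc : P.Exc q r := ⟨hne, hA, hB, ⟨n, hnear, hz⟩, hkq, hkr⟩
  have hsing : S0 = {n} := by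
    refine eq_singleton_iff_unique_mem.2 ⟨hn, fun k hk => ?_⟩
    have hk' := not_not.1 (mem_filter.1 (mem_filter.1 hk).1).2
    have hB0 : (P.B q : ℤ) ≠ 0 := by exact_mod_cast (h.short q hq).B_pos.ne'
    have e := hk'.2.2
    rw [zform] at e hz
    exact mul_right_cancel₀ hB0 (by linarith)
  rw [hsing, sum_singleton, Sys.excTerm, if_pos hexc]
  have hdvd : ∀ (q r : ℕ), 0 < q → (∀ p ∈ (qd q r).primeFactors, p ≤ P.y q) →
      ∀ p : ℕ, p.Prime → p ∣ qd q r → p ∣ P.Bt q := fun q r hq hk p hp hd =>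
    (prime_dvd_Bt_iff P q hp).2 (Or.inr (hk p (mem_primeFactors_of (qd_pos hq) hp hd)))
  have hr' : wConst (P.Bt q) q * wConst (P.Bt r) r *
      (coinSet (P.At q) (P.Bt q) (P.At r) (P.Bt r) q r n).card ≤
        Nat.gcd q r * ((Nat.totient r : ℝ) / r) := by
    refine (coinSet_card_le hq0 hr0 h0 r.primeFactors
      fun p => Nat.prime_of_mem_primeFactors).trans (mul_le_mul_of_nonneg_left ?_ hg.le)
    rw [Vale.Agent.P028.totient_div_eq hr0]
    exact prod_le_prod (fun p hp => lineAvg_nonneg _ _ _ _ q r _ _ (Nat.prime_of_mem_primeFactors hp))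
      fun p hp => lineAvg_le_right _ _ _ _ (Nat.prime_of_mem_primeFactors hp)
        (hdvd r q hr0 hkr p (Nat.prime_of_mem_primeFactors hp))
  have hq' : wConst (P.Bt q) q * wConst (P.Bt r) r *
      (coinSet (P.At q) (P.Bt q) (P.At r) (P.Bt r) q r n).card ≤
        Nat.gcd q r * ((Nat.totient q : ℝ) / q) := by
    refine (coinSet_card_le hq0 hr0 h0 q.primeFactors
      fun p => Nat.prime_of_mem_primeFactors).trans (mul_le_mul_of_nonneg_left ?_ hg.le)
    rw [Vale.Agent.P028.totient_div_eq hq0]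
    exact prod_le_prod (fun p hp => lineAvg_nonneg _ _ _ _ q r _ _ (Nat.prime_of_mem_primeFactors hp))
      fun p hp => lineAvg_le_left _ _ _ _ (Nat.prime_of_mem_primeFactors hp)
        (hdvd q r hq0 hkq p (Nat.prime_of_mem_primeFactors hp))
  have hc0 : 0 ≤ c := by positivity
  split_ifs
  · refine (mul_le_mul_of_nonneg_left hr' hc0).trans (le_of_eq ?_)
    rw [hc, wt]
    field_simp
  · refine (mul_le_mul_of_nonneg_left hq' hc0).trans (le_of_eq ?_)
    rw [hc, wt]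
    field_simp

theorem ov_comm (P : Sys) (q r : ℕ) : P.ov q r = P.ov r q := by
  simp only [Sys.ov, mul_comm]

theorem ov_self_le {lam0 : ℝ} (h0 : 2 ≤ lam0) (h : P.Ok lam0) {q : ℕ} (hq : q ∈ P.S) :
    P.ov q q ≤ 2 * wt P.ψ q := by
  have hq0 := h.pos q hq
  have hψ0 := (h.psi_pos q hq).le
  have hψ2 : P.ψ q ≤ 1 / 2 := psi_le_half h0 h hq
  have hint : Integrable (fun x => P.bmp q x) := by
    simp only [Sys.bmp, bump_eq]
    exact (integrable_finsetSum _ fun a _ => integrable_indicator_arc P.γ P.ψ q a).const_mul _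
  have hb : ∀ x, 0 ≤ P.bmp q x ∧ P.bmp q x ≤ 1 := bmp_mem P hq0 hψ2
  calc P.ov q q ≤ ∫ x, P.bmp q x := by
        refine integral_mono_of_nonneg (Filter.Eventually.of_forall fun x =>
          mul_nonneg (hb x).1 (hb x).1) hint (Filter.Eventually.of_forall fun x => ?_)
        exact mul_le_of_le_one_right (hb x).1 (hb x).2
    _ = 2 * wt P.ψ q :=
        integral_bump P.γ P.ψ (P.At q) (P.Bt q) q hq0 hψ0 hψ2 (isCoprime_At_Bt P q)

/-- The overlap of two different moduli. -/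
theorem ov_le {lam0 : ℝ} (h : P.Ok lam0) {q r : ℕ} (hq : q ∈ P.S) (hr : r ∈ P.S) (hne : q ≠ r) :
    P.ov q r ≤ 2 * P.gTerm q r + P.excTerm q r := by
  have hq0 := h.pos q hq
  have hr0 := h.pos r hr
  have hψq := h.psi_pos q hq
  have hψr := h.psi_pos r hr
  have hD := dist2_pos (ψ := P.ψ) hr0 hψq (q := q)
  have hg : (0 : ℝ) < Nat.gcd q r := by exact_mod_cast Nat.gcd_pos_of_pos_left r hq0
  set c := 2 * (P.ψ q * P.ψ r / (Nat.gcd q r * dist2 P.ψ q r)) with hc
  have hc0 : 0 ≤ c := by positivity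
  refine (integral_bump_mul_le_coin (P.At q) (P.Bt q) (P.At r) (P.Bt r) hq0 hr0 hψq hψr).trans ?_
  rw [← hc, ← sum_filter_add_sum_filter_not (nearSet P.γ P.ψ q r) (fun n => P.Good q r n), mul_add]
  refine add_le_add ?_ ?_
  · refine (mul_le_mul_of_nonneg_left (sum_le_sum fun n _ => coin_le hq0 hr0 n) hc0).trans
      (le_of_eq ?_)
    rw [← mul_sum, ← mul_assoc, Sys.gTerm, Sys.goodSet, ← mul_assoc 2, hc, wt, wt]
    congr 1
    field_simp
  · exact coin_line_le h hq hr hne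

theorem goodSet_nonempty_symm {lam0 : ℝ} (h : P.Ok lam0) {q r : ℕ} (hq : q ∈ P.S) (hr : r ∈ P.S) :
    (P.goodSet q r).Nonempty → (P.goodSet r q).Nonempty := by
  rintro ⟨n, hn⟩
  exact ⟨-n, neg_mem_goodSet hn⟩

theorem gTerm_comm {lam0 : ℝ} (h : P.Ok lam0) {q r : ℕ} (hq : q ∈ P.S) (hr : r ∈ P.S) :
    P.gTerm q r = P.gTerm r q := by
  have e : ∑ n ∈ P.goodSet q r, hFac 0 (qd q r * qd r q) * P.wF 0 q r n =
      ∑ n ∈ P.goodSet r q, hFac 0 (qd r q * qd q r) * P.wF 0 r q n := by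
    refine sum_nbij' (fun n => -n) (fun n => -n) (fun n hn => neg_mem_goodSet hn)
      (fun n hn => neg_mem_goodSet hn) (fun n _ => neg_neg n) (fun n _ => neg_neg n)
      fun n _ => ?_
    rw [wF_swap, mul_comm (qd q r) (qd r q)]
  rw [Sys.gTerm, Sys.gTerm, e, BilinearAux.dist2_comm, mul_comm (wt P.ψ q)]

/-- The number of near coincidence numbers. -/
theorem card_goodSet_le (P : Sys) (q r : ℕ) (hD : 0 ≤ dist2 P.ψ q r) :
    ((P.goodSet q r).card : ℝ) ≤ 4 * dist2 P.ψ q r + 3 := by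
  have h := Lift.card_int_near (s := P.goodSet q r) (z := -(P.γ * mdiff q r))
    (R := 2 * dist2 P.ψ q r) (by linarith) fun k hk => by
      rw [sub_neg_eq_add]
      exact (mem_nearSet.1 (mem_filter.1 hk).1).le
  linarith

/-- The crude bound on both factors. -/
theorem exists_factor_le :
    ∃ C lam0 : ℝ, ∀ P : Sys, P.Ok lam0 → ∀ q ∈ P.S, ∀ r ∈ P.S, ∀ n : ℤ,
      hFac 0 (qd q r * qd r q) * P.wF 0 q r n ≤ C * (P.lam q * P.lam r) := by
  obtain ⟨C, hC⟩ := exists_div_totient_le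
  refine ⟨256 * (max C 0) ^ 2, 1, fun P h q hq r hr n => ?_⟩
  have side : ∀ s ∈ P.S, ∏ p ∈ s.primeFactors, ratio p ≤ 16 * max C 0 * P.lam s := by
    intro s hs
    have hs0 := h.pos s hs
    have hl := h.lam_ge s hs
    rw [prod_ratio_eq hs0]
    have h1 : 0 ≤ Real.log (s : ℝ) := Real.log_natCast_nonneg s
    have h2 : Real.log (1 + Real.log s) ≤ 1 + 2 * Real.sqrt (P.lam s) := by
      rw [Real.log_le_iff_le_exp (by linarith), Real.exp_add]
      have h3 := h.log_le s hs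
      have h4 : 1 ≤ Real.exp (2 * Real.sqrt (P.lam s)) :=
        Real.one_le_exp (by positivity)
      have h5 : 2 ≤ Real.exp 1 := by linarith [Real.add_one_le_exp (1 : ℝ)]
      have := mul_le_mul_of_nonneg_right h5 (Real.exp_pos (2 * Real.sqrt (P.lam s))).le
      linarith
    have h6 : Real.sqrt (P.lam s) ≤ P.lam s :=
      Real.sqrt_le_iff.2 ⟨by linarith, by nlinarith⟩
    have h7 : 0 ≤ Real.log (1 + Real.log s) := Real.log_nonneg (by linarith)
    have h8 : (1 + Real.log (1 + Real.log s)) ^ 2 ≤ 16 * P.lam s :=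
      calc (1 + Real.log (1 + Real.log s)) ^ 2 ≤ (2 + 2 * Real.sqrt (P.lam s)) ^ 2 :=
            pow_le_pow_left₀ (by linarith) (by linarith) 2
        _ = 4 + 8 * Real.sqrt (P.lam s) + 4 * Real.sqrt (P.lam s) ^ 2 := by ring
        _ ≤ 16 * P.lam s := by rw [Real.sq_sqrt (by linarith)]; linarith
    calc (s : ℝ) / Nat.totient s ≤ C * (1 + Real.log (1 + Real.log s)) ^ 2 := hC s hs0
      _ ≤ max C 0 * (1 + Real.log (1 + Real.log s)) ^ 2 :=
          mul_le_mul_of_nonneg_right (le_max_left _ _) (sq_nonneg _)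
      _ ≤ max C 0 * (16 * P.lam s) := mul_le_mul_of_nonneg_left h8 (le_max_right _ _)
      _ = _ := by ring
  have hq1 := one_le_prod_ratio (s := q.primeFactors) fun p => Nat.prime_of_mem_primeFactors
  have hr1 := one_le_prod_ratio (s := r.primeFactors) fun p => Nat.prime_of_mem_primeFactors
  refine (factor_le_prod (h.pos q hq) (h.pos r hr) n).trans ?_
  refine (mul_le_mul (side q hq) (side r hr) (zero_le_one.trans hr1)
    ((zero_le_one.trans hq1).trans (side q hq))).trans (le_of_eq ?_)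
  ring

/-- The crude bound on `gTerm`. -/
theorem exists_gTerm_crude_le :
    ∃ C lam0 : ℝ, ∀ P : Sys, P.Ok lam0 → ∀ q ∈ P.S, ∀ r ∈ P.S,
      P.gTerm q r ≤ C * (P.lam q * P.lam r) * (1 + dist2 P.ψ q r) *
        (wt P.ψ q * wt P.ψ r / dist2 P.ψ q r) := by
  obtain ⟨C, lam0, hC⟩ := exists_factor_le
  refine ⟨4 * max C 0, max lam0 0, fun P h q hq r hr => ?_⟩
  have h' : P.Ok lam0 := ok_mono h (le_max_left _ _)
  have hD : 0 ≤ dist2 P.ψ q r := (dist2_pos (h.pos r hr) (h.psi_pos q hq)).le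
  have hW : 0 ≤ wt P.ψ q * wt P.ψ r / dist2 P.ψ q r :=
    div_nonneg (mul_nonneg (BilinearAux.wt_nonneg h.nonneg q) (BilinearAux.wt_nonneg h.nonneg r)) hD
  have hll : 0 ≤ P.lam q * P.lam r := mul_nonneg ((le_max_right _ _).trans (h.lam_ge q hq))
    ((le_max_right _ _).trans (h.lam_ge r hr))
  rw [Sys.gTerm, mul_comm (4 * max C 0 * _ * _)]
  refine mul_le_mul_of_nonneg_left ?_ hW
  refine (sum_le_card_nsmul _ _ (max C 0 * (P.lam q * P.lam r)) fun n _ =>
    (hC P h' q hq r hr n).trans (mul_le_mul_of_nonneg_right (le_max_left _ _) hll)).trans ?_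
  rw [nsmul_eq_mul]
  refine (mul_le_mul_of_nonneg_right ((card_goodSet_le P q r hD).trans
    (show 4 * dist2 P.ψ q r + 3 ≤ 4 * (1 + dist2 P.ψ q r) by linarith))
    (mul_nonneg (le_max_right _ _) hll)).trans (le_of_eq ?_)
  ring

/-- In one window a coincidence off the line costs a bounded factor. -/
theorem exists_wF_same_le :
    ∃ C lam0 : ℝ, ∀ P : Sys, P.Ok lam0 → ∀ q ∈ P.S, ∀ r ∈ P.S, P.lam q = P.lam r →
      dist2 P.ψ q r < 1 / 2 → ∀ n ∈ P.goodSet q r, P.wF 0 q r n ≤ C := by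
  obtain ⟨C, hC1, hC⟩ := exists_prod_ratio_le
  refine ⟨C, 0, fun P h q hq r hr hlam hD n hn => ?_⟩
  obtain ⟨hA, hB⟩ := h.const q hq r hr hlam
  obtain ⟨hnear, hgood⟩ := mem_filter.1 hn
  set Z : ℤ := zform (P.A q) (P.B q) q r n with hZd
  have hZ : Z ≠ 0 := fun h0 => hgood ⟨hA, hB, h0⟩
  rw [Sys.wF]
  set s := (Nat.gcd q r).primeFactors.filter (fun p => 0 < p ∧ P.y q < p ∧ P.y r < p ∧
    ¬ p ∣ qd q r * qd r q ∧ ¬ p ∣ P.B q ∧ ¬ p ∣ P.B r ∧
    (p : ℤ) ∣ zform2 (P.A q) (P.B q) (P.A r) (P.B r) q r n) with hs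
  set P0 := max (P.y q) (P.y r) with hP0
  refine hC P0 s (fun p hp => ?_) ?_
  · obtain ⟨h1, -, h2, h3, -⟩ := mem_filter.1 hp
    exact ⟨Nat.prime_of_mem_primeFactors h1, max_lt h2 h3⟩
  have hsub : ∀ p ∈ s, p ∣ Z.natAbs := by
    intro p hp
    obtain ⟨h1, -, -, -, -, hpB, -, hpZ⟩ := mem_filter.1 hp
    have hpi := Nat.prime_iff_prime_int.1 (Nat.prime_of_mem_primeFactors h1)
    rw [← hA, ← hB] at hpZ
    have e : zform2 (P.A q) (P.B q) (P.A q) (P.B q) q r n = (P.B q : ℤ) * Z := by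
      rw [hZd, zform2, zform, mdiff]
      ring
    rw [e] at hpZ
    exact Int.natCast_dvd.1 ((hpi.dvd_or_dvd hpZ).resolve_left fun h0 =>
      hpB (Int.natCast_dvd_natCast.1 h0))
  have hcard : (2 : ℝ) ^ s.card ≤ |(Z : ℝ)| := by
    have h2 : 2 ^ s.card ≤ Z.natAbs :=
      (pow_card_le_prod s _ 2 fun p hp =>
        (Nat.prime_of_mem_primeFactors (mem_filter.1 hp).1).two_le).trans
        (Nat.le_of_dvd (Int.natAbs_pos.2 hZ)
          ((prod_dvd_prod_of_subset _ _ (fun p => p) fun p hp => mem_primeFactors_of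
            (Int.natAbs_pos.2 hZ) (Nat.prime_of_mem_primeFactors (mem_filter.1 hp).1)
            (hsub p hp)).trans (Nat.prod_primeFactors_dvd _)))
    rw [← Int.cast_abs, Int.abs_eq_natAbs]
    exact_mod_cast h2
  have hψq := h.psi_pos q hq
  have hψr := h.psi_pos r hr
  set δ := |(P.B q : ℝ) * P.γ - P.A q| with hδ
  have hwin : ∀ t : ℕ, P.y t ≤ P0 → P.A t = P.A q → P.B t = P.B q → 0 < P.ψ t →
      (P.B q : ℝ) + δ / P.ψ t ≤ Real.exp ((P0 : ℝ) ^ 2) := by
    intro t ht hAt hBt hψ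
    have hy : Real.sqrt (Real.log (2 + (P.B q : ℝ) + δ / P.ψ t)) ≤ (P0 : ℝ) := by
      refine le_trans ?_ (Nat.cast_le.2 ht)
      rw [Sys.y, yCut, hAt, hBt]
      exact Nat.le_ceil _
    rw [Real.sqrt_le_left (Nat.cast_nonneg _), Real.log_le_iff_le_exp (by positivity)] at hy
    linarith
  have hwq := hwin q (le_max_left _ _) rfl rfl hψq
  have hwr := hwin r (le_max_right _ _) hA.symm hB.symm hψr
  have hm : δ * |(mdiff q r : ℝ)| ≤ dist2 P.ψ q r * (δ / P.ψ q + δ / P.ψ r) := by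
    have d1 : P.ψ q * qd r q ≤ dist2 P.ψ q r := le_max_left _ _
    have d2 : P.ψ r * qd q r ≤ dist2 P.ψ q r := le_max_right _ _
    rw [← le_div_iff₀' hψq] at d1
    rw [← le_div_iff₀' hψr] at d2
    have hm1 : |(mdiff q r : ℝ)| ≤ dist2 P.ψ q r / P.ψ q + dist2 P.ψ q r / P.ψ r := by
      rw [mdiff]
      push_cast
      refine (abs_sub _ _).trans ?_
      rw [Nat.abs_cast, Nat.abs_cast]
      linarith
    refine (mul_le_mul_of_nonneg_left hm1 (abs_nonneg _)).trans (le_of_eq ?_)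
    rw [hδ]
    ring
  have hZle : |(Z : ℝ)| ≤ 2 * Real.exp ((P0 : ℝ) ^ 2) := by
    have e : (Z : ℝ) = (P.B q : ℝ) * ((n : ℝ) + P.γ * mdiff q r) -
        ((P.B q : ℝ) * P.γ - P.A q) * mdiff q r := by
      rw [hZd, zform]
      push_cast
      ring
    rw [e]
    refine (abs_sub _ _).trans ?_
    rw [abs_mul, abs_mul, Nat.abs_cast, ← hδ]
    have h1 := mul_le_mul_of_nonneg_left (mem_nearSet.1 hnear).le (Nat.cast_nonneg (α := ℝ) (P.B q))
    have hB0 : (0 : ℝ) ≤ P.B q := Nat.cast_nonneg _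
    have hX : 0 ≤ 2 * (P.B q : ℝ) + δ / P.ψ q + δ / P.ψ r := by positivity
    have h2 := mul_le_of_le_one_left hX (show dist2 P.ψ q r ≤ 1 by linarith)
    linarith
  have hlog := Real.log_le_log (by positivity) (hcard.trans hZle)
  rw [Real.log_pow, Real.log_mul two_ne_zero (Real.exp_pos _).ne', Real.log_exp] at hlog
  have hP00 : (0 : ℝ) ≤ P0 := Nat.cast_nonneg _
  have hl2 : (s.card : ℝ) * (1 / 2) ≤ s.card * Real.log 2 :=
    mul_le_mul_of_nonneg_left (by linarith [Real.log_two_gt_d9]) (Nat.cast_nonneg _)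
  nlinarith [Real.log_two_lt_d9, sq_nonneg (P0 : ℝ)]

/-- A small pair of one window. -/
theorem exists_gTerm_same_le :
    ∃ C lam0 : ℝ, ∀ P : Sys, P.Ok lam0 → ∀ q ∈ P.S, ∀ r ∈ P.S, P.lam q = P.lam r →
      dist2 P.ψ q r < 1 / 2 →
      P.gTerm q r ≤ if (P.goodSet q r).Nonempty then
          C * hFac 0 (qd q r * qd r q) * (wt P.ψ q * wt P.ψ r / dist2 P.ψ q r)
        else 0 := by
  obtain ⟨C, lam0, hC⟩ := exists_wF_same_le
  refine ⟨3 * max C 0, lam0, fun P h q hq r hr hlam hD => ?_⟩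
  split_ifs with hne
  swap
  · rw [not_nonempty_iff_eq_empty] at hne
    rw [Sys.gTerm, hne, sum_empty, mul_zero]
  have hD0 : 0 ≤ dist2 P.ψ q r := (dist2_pos (h.pos r hr) (h.psi_pos q hq)).le
  have hW : 0 ≤ wt P.ψ q * wt P.ψ r / dist2 P.ψ q r :=
    div_nonneg (mul_nonneg (BilinearAux.wt_nonneg h.nonneg q) (BilinearAux.wt_nonneg h.nonneg r)) hD0
  have hh : 0 ≤ hFac 0 (qd q r * qd r q) := zero_le_one.trans (BilinearAux.one_le_hFac _ _)
  have hcard : ((P.goodSet q r).card : ℝ) ≤ 3 := by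
    have hlt := Lift.card_int_near (s := P.goodSet q r) (z := -(P.γ * mdiff q r))
      (R := 2 * dist2 P.ψ q r) (by linarith) fun k hk => by
        rw [sub_neg_eq_add]
        exact (mem_nearSet.1 (mem_filter.1 hk).1).le
    linarith
  rw [Sys.gTerm, mul_comm (3 * max C 0 * _)]
  refine mul_le_mul_of_nonneg_left ?_ hW
  refine (sum_le_card_nsmul _ _ (hFac 0 (qd q r * qd r q) * max C 0) fun n hn =>
    mul_le_mul_of_nonneg_left ((hC P h q hq r hr hlam hD n hn).trans (le_max_left _ _)) hh).trans ?_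
  rw [nsmul_eq_mul]
  refine (mul_le_mul_of_nonneg_right hcard (mul_nonneg hh (le_max_right _ _))).trans (le_of_eq ?_)
  ring

end Vale.Agent.P028.T2
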