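import Vale.Agent.P028.T2.CrossLow
import Vale.Agent.P028.T2.Overlap

/-!
Two windows below `exp (-0.49 Λ)`: on major arcs the denominator of the deep window divides a small
multiple of the deep quotient, and `crossLow_sum_le` gains.
-/

noncomputable section

namespace Vale.Agent.P028.T2

open Finset
open scoped Classical

/-- `crossLow_sum_le` for the pairs with a coincidence off the line. -/
theorem crossLowGood_sum_le {γ x p : ℝ} {ψ : ℕ → ℝ} {A A' : ℤ} {B B' H : ℕ}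
    (hA : ShortVec γ p A B) (hp : 0 < p) (hB' : 0 < B') (hco' : IsCoprime A' (B' : ℤ))
    (hx : 0 < x) (hH : 1 ≤ H) {v : ℕ} (hv : 0 < v) (hpv : p ≤ ψ v) (W : Finset ℕ)
    (hBd : (B : ℝ) * |(B' : ℝ) * γ - A'| ≤ 1 / 2)
    (hW : ∀ w ∈ W, 0 < w ∧ 0 < ψ w ∧ dist2 ψ v w ≤ x ∧
      (∃ n ∈ nearSet γ ψ v w, ¬ (A = A' ∧ B = B' ∧ zform A B v w n = 0)) ∧
      |(B' : ℝ) * γ - A'| * (qd w v : ℝ) ≤ x ∧
      ∃ h : ℕ, 1 ≤ h ∧ h ≤ H ∧ B' ∣ h * qd v w ∧
        (h : ℝ) * (|(B' : ℝ) * γ - A'| * (qd v w : ℝ)) ≤ H * x * B') :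
    ∑ w ∈ W, wt ψ w / dist2 ψ v w ≤
      5400 * (H : ℝ) ^ 7 *
        (x ^ 3 / p + x ^ 2 * latNorm γ p A B / p + x + latNorm γ p A B) :=
  crossLow_sum_le hA hp hB' hco' hx hH hv hpv W hBd hW

theorem ShortVec.size_le {γ e : ℝ} {A : ℤ} {B : ℕ} (h : ShortVec γ (Real.exp (-e)) A B) :
    latNorm γ (Real.exp (-e)) A B ≤ Real.exp (-(e / 2)) ∧ (B : ℝ) ≤ Real.exp (e / 2) ∧
      |(B : ℝ) * γ - A| ≤ Real.exp (-(e / 2)) := by
  have hn : latNorm γ (Real.exp (-e)) A B ≤ Real.exp (-(e / 2)) := by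
    refine le_of_pow_le_pow_left₀ two_ne_zero (Real.exp_pos _).le (h.norm_sq_le.trans_eq ?_)
    rw [← Real.exp_nat_mul]
    congr 1
    push_cast
    ring
  refine ⟨hn, ?_, h.le_norm.2.trans hn⟩
  have h1 := h.le_norm.1.trans hn
  refine le_of_mul_le_mul_left (h1.trans_eq ?_) (Real.exp_pos (-e))
  rw [← Real.exp_add]
  congr 1
  ring

/-- The major arc of a deep quotient is the vector of the deep window. -/
theorem crossBand_major {γ x Λ Λ' r : ℝ} {A' : ℤ} {B' q' r' H e : ℕ} {L : ℤ} {ψw ψv : ℝ}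
    (hA' : ShortVec γ (Real.exp (-(rhoC * Λ'))) A' B') (hΛ : 1 ≤ Λ) (hΛ' : 1000 * Λ ≤ Λ')
    (hx : Real.exp (-(2 * Λ)) ≤ x) (hx1 : x ≤ 1)
    (hψw : ψw ≤ Real.exp (-Λ')) (hψv : Real.exp (-(rhoC * Λ)) ≤ ψv)
    (ht : x ^ (1 + slackC) ≤ ψw * q') (hr : ψv * r' ≤ 2 * x)
    (hs : SideData γ x q' H e L) (he : (e : ℝ) ≤ r) (hr2 : r = ebd Λ x) :
    |(B' : ℝ) * γ - A'| * (r' : ℝ) ≤ 2 * x ∧ B' ∣ H * q' ∧
      (H : ℝ) * (|(B' : ℝ) * γ - A'| * (q' : ℝ)) ≤ 2 * x ^ (1 - 3 * sigC) * B' := by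
  obtain ⟨hH1, hH, hed, herr⟩ := hs
  obtain ⟨-, hB', hd'⟩ := hA'.size_le
  have hx0 : 0 < x := (Real.exp_pos _).trans_le hx
  have hΛ'0 : 0 < Λ' := by linarith
  have hlogx : -(2 * Λ) ≤ Real.log x := (Real.le_log_iff_exp_le hx0).2 hx
  have hlogx1 : Real.log x ≤ 0 := Real.log_nonpos hx0.le hx1
  have hq0 : 0 < q' := by
    rcases Nat.eq_zero_or_pos q' with h | h
    · exfalso
      rw [h, Nat.cast_zero, mul_zero] at ht
      exact absurd ht (not_le.2 (Real.rpow_pos_of_pos hx0 _))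
    · exact h
  have he0 : 0 < e := Nat.pos_of_dvd_of_pos hed hq0
  have hq : (0 : ℝ) < q' := Nat.cast_pos.2 hq0
  have hB'0 : (0 : ℝ) < B' := Nat.cast_pos.2 hA'.B_pos
  set δ' : ℝ := |(B' : ℝ) * γ - A'| with hδ'
  have hδ0 : 0 ≤ δ' := abs_nonneg _
  -- sizes
  have hebd : r ≤ Real.exp (7 * Λ) := by
    rw [hr2, ebd, Real.rpow_def_of_pos hx0, ← Real.exp_add]
    refine Real.exp_le_exp.2 ?_
    have h9 : Λ ^ (9 / 10 : ℝ) ≤ Λ := Real.rpow_le_self_of_one_le hΛ (by norm_num)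
    have : Real.log x * -(2 + kapC + 4 * sigC) ≤ 2 * Λ * (2 + kapC + 4 * sigC) := by
      have h0 : (0 : ℝ) ≤ 2 + kapC + 4 * sigC := by norm_num [kapC, sigC]
      have := mul_le_mul_of_nonneg_right (show -Real.log x ≤ 2 * Λ by linarith) h0
      linarith
    norm_num [kapC, sigC] at this ⊢
    linarith
  have heR : (e : ℝ) ≤ Real.exp (7 * Λ) := he.trans hebd
  have hHR : (H : ℝ) ≤ 4 * Real.exp Λ := by
    refine hH.trans (mul_le_mul_of_nonneg_left ?_ (by norm_num))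
    rw [Real.rpow_def_of_pos hx0]
    exact Real.exp_le_exp.2 (by norm_num [sigC]; linarith)
  have herr' : |((H * e : ℕ) : ℝ) * γ - L| ≤ 2 * Real.exp (12 * Λ - Λ') := by
    refine le_of_mul_le_mul_right (herr.trans ?_) hq
    have h1 : x ^ (1 - 3 * sigC) ≤ 1 := Real.rpow_le_one hx0.le hx1 (by norm_num [sigC])
    have h2 : Real.exp (-(4 * Λ)) ≤ x ^ (1 + slackC) := by
      rw [Real.rpow_def_of_pos hx0]
      exact Real.exp_le_exp.2 (by norm_num [slackC]; linarith)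
    have h3 : Real.exp (-(4 * Λ)) ≤ Real.exp (-Λ') * q' :=
      h2.trans (ht.trans (mul_le_mul_of_nonneg_right hψw hq.le))
    calc 2 * x ^ (1 - 3 * sigC) * (e : ℝ) ≤ 2 * 1 * Real.exp (7 * Λ) :=
          mul_le_mul (by linarith) heR (Nat.cast_nonneg _) (by norm_num)
      _ = 2 * Real.exp (11 * Λ) * Real.exp (-(4 * Λ)) := by
          rw [mul_assoc (2 : ℝ) (Real.exp _), ← Real.exp_add]; ring_nf
      _ ≤ 2 * Real.exp (11 * Λ) * (Real.exp (-Λ') * q') :=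
          mul_le_mul_of_nonneg_left h3 (by positivity)
      _ ≤ 2 * Real.exp (12 * Λ - Λ') * q' := by
          rw [show (2 : ℝ) * Real.exp (11 * Λ) * (Real.exp (-Λ') * q') =
            2 * (Real.exp (11 * Λ) * Real.exp (-Λ')) * q' by ring, ← Real.exp_add]
          gcongr
          linarith
  -- the deep vector
  have hHeR : ((H * e : ℕ) : ℝ) ≤ 4 * Real.exp (8 * Λ) := by
    push_cast
    refine (mul_le_mul hHR heR (Nat.cast_nonneg _) (by positivity)).trans (le_of_eq ?_)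
    rw [mul_assoc, ← Real.exp_add]; ring_nf
  have hdet : ((H * e : ℕ) : ℤ) * A' = L * B' := by
    have hreal : (((H * e : ℕ) : ℤ) * A' - L * B' : ℤ) = (0 : ℤ) := by
      refine Int.abs_lt_one_iff.1 ?_
      suffices h : |((((H * e : ℕ) : ℤ) * A' - L * B' : ℤ) : ℝ)| < 1 by exact_mod_cast h
      have e1 : ((((H * e : ℕ) : ℤ) * A' - L * B' : ℤ) : ℝ) =
          (B' : ℝ) * (((H * e : ℕ) : ℝ) * γ - L) -
            ((H * e : ℕ) : ℝ) * ((B' : ℝ) * γ - A') := by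
        push_cast; ring
      rw [e1]
      refine (abs_sub _ _).trans_lt ?_
      rw [abs_mul, abs_mul, Nat.abs_cast, Nat.abs_cast, ← hδ']
      have h1 : (B' : ℝ) * |((H * e : ℕ) : ℝ) * γ - L| ≤ 2 * Real.exp (-3) := by
        calc _ ≤ Real.exp (rhoC * Λ' / 2) * (2 * Real.exp (12 * Λ - Λ')) :=
              mul_le_mul hB' herr' (abs_nonneg _) (by positivity)
          _ = 2 * Real.exp (rhoC * Λ' / 2 + (12 * Λ - Λ')) := by rw [Real.exp_add]; ring
          _ ≤ _ := by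
              gcongr
              norm_num [rhoC]
              linarith
      have h2 : ((H * e : ℕ) : ℝ) * δ' ≤ 4 * Real.exp (-3) := by
        calc _ ≤ 4 * Real.exp (8 * Λ) * Real.exp (-(rhoC * Λ' / 2)) :=
              mul_le_mul hHeR hd' hδ0 (by positivity)
          _ = 4 * Real.exp (8 * Λ + -(rhoC * Λ' / 2)) := by rw [Real.exp_add]; ring
          _ ≤ _ := by
              gcongr
              norm_num [rhoC]
              linarith
      have h3 : Real.exp (-3) < 1 / 6 := by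
        have : Real.exp (-3) = Real.exp (-1) ^ 3 := by
          rw [← Real.exp_nat_mul]; norm_num
        rw [this]
        calc Real.exp (-1) ^ 3 < (1 / 2 : ℝ) ^ 3 := by
              gcongr
              exact Real.exp_neg_one_lt_half
          _ < _ := by norm_num
      linarith
    linarith
  obtain ⟨k, hk⟩ : (B' : ℤ) ∣ ((H * e : ℕ) : ℤ) :=
    hA'.coprime.symm.dvd_of_dvd_mul_right ⟨L, by rw [hdet, mul_comm]⟩
  have hL : L = k * A' := by
    refine mul_right_cancel₀ (Int.natCast_ne_zero.2 hA'.B_pos.ne') ?_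
    rw [← hdet, hk]; ring
  have hkR : ((H * e : ℕ) : ℝ) = B' * (k : ℝ) := by
    have : (((H * e : ℕ) : ℤ) : ℝ) = (((B' : ℤ) * k : ℤ) : ℝ) := by rw [hk]
    push_cast at this ⊢
    linarith
  refine ⟨?_, ?_, ?_⟩
  · have hv0 : 0 < ψv := (Real.exp_pos _).trans_le hψv
    calc δ' * r' ≤ Real.exp (-(rhoC * Λ' / 2)) * r' :=
          mul_le_mul_of_nonneg_right hd' (Nat.cast_nonneg _)
      _ ≤ ψv * r' := by
          refine mul_le_mul_of_nonneg_right (le_trans (Real.exp_le_exp.2 ?_) hψv)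
            (Nat.cast_nonneg _)
          norm_num [rhoC]
          linarith
      _ ≤ 2 * x := hr
  · obtain ⟨f, rfl⟩ := hed
    rw [← Nat.mul_assoc]
    exact Dvd.dvd.mul_right (Int.natCast_dvd_natCast.1 ⟨k, hk⟩) f
  · have herrk : |(k : ℝ)| * δ' = |((H * e : ℕ) : ℝ) * γ - L| := by
      rw [hδ', ← abs_mul, hkR, hL]
      push_cast
      ring_nf
    refine le_of_mul_le_mul_left ?_ (show (0 : ℝ) < e from Nat.cast_pos.2 he0)
    have hk' : ((H : ℝ) * e) = B' * |(k : ℝ)| := by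
      have : ((H : ℝ) * e) = |(B' : ℝ) * (k : ℝ)| := by
        rw [← hkR, Nat.abs_cast]; push_cast; ring
      rw [this, abs_mul, Nat.abs_cast]
    calc (e : ℝ) * ((H : ℝ) * (δ' * q')) = ((H : ℝ) * e) * δ' * q' := by ring
      _ = B' * (|((H * e : ℕ) : ℝ) * γ - L| * q') := by rw [hk', ← herrk]; ring
      _ ≤ B' * (2 * x ^ (1 - 3 * sigC) * e) := mul_le_mul_of_nonneg_left herr hB'0.le
      _ = _ := by ring

/-- The numerical step of the cross band. -/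
theorem crossBand_numeric {x Λ lam : ℝ} {H : ℕ} (hΛ : 1 ≤ Λ) (hxlo : Real.exp (-(2 * Λ)) ≤ x)
    (hx : x ≤ Real.exp (-(49 / 100 * Λ))) (hlam : lam ≤ Real.exp (-(rhoC * Λ / 2))) (hlam0 : 0 ≤ lam)
    (hH : (H : ℝ) ≤ 5 * x ^ (-(3 * sigC))) :
    5400 * (H : ℝ) ^ 7 * ((2 * x) ^ 3 / Real.exp (-(rhoC * Λ)) +
        (2 * x) ^ 2 * lam / Real.exp (-(rhoC * Λ)) + 2 * x + lam) ≤
      5400 * 5 ^ 7 * 15 * Real.exp (-(Λ / 10)) := by
  have hx0 : 0 < x := (Real.exp_pos _).trans_le hxlo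
  have hlogx : -(2 * Λ) ≤ Real.log x := (Real.le_log_iff_exp_le hx0).2 hxlo
  set G : ℝ := Real.exp (-(46 / 100 * Λ)) with hG
  have hH7 : (H : ℝ) ^ 7 ≤ 5 ^ 7 * Real.exp (3 / 100 * Λ) := by
    refine (pow_le_pow_left₀ (Nat.cast_nonneg _) hH 7).trans ?_
    rw [mul_pow]
    refine mul_le_mul_of_nonneg_left ?_ (by norm_num)
    rw [Real.rpow_def_of_pos hx0, ← Real.exp_nat_mul]
    exact Real.exp_le_exp.2 (by norm_num [sigC]; linarith)
  have e1 : (2 * x) ^ 3 / Real.exp (-(rhoC * Λ)) ≤ 8 * G := by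
    rw [div_le_iff₀ (Real.exp_pos _), mul_pow, hG, mul_assoc, ← Real.exp_add]
    refine (mul_le_mul_of_nonneg_left (pow_le_pow_left₀ hx0.le hx 3) (by norm_num)).trans ?_
    rw [← Real.exp_nat_mul]
    norm_num [rhoC]
    linarith
  have e2 : (2 * x) ^ 2 * lam / Real.exp (-(rhoC * Λ)) ≤ 4 * G := by
    rw [div_le_iff₀ (Real.exp_pos _), mul_pow, hG, mul_assoc 4 (Real.exp _) (Real.exp _),
      ← Real.exp_add, mul_assoc]
    refine mul_le_mul (by norm_num)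
      ((mul_le_mul (pow_le_pow_left₀ hx0.le hx 2) hlam hlam0 (by positivity)).trans ?_)
      (by positivity) (by norm_num)
    rw [← Real.exp_nat_mul, ← Real.exp_add]
    refine Real.exp_le_exp.2 ?_
    norm_num [rhoC]
    linarith
  have e3 : 2 * x ≤ 2 * G :=
    mul_le_mul_of_nonneg_left (hx.trans (Real.exp_le_exp.2 (by linarith))) (by norm_num)
  have e4 : lam ≤ G := hlam.trans (Real.exp_le_exp.2 (by norm_num [rhoC]; linarith))
  calc _ ≤ 5400 * (5 ^ 7 * Real.exp (3 / 100 * Λ)) * (15 * G) := by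
        refine mul_le_mul (mul_le_mul_of_nonneg_left hH7 (by norm_num)) (by linarith)
          (by positivity) (by positivity)
    _ = 5400 * 5 ^ 7 * 15 * (Real.exp (3 / 100 * Λ) * G) := by ring
    _ ≤ _ := by
        refine mul_le_mul_of_nonneg_left ?_ (by norm_num)
        rw [hG, ← Real.exp_add]
        exact Real.exp_le_exp.2 (by linarith)

theorem exists_crossBand_le :
    ∃ C lam0 : ℝ, ∀ P : Sys, P.Ok lam0 → ∀ v ∈ P.S, ∀ Λ' : ℝ, 1000 * P.lam v ≤ Λ' →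
      ∀ x : ℝ, Real.exp (-(2 * P.lam v)) ≤ x → x ≤ Real.exp (-(49 / 100 * P.lam v)) →
      ∑ w ∈ P.S.filter (fun w => P.lam w = Λ' ∧ x < dist2 P.ψ v w ∧ dist2 P.ψ v w ≤ 2 * x ∧
          Tight P.ψ x v w ∧ PairMajor P.γ (P.lam v) x (qd v w) (qd w v) ∧
          (P.goodSet v w).Nonempty), wt P.ψ w / dist2 P.ψ v w ≤
        C * Real.exp (-(P.lam v / 10)) := by
  refine ⟨5400 * 5 ^ 7 * 15, 1, fun P hP v hv Λ' hΛ' x hxlo hxhi => ?_⟩
  have hΛ : 1 ≤ P.lam v := hP.lam_ge v hv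
  have hx0 : 0 < x := (Real.exp_pos _).trans_le hxlo
  have hx1 : x ≤ 1 := hxhi.trans (Real.exp_le_one_iff.2 (by linarith))
  set W := P.S.filter (fun w => P.lam w = Λ' ∧ x < dist2 P.ψ v w ∧ dist2 P.ψ v w ≤ 2 * x ∧
    Tight P.ψ x v w ∧ PairMajor P.γ (P.lam v) x (qd v w) (qd w v) ∧
    (P.goodSet v w).Nonempty) with hW
  rcases W.eq_empty_or_nonempty with h0 | ⟨w0, hw0⟩
  · rw [h0, Finset.sum_empty]; positivity
  obtain ⟨hw0S, hlam0, -⟩ := Finset.mem_filter.1 hw0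
  have hA' := hP.short w0 hw0S
  rw [hlam0] at hA'
  have hA := hP.short v hv
  obtain ⟨hlam, hB, -⟩ := hA.size_le
  obtain ⟨-, -, hd'⟩ := hA'.size_le
  have hxs : (1 : ℝ) ≤ x ^ (-(3 * sigC)) :=
    Real.one_le_rpow_of_pos_of_le_one_of_nonpos hx0 hx1 (by norm_num [sigC])
  set H : ℕ := ⌈4 * x ^ (-(3 * sigC))⌉₊ with hH
  have hHlo : 4 * x ^ (-(3 * sigC)) ≤ (H : ℝ) := Nat.le_ceil _
  have hHhi : (H : ℝ) ≤ 5 * x ^ (-(3 * sigC)) :=
    (Nat.ceil_lt_add_one (by positivity)).le.trans (by linarith)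
  refine (crossLowGood_sum_le (x := 2 * x) (H := H) hA (Real.exp_pos _) hA'.B_pos hA'.coprime
    (by linarith) (Nat.ceil_pos.2 (by linarith)) (hP.pos v hv) (hP.le_psi v hv) W ?_
    fun w hw => ?_).trans
    (crossBand_numeric hΛ hxlo hxhi (hlam.trans_eq (by rw [mul_div_assoc]))
      (hA.norm_pos (Real.exp_pos _)).le hHhi)
  · calc (P.B v : ℝ) * |(P.B w0 : ℝ) * P.γ - P.A w0|
        ≤ Real.exp (rhoC * P.lam v / 2) * Real.exp (-(rhoC * Λ' / 2)) :=
          mul_le_mul hB hd' (abs_nonneg _) (Real.exp_pos _).le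
      _ ≤ Real.exp (-1) := by
          rw [← Real.exp_add]
          exact Real.exp_le_exp.2 (by norm_num [rhoC]; linarith)
      _ ≤ 1 / 2 := Real.exp_neg_one_lt_half.le
  obtain ⟨hwS, hlamw, -, hD, ht, hmaj, hgood⟩ := Finset.mem_filter.1 hw
  obtain ⟨hAw, hBw⟩ := hP.const w0 hw0S w hwS (hlam0.trans hlamw.symm)
  obtain ⟨n, hn⟩ := hgood
  rw [Sys.goodSet, Finset.mem_filter] at hn
  obtain ⟨Hm, e, L, H', e', L', hs, hs', hee⟩ := hmaj
  have he' : 0 < e' := by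
    rcases Nat.eq_zero_or_pos e' with h | h
    · have := Nat.eq_zero_of_zero_dvd (h ▸ hs'.2.2.1)
      exact absurd this (cl_qd_pos (hP.pos w hwS)).ne'
    · exact h
  have he : (e : ℝ) ≤ ebd (P.lam v) x :=
    le_trans (by exact_mod_cast Nat.le_mul_of_pos_right e he') hee
  obtain ⟨h1, h2, h3⟩ := crossBand_major hA' hΛ hΛ' hxlo hx1
    (hlamw ▸ hP.psi_le w hwS) (hP.le_psi v hv) ht.1 ((le_max_left _ _).trans hD) hs he rfl
  refine ⟨hP.pos w hwS, hP.psi_pos w hwS, hD, ⟨n, hn.1, ?_⟩, h1, Hm, hs.1, ?_, h2, ?_⟩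
  · rw [hAw, hBw]; exact hn.2
  · have : (Hm : ℝ) ≤ H := by
      refine hs.2.1.trans (le_trans ?_ hHlo)
      exact mul_le_mul_of_nonneg_left
        (Real.rpow_le_rpow_of_exponent_ge hx0 hx1 (by norm_num [sigC])) (by norm_num)
    exact_mod_cast this
  · refine h3.trans (mul_le_mul_of_nonneg_right ?_ (Nat.cast_nonneg _))
    rw [sub_eq_add_neg, Real.rpow_add hx0, Real.rpow_one]
    have := mul_le_mul_of_nonneg_right hHlo hx0.le
    nlinarith [mul_pos (lt_of_lt_of_le one_pos hxs) hx0]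

end Vale.Agent.P028.T2
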