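import Vale.Agent.P028.Defs

/-!
Cross windows at low levels.

For a fixed modulus `v` of the shallow window, the moduli `w` of the deep window whose `q'` is a
multiple (up to `h ≤ H`) of the denominator `B'` of the deep window carry little weight: either the
coincidence is on the line, or `B'` is large and the identity `∑_{t ∣ N} φ(N / t) = N` gives a gain
`1 / B'`.
-/

noncomputable section

namespace Vale.Agent.P028.T2

open Finset

/-- The norm `max (p |b|) |b γ - a|`. -/
def latNorm (γ p : ℝ) (a b : ℤ) : ℝ := max (p * |(b : ℝ)|) |(b : ℝ) * γ - a|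

/-- `A / B` is a shortest vector at scale `p`, of norm at most `√p`. -/
structure ShortVec (γ p : ℝ) (A : ℤ) (B : ℕ) : Prop where
  B_pos : 0 < B
  coprime : IsCoprime A (B : ℤ)
  norm_sq_le : latNorm γ p A B ^ 2 ≤ p

theorem ShortVec.norm_pos {γ p : ℝ} {A : ℤ} {B : ℕ} (h : ShortVec γ p A B) (hp : 0 < p) :
    0 < latNorm γ p A B := by
  have hB : (0 : ℝ) < B := Nat.cast_pos.2 h.B_pos
  refine lt_max_of_lt_left ?_
  push_cast
  rw [abs_of_pos hB]
  positivity

theorem ShortVec.le_norm {γ p : ℝ} {A : ℤ} {B : ℕ} (_h : ShortVec γ p A B) :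
    p * B ≤ latNorm γ p A B ∧ |(B : ℝ) * γ - A| ≤ latNorm γ p A B := by
  constructor
  · refine le_trans (le_of_eq ?_) (le_max_left _ _)
    push_cast
    rw [abs_of_nonneg (Nat.cast_nonneg B)]
  · refine le_trans (le_of_eq ?_) (le_max_right _ _)
    push_cast
    ring_nf

/-- The determinant of a vector against the shortest one. -/
theorem det_le {γ p : ℝ} {A : ℤ} {B : ℕ} (h : ShortVec γ p A B) (hp : 0 < p) {a : ℤ} {b R : ℝ}
    (hb : p * |b| ≤ R) (ha : |b * γ - a| ≤ R) :
    p * |b * A - a * B| ≤ 2 * R * latNorm γ p A B := by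
  obtain ⟨h1, h2⟩ := h.le_norm
  have e : b * A - a * B = (b * γ - a) * B - b * ((B : ℝ) * γ - A) := by ring
  rw [e]
  calc p * |(b * γ - a) * B - b * ((B : ℝ) * γ - A)|
      ≤ p * (|(b * γ - a) * B| + |b * ((B : ℝ) * γ - A)|) :=
        mul_le_mul_of_nonneg_left (abs_sub _ _) hp.le
    _ = |b * γ - a| * (p * B) + (p * |b|) * |(B : ℝ) * γ - A| := by
        rw [abs_mul, abs_mul, Nat.abs_cast]; ring
    _ ≤ R * latNorm γ p A B + R * latNorm γ p A B :=
        add_le_add (mul_le_mul ha h1 (by positivity) (le_trans (abs_nonneg _) ha))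
          (mul_le_mul hb h2 (abs_nonneg _) (le_trans (by positivity) hb))
    _ = _ := by ring

/-- The vectors in a box. -/
theorem card_lattice_le {γ p : ℝ} {A : ℤ} {B : ℕ} (h : ShortVec γ p A B) (hp : 0 < p) {R : ℝ}
    (hR : 0 ≤ R) (T : Finset ℕ)
    (hT : ∀ b ∈ T, p * (b : ℝ) ≤ R ∧ ∃ a : ℤ, |(b : ℝ) * γ - a| ≤ R) :
    (T.card : ℝ) ≤ 8 * (R ^ 2 / p + R / latNorm γ p A B + 1) := by
  classical
  set lam := latNorm γ p A B with hlam
  have hl : 0 < lam := h.norm_pos hp
  choose! a ha using fun b hb => (hT b hb).2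
  set J : ℤ := ⌊2 * R * lam / p⌋ with hJ
  let key : ℕ → ℤ := fun b => (b : ℤ) * A - a b * B
  have hkey : ∀ b ∈ T, key b ∈ Finset.Icc (-J) J := by
    intro b hb
    have hd := det_le h hp (a := a b) (b := (b : ℝ))
      (by rw [abs_of_nonneg (Nat.cast_nonneg b)]; exact (hT b hb).1) (ha b hb)
    have : |key b| ≤ J := by
      rw [hJ, Int.le_floor, le_div_iff₀ hp]
      simp only [key]
      push_cast
      linarith [hd]
    exact Finset.mem_Icc.2 (abs_le.1 this)
  set K : ℕ := ⌊2 * R / lam⌋₊ + 1 with hK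
  have hfib : ∀ j ∈ Finset.Icc (-J) J, (T.filter (fun b => key b = j)).card ≤ K := by
    intro j _
    set U := T.filter (fun b => key b = j) with hU
    rcases U.eq_empty_or_nonempty with h0 | h0
    · simp [h0]
    set b0 := U.min' h0
    have hb0 : b0 ∈ U := U.min'_mem h0
    have hk : ∀ b ∈ U, ∃ k : ℕ, k < K ∧ b = b0 + k * B := by
      intro b hb
      obtain ⟨hbT, hbk⟩ := Finset.mem_filter.1 hb
      obtain ⟨hb0T, hb0k⟩ := Finset.mem_filter.1 hb0
      have hle : b0 ≤ b := U.min'_le b hb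
      have e : ((b : ℤ) - b0) * A = (a b - a b0) * B := by
        have := hbk.trans hb0k.symm
        simp only [key] at this
        linarith
      obtain ⟨k, hk⟩ : (B : ℤ) ∣ (b : ℤ) - b0 :=
        h.coprime.symm.dvd_of_dvd_mul_right ⟨a b - a b0, by linarith⟩
      have hBz : (0 : ℤ) < B := by exact_mod_cast h.B_pos
      have hk0 : 0 ≤ k := by
        by_contra hneg
        rw [not_le] at hneg
        have : (B : ℤ) * k < 0 := mul_neg_of_pos_of_neg hBz hneg
        omega
      obtain ⟨k, rfl⟩ := Int.eq_ofNat_of_zero_le hk0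
      have hba : a b - a b0 = A * k := by
        refine mul_right_cancel₀ hBz.ne' ?_
        rw [← e, hk]; ring
      refine ⟨k, Nat.lt_succ_of_le (Nat.le_floor ?_), by
        have : (b : ℤ) = (b0 + k * B : ℕ) := by push_cast; linarith
        exact_mod_cast this⟩
      rw [le_div_iff₀ hl, hlam, latNorm, mul_max_of_nonneg _ _ (Nat.cast_nonneg k), max_le_iff]
      have eb : (b : ℝ) = b0 + k * B := by
        have : ((b : ℤ) : ℝ) = ((b0 : ℤ) : ℝ) + ((B : ℤ) : ℝ) * ((k : ℤ) : ℝ) := by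
          exact_mod_cast (by linarith : (b : ℤ) = b0 + B * k)
        push_cast at this
        linarith
      constructor
      · push_cast
        rw [abs_of_nonneg (Nat.cast_nonneg B)]
        have := (hT b hbT).1
        rw [eb, mul_add] at this
        nlinarith [mul_nonneg hp.le (Nat.cast_nonneg b0 : (0 : ℝ) ≤ b0)]
      · have ea : (a b : ℝ) = a b0 + A * k := by
          have : ((a b : ℤ) : ℝ) = ((a b0 + A * k : ℤ) : ℝ) := by
            exact_mod_cast (by linarith : a b = a b0 + A * k)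
          push_cast at this
          linarith
        have e2 : (k : ℝ) * ((B : ℝ) * γ - A) =
            ((b : ℝ) * γ - a b) - ((b0 : ℝ) * γ - a b0) := by
          rw [eb, ea]; ring
        push_cast
        rw [← abs_of_nonneg (Nat.cast_nonneg k : (0 : ℝ) ≤ k), ← abs_mul, e2]
        refine (abs_sub _ _).trans ?_
        linarith [ha b hbT, ha b0 hb0T]
    calc U.card ≤ ((Finset.range K).image fun k => b0 + k * B).card :=
          Finset.card_le_card fun b hb => by
            obtain ⟨k, hk1, hk2⟩ := hk b hb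
            exact Finset.mem_image.2 ⟨k, Finset.mem_range.2 hk1, hk2.symm⟩
      _ ≤ K := Finset.card_image_le.trans (Finset.card_range K).le
  have hcard : T.card ≤ (Finset.Icc (-J) J).card * K := by
    rw [Finset.card_eq_sum_card_fiberwise hkey]
    exact (Finset.sum_le_sum hfib).trans (by rw [Finset.sum_const, smul_eq_mul])
  have hJ0 : 0 ≤ J := Int.floor_nonneg.2 (by positivity)
  have hJc : ((Finset.Icc (-J) J).card : ℝ) ≤ 2 * (2 * R * lam / p) + 1 := by
    rw [Int.card_Icc]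
    have e : (((J + 1 - -J).toNat : ℤ) : ℝ) = 2 * (J : ℝ) + 1 := by
      rw [Int.toNat_of_nonneg (by omega)]; push_cast; ring
    push_cast at e
    rw [e]
    linarith [Int.floor_le (2 * R * lam / p)]
  have hKc : (K : ℝ) ≤ 2 * R / lam + 1 := by
    rw [hK]; push_cast
    linarith [Nat.floor_le (show 0 ≤ 2 * R / lam by positivity)]
  have hlp : R * lam / p ≤ R / lam := by
    rw [div_le_div_iff₀ hp hl, mul_assoc, ← sq]
    exact mul_le_mul_of_nonneg_left h.norm_sq_le hR
  calc (T.card : ℝ) ≤ ((Finset.Icc (-J) J).card : ℝ) * K := by exact_mod_cast hcard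
    _ ≤ (2 * (2 * R * lam / p) + 1) * (2 * R / lam + 1) :=
        mul_le_mul hJc hKc (Nat.cast_nonneg _) (by positivity)
    _ = 8 * (R ^ 2 / p) + 4 * (R * lam / p) + 2 * (R / lam) + 1 := by field_simp; ring
    _ ≤ _ := by
        have h2 : 0 ≤ R ^ 2 / p := by positivity
        have h3 : 0 ≤ R / lam := by positivity
        linarith

/-- `∑ φ(N / q') ≤ N / B0` over the divisors `q'` of `N` which are multiples of `B0`. -/
theorem sum_totient_multiples_le {N : ℕ} (hN : 0 < N) {B0 : ℕ} (hB : 0 < B0) :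
    ∑ q ∈ N.divisors.filter (fun q => B0 ∣ q), (Nat.totient (N / q) : ℝ) ≤ (N : ℝ) / B0 := by
  by_cases hd : B0 ∣ N
  swap
  · rw [Finset.sum_eq_zero]
    · positivity
    intro q hq
    obtain ⟨h1, h2⟩ := Finset.mem_filter.1 hq
    exact absurd (h2.trans (Nat.dvd_of_mem_divisors h1)) hd
  obtain ⟨M, rfl⟩ := hd
  have hM : 0 < M := Nat.pos_of_mul_pos_left hN
  have himg : (B0 * M).divisors.filter (fun q => B0 ∣ q) = M.divisors.image (B0 * ·) := by
    ext q
    simp only [Finset.mem_filter, Finset.mem_image, Nat.mem_divisors]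
    constructor
    · rintro ⟨⟨h1, _⟩, t, rfl⟩
      exact ⟨t, ⟨(Nat.mul_dvd_mul_iff_left hB).1 h1, hM.ne'⟩, rfl⟩
    · rintro ⟨t, ⟨ht, _⟩, rfl⟩
      exact ⟨⟨Nat.mul_dvd_mul_left _ ht, hN.ne'⟩, dvd_mul_right _ _⟩
  rw [himg, Finset.sum_image (fun a _ b _ hab => Nat.eq_of_mul_eq_mul_left hB hab)]
  have h1 : ∑ t ∈ M.divisors, (Nat.totient (B0 * M / (B0 * t)) : ℝ) = (M : ℝ) := by
    rw [Finset.sum_congr rfl fun t _ => by rw [Nat.mul_div_mul_left _ _ hB],
      Nat.sum_div_divisors M (fun d => (Nat.totient d : ℝ))]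
    exact_mod_cast Nat.sum_totient M
  rw [h1, Nat.cast_mul, mul_div_cancel_left₀ _ (Nat.cast_ne_zero.2 hB.ne')]

/-- A sum over a union is at most the sum of the sums. -/
theorem cl_sum_biUnion_le {f : ℕ → ℝ} (hf : ∀ q, 0 ≤ f q) (s : Finset ℕ) (t : ℕ → Finset ℕ) :
    ∑ q ∈ s.biUnion t, f q ≤ ∑ i ∈ s, ∑ q ∈ t i, f q := by
  induction s using Finset.induction_on with
  | empty => simp
  | insert a s ha ih =>
    rw [Finset.biUnion_insert, Finset.sum_insert ha]
    have := Finset.sum_union_inter (s₁ := t a) (s₂ := s.biUnion t) (f := f)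
    have h0 : 0 ≤ ∑ q ∈ t a ∩ s.biUnion t, f q := Finset.sum_nonneg fun q _ => hf q
    linarith

/-- `φ(g c) ≤ φ(g) c`. -/
theorem cl_totient_mul_le (g c : ℕ) : Nat.totient (g * c) ≤ Nat.totient g * c := by
  have h : ∀ k : ℕ, ((Finset.range (g * k)).filter (fun a => g.Coprime a)).card =
      Nat.totient g * k := by
    intro k
    induction k with
    | zero => simp
    | succ k ih =>
      rw [Nat.mul_succ, Finset.range_eq_Ico, ← Finset.Ico_union_Ico_eq_Ico (Nat.zero_le (g * k))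
        (Nat.le_add_right _ g), Finset.filter_union, Finset.card_union_of_disjoint
        (Finset.disjoint_filter_filter (Finset.Ico_disjoint_Ico_consecutive _ _ _)),
        ← Finset.range_eq_Ico, ih, Nat.filter_coprime_Ico_eq_totient]
      ring
  rw [← h c, Nat.totient_eq_card_coprime]
  refine Finset.card_le_card (Finset.monotone_filter_right _ fun a ha hcop => ?_)
  exact Nat.Coprime.coprime_mul_right hcop

theorem cl_qd_pos {q r : ℕ} (hq : 0 < q) : 0 < qd q r :=
  Nat.div_pos (Nat.le_of_dvd hq (Nat.gcd_dvd_left q r)) (Nat.gcd_pos_of_pos_left r hq)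

theorem cl_qd_mul_gcd (q r : ℕ) : qd q r * Nat.gcd q r = q :=
  Nat.div_mul_cancel (Nat.gcd_dvd_left q r)

theorem cl_coprime_qd {q r : ℕ} (hq : 0 < q) : Nat.Coprime (qd q r) (qd r q) := by
  rw [qd, qd, Nat.gcd_comm r q]
  exact Nat.coprime_div_gcd_div_gcd (Nat.gcd_pos_of_pos_left r hq)

/-- The divisors `q'` with `B' ∣ h q'` for some `h ≤ H`. -/
theorem cl_sum_divisors_le {v B' : ℕ} (hv : 0 < v) (hB' : 0 < B') (H : ℕ) :
    ∑ q ∈ v.divisors.filter (fun q => ∃ h ∈ Finset.Icc 1 H, B' ∣ h * q),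
        (Nat.totient (v / q) : ℝ) ≤ (v : ℝ) * (H ^ 2 / B') := by
  have hvR : (0 : ℝ) < v := Nat.cast_pos.2 hv
  set Q : Finset ℕ := v.divisors.filter (fun q => ∃ h ∈ Finset.Icc 1 H, B' ∣ h * q) with hQ
  have hsub : Q ⊆ (Finset.Icc 1 H).biUnion
      (fun h => v.divisors.filter (fun q => B' / Nat.gcd B' h ∣ q)) := by
    intro q hq
    obtain ⟨hqv, h, hh1, hd⟩ := Finset.mem_filter.1 hq
    refine Finset.mem_biUnion.2 ⟨h, hh1, Finset.mem_filter.2 ⟨hqv, ?_⟩⟩
    have hgpos : 0 < Nat.gcd B' h := Nat.gcd_pos_of_pos_left _ hB'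
    refine (Nat.coprime_div_gcd_div_gcd hgpos).dvd_of_dvd_mul_left ?_
    have := Nat.div_dvd_div (Nat.gcd_dvd_left B' h) hd
    rwa [Nat.mul_comm h q, Nat.mul_div_assoc _ (Nat.gcd_dvd_right B' h), Nat.mul_comm] at this
  calc ∑ q ∈ Q, (Nat.totient (v / q) : ℝ)
      ≤ ∑ q ∈ (Finset.Icc 1 H).biUnion
          (fun h => v.divisors.filter (fun q => B' / Nat.gcd B' h ∣ q)),
          (Nat.totient (v / q) : ℝ) :=
        Finset.sum_le_sum_of_subset_of_nonneg hsub fun _ _ _ => Nat.cast_nonneg _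
    _ ≤ ∑ h ∈ Finset.Icc 1 H, ∑ q ∈ v.divisors.filter (fun q => B' / Nat.gcd B' h ∣ q),
          (Nat.totient (v / q) : ℝ) :=
        cl_sum_biUnion_le (fun _ => Nat.cast_nonneg _) _ _
    _ ≤ ∑ h ∈ Finset.Icc 1 H, (v : ℝ) * (H / B') := by
        refine Finset.sum_le_sum fun h hh1 => ?_
        have hg : Nat.gcd B' h ∣ B' := Nat.gcd_dvd_left _ _
        have hgpos : 0 < Nat.gcd B' h := Nat.gcd_pos_of_pos_left _ hB'
        refine (sum_totient_multiples_le hv
          (Nat.div_pos (Nat.le_of_dvd hB' hg) hgpos)).trans ?_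
        rw [Nat.cast_div hg (Nat.cast_ne_zero.2 hgpos.ne'), div_div_eq_mul_div, mul_div_assoc]
        refine mul_le_mul_of_nonneg_left (div_le_div_of_nonneg_right ?_ (by linarith)) hvR.le
        exact_mod_cast (Nat.le_of_dvd (Finset.mem_Icc.1 hh1).1 (Nat.gcd_dvd_right _ _)).trans
          (Finset.mem_Icc.1 hh1).2
    _ = _ := by
        rw [Finset.sum_const, Nat.card_Icc, nsmul_eq_mul]
        simp only [add_tsub_cancel_right]
        ring

/-- The term of a pair, in terms of the divisor `q'` of `v`. -/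
theorem cl_term_le {ψ : ℕ → ℝ} {v w : ℕ} (hv : 0 < v) (hw0 : 0 < w) (hψw : 0 < ψ w) :
    wt ψ w / dist2 ψ v w ≤ (Nat.totient (v / qd v w) : ℝ) / v := by
  have hq : 0 < qd v w := cl_qd_pos hv
  have hg : v / qd v w = Nat.gcd v w :=
    Nat.div_eq_of_eq_mul_left hq (by rw [mul_comm]; exact (cl_qd_mul_gcd v w).symm)
  have hgpos : 0 < Nat.gcd v w := Nat.gcd_pos_of_pos_left _ hv
  have hqR : (0 : ℝ) < qd v w := Nat.cast_pos.2 hq
  have hgR : (0 : ℝ) < Nat.gcd v w := Nat.cast_pos.2 hgpos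
  have hD : ψ w * (qd v w : ℝ) ≤ dist2 ψ v w := le_max_right _ _
  have h1 : (Nat.totient w : ℝ) / w ≤ (Nat.totient (Nat.gcd v w) : ℝ) / Nat.gcd v w := by
    rw [div_le_div_iff₀ (Nat.cast_pos.2 hw0) hgR]
    obtain ⟨c, hc⟩ := Nat.gcd_dvd_right v w
    set g := Nat.gcd v w
    rw [hc]
    have : Nat.totient (g * c) ≤ Nat.totient g * c :=
      cl_totient_mul_le g c
    calc (Nat.totient (g * c) : ℝ) * g ≤ ((Nat.totient g * c : ℕ) : ℝ) * g :=
          mul_le_mul_of_nonneg_right (by exact_mod_cast this) hgR.le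
      _ = _ := by push_cast; ring
  rw [hg]
  calc wt ψ w / dist2 ψ v w ≤ wt ψ w / (ψ w * qd v w) :=
        div_le_div_of_nonneg_left (by rw [wt]; positivity) (by positivity) hD
    _ = (Nat.totient w : ℝ) / w / qd v w := by rw [wt]; field_simp
    _ ≤ (Nat.totient (Nat.gcd v w) : ℝ) / Nat.gcd v w / qd v w :=
        div_le_div_of_nonneg_right h1 hqR.le
    _ = _ := by
        rw [div_div, mul_comm (Nat.gcd v w : ℝ), ← Nat.cast_mul, cl_qd_mul_gcd]

/-- `w` is determined by `(q', r')`. -/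
theorem cl_injOn {v : ℕ} (hv : 0 < v) (W : Finset ℕ) :
    Set.InjOn (fun w => (qd v w, qd w v)) W := by
  intro w hw w' hw' e
  simp only [Prod.mk.injEq] at e
  have h1 := cl_qd_mul_gcd v w
  have h2 := cl_qd_mul_gcd v w'
  rw [e.1] at h1
  have hgg : Nat.gcd v w = Nat.gcd v w' :=
    Nat.eq_of_mul_eq_mul_left (cl_qd_pos hv) (h1.trans h2.symm)
  have h3 := cl_qd_mul_gcd w v
  have h4 := cl_qd_mul_gcd w' v
  rw [Nat.gcd_comm w v, hgg, e.2] at h3
  rw [Nat.gcd_comm w' v] at h4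
  exact h3.symm.trans h4

/-- The numerical step. -/
theorem crossLow_numeric {x p lam : ℝ} {B' H : ℕ} (hB' : 0 < B') (hp : 0 < p) (hx : 0 < x)
    (hlam : 0 < lam) (hHR : (1 : ℝ) ≤ H)
    (hB'low : (1 / (5 * H * x) ≤ (B' : ℝ)) ∨ (1 / (2 * lam) ≤ (B' : ℝ)))
    (hlamB : 1 / 2 ≤ (B' : ℝ) * lam ∨ (p * B' ≤ lam ∧ 1 ≤ 5 * H * x * (B' : ℝ))) :
    (H : ℝ) * (8 * ((3 * H * x) ^ 2 / p + 3 * H * x / lam + 1)) * (H ^ 2 / B') ≤
      5400 * (H : ℝ) ^ 7 * (x ^ 3 / p + x ^ 2 * lam / p + x + lam) := by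
  have hB'R : (1 : ℝ) ≤ B' := by exact_mod_cast hB'
  set M : ℝ := x ^ 3 / p + x ^ 2 * lam / p + x + lam with hM
  have hM1 : 0 ≤ x ^ 3 / p := by positivity
  have hM2 : 0 ≤ x ^ 2 * lam / p := by positivity
  have hinv : 1 / (B' : ℝ) ≤ 5 * H * x ∨ 1 / (B' : ℝ) ≤ 2 * lam := by
    rcases hB'low with h | h
    · left; rw [div_le_iff₀ (by positivity)] at h ⊢; linarith
    · right; rw [div_le_iff₀ (by positivity)] at h ⊢; linarith
  have t1 : x ^ 2 / p * (1 / (B' : ℝ)) ≤ 25 * H ^ 2 * M := by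
    have hxp : 0 ≤ x ^ 2 / p := by positivity
    rcases hinv with h | h
    · refine (mul_le_mul_of_nonneg_left h hxp).trans ?_
      have : x ^ 2 / p * (5 * H * x) = 5 * H * (x ^ 3 / p) := by ring
      rw [this]
      refine mul_le_mul ?_ (by linarith) hM1 (by positivity)
      nlinarith
    · refine (mul_le_mul_of_nonneg_left h hxp).trans ?_
      have : x ^ 2 / p * (2 * lam) = 2 * (x ^ 2 * lam / p) := by ring
      rw [this]
      refine mul_le_mul ?_ (by linarith) hM2 (by positivity)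
      nlinarith
  have t2 : x / lam * (1 / (B' : ℝ)) ≤ 25 * H ^ 2 * M := by
    rw [div_mul_div_comm, mul_one, div_le_iff₀ (by positivity)]
    rcases hlamB with h | ⟨h, h'⟩
    · calc x = 2 * x * (1 / 2) := by ring
        _ ≤ 25 * H ^ 2 * M * (lam * B') := by
            refine mul_le_mul ?_ (by linarith) (by norm_num) (by positivity)
            have : (1 : ℝ) ≤ H ^ 2 := one_le_pow₀ hHR
            nlinarith
    · calc x = x * 1 ^ 2 := by ring
        _ ≤ x * (5 * H * x * B') ^ 2 :=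
            mul_le_mul_of_nonneg_left (pow_le_pow_left₀ zero_le_one h' 2) hx.le
        _ = 25 * H ^ 2 * (x ^ 3 / p) * (p * B' * B') := by field_simp; ring
        _ ≤ 25 * H ^ 2 * M * (lam * B') :=
            mul_le_mul (mul_le_mul_of_nonneg_left (by linarith) (by positivity))
              (mul_le_mul_of_nonneg_right h (Nat.cast_nonneg _)) (by positivity) (by positivity)
  have t3 : 1 / (B' : ℝ) ≤ 25 * H ^ 2 * M := by
    rcases hinv with h | h <;> refine h.trans ?_
    · refine mul_le_mul ?_ (by linarith) hx.le (by positivity)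
      nlinarith
    · refine mul_le_mul ?_ (by linarith) hlam.le (by positivity)
      nlinarith
  have hH2 : (H : ℝ) ≤ H ^ 2 := by nlinarith
  have hH0 : (1 : ℝ) ≤ H ^ 2 := one_le_pow₀ hHR
  calc (H : ℝ) * (8 * ((3 * H * x) ^ 2 / p + 3 * H * x / lam + 1)) * (H ^ 2 / B')
      = 8 * H ^ 3 * (9 * H ^ 2 * (x ^ 2 / p * (1 / B')) + 3 * H * (x / lam * (1 / B')) +
          1 * (1 / B')) := by field_simp; ring
    _ ≤ 8 * H ^ 3 * (9 * H ^ 2 * (25 * H ^ 2 * M) + 9 * H ^ 2 * (25 * H ^ 2 * M) +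
          9 * H ^ 2 * (25 * H ^ 2 * M)) := by
        refine mul_le_mul_of_nonneg_left (add_le_add (add_le_add ?_ ?_) ?_) (by positivity)
        · exact mul_le_mul_of_nonneg_left t1 (by positivity)
        · exact mul_le_mul (by nlinarith) t2 (by positivity) (by positivity)
        · exact mul_le_mul (by nlinarith) t3 (by positivity) (by positivity)
    _ = 5400 * H ^ 7 * M := by ring

/-- The gain of the cross pairs with a major large deviation.  `A / B` is the shortest vector of the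
window of `v`, `A' / B'` the vector of the window of `W`. -/
theorem crossLow_sum_le {γ x p : ℝ} {ψ : ℕ → ℝ} {A A' : ℤ} {B B' H : ℕ}
    (hA : ShortVec γ p A B) (hp : 0 < p) (hB' : 0 < B') (hco' : IsCoprime A' (B' : ℤ))
    (hx : 0 < x) (hH : 1 ≤ H) {v : ℕ} (hv : 0 < v) (hpv : p ≤ ψ v) (W : Finset ℕ)
    (hBd : (B : ℝ) * |(B' : ℝ) * γ - A'| ≤ 1 / 2)
    (hW : ∀ w ∈ W, 0 < w ∧ 0 < ψ w ∧ dist2 ψ v w ≤ x ∧
      (∃ n ∈ nearSet γ ψ v w, ¬ (A = A' ∧ B = B' ∧ zform A B v w n = 0)) ∧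
      |(B' : ℝ) * γ - A'| * (qd w v : ℝ) ≤ x ∧
      ∃ h : ℕ, 1 ≤ h ∧ h ≤ H ∧ B' ∣ h * qd v w ∧
        (h : ℝ) * (|(B' : ℝ) * γ - A'| * (qd v w : ℝ)) ≤ H * x * B') :
    ∑ w ∈ W, wt ψ w / dist2 ψ v w ≤
      5400 * (H : ℝ) ^ 7 *
        (x ^ 3 / p + x ^ 2 * latNorm γ p A B / p + x + latNorm γ p A B) := by
  classical
  set lam := latNorm γ p A B with hlamdef
  set δ' : ℝ := |(B' : ℝ) * γ - A'| with hδ'
  have hlam : 0 < lam := hA.norm_pos hp
  have hHR : (1 : ℝ) ≤ H := by exact_mod_cast hH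
  have hB'R : (1 : ℝ) ≤ B' := by exact_mod_cast hB'
  have hvR : (0 : ℝ) < v := Nat.cast_pos.2 hv
  have hψv : 0 < ψ v := hp.trans_le hpv
  -- the deep form is small
  have hz' : ∀ w ∈ W, ∀ n ∈ nearSet γ ψ v w,
      |(zform A' B' v w n : ℝ)| < 5 * H * x * B' := by
    intro w hw n hn
    obtain ⟨-, -, hD, -, hr, h, h1, -, -, hq⟩ := hW w hw
    rw [nearSet, Finset.mem_filter] at hn
    have hn' : |(n : ℝ) + γ * mdiff v w| < 2 * x := hn.2.trans_le (by linarith)
    have e : (zform A' B' v w n : ℝ) = B' * ((n : ℝ) + γ * mdiff v w) -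
        ((B' : ℝ) * γ - A') * ((qd w v : ℝ) - (qd v w : ℝ)) := by
      simp only [zform, mdiff]; push_cast; ring
    rw [e]
    have hq' : δ' * (qd v w : ℝ) ≤ H * x * B' := by
      refine le_trans ?_ hq
      exact le_mul_of_one_le_left (by positivity) (by exact_mod_cast h1)
    have hm : |(qd w v : ℝ) - (qd v w : ℝ)| ≤ (qd w v : ℝ) + qd v w :=
      (abs_sub _ _).trans (by rw [Nat.abs_cast, Nat.abs_cast])
    refine (abs_sub _ _).trans_lt ?_
    rw [abs_mul, abs_mul, Nat.abs_cast, ← hδ']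
    have h2 : δ' * |(qd w v : ℝ) - (qd v w : ℝ)| ≤ x + H * x * B' :=
      (mul_le_mul_of_nonneg_left hm (abs_nonneg _)).trans (by rw [mul_add]; linarith)
    have h3 : x ≤ H * x * B' := by
      nlinarith [mul_le_mul hHR hB'R zero_le_one (by linarith : (0 : ℝ) ≤ H)]
    have h4 := mul_lt_mul_of_pos_left hn' (show (0 : ℝ) < B' by linarith)
    have h5 : (B' : ℝ) * (2 * x) ≤ 2 * H * x * B' := by
      nlinarith [mul_le_mul_of_nonneg_right hHR (show 0 ≤ x * B' by positivity)]
    linarith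
  -- the lower bounds for `B'`
  rcases W.eq_empty_or_nonempty with h0 | ⟨w0, hw0⟩
  · rw [h0, Finset.sum_empty]; positivity
  have hdiffer : (A, B) ≠ (A', B') → 1 / 2 ≤ (B' : ℝ) * lam := by
    intro hne
    have hne' : (A * B' - A' * B : ℤ) ≠ 0 := by
      intro e
      apply hne
      have eB : B = B' := by
        refine Nat.dvd_antisymm (Int.natCast_dvd_natCast.1 ?_) (Int.natCast_dvd_natCast.1 ?_)
        · exact hA.coprime.symm.dvd_of_dvd_mul_left ⟨A', by linarith⟩
        · exact hco'.symm.dvd_of_dvd_mul_left ⟨A, by linarith⟩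
      subst eB
      refine Prod.ext ?_ rfl
      exact mul_right_cancel₀ (Int.natCast_ne_zero.2 hA.B_pos.ne') (by linarith)
    have h1 : (1 : ℝ) ≤ |((A * B' - A' * B : ℤ) : ℝ)| := by
      exact_mod_cast Int.one_le_abs hne'
    have e : ((A * B' - A' * B : ℤ) : ℝ) =
        (B : ℝ) * ((B' : ℝ) * γ - A') - (B' : ℝ) * ((B : ℝ) * γ - A) := by
      push_cast; ring
    rw [e] at h1
    have h2 := h1.trans (abs_sub _ _)
    rw [abs_mul, abs_mul, Nat.abs_cast, Nat.abs_cast] at h2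
    have h3 := mul_le_mul_of_nonneg_left hA.le_norm.2 (Nat.cast_nonneg (α := ℝ) B')
    linarith
  have hsmall : 5 * H * x * B' < 1 → (A, B) ≠ (A', B') := by
    intro hlt heq
    simp only [Prod.mk.injEq] at heq
    obtain ⟨-, -, -, ⟨n, hn, hgood⟩, -⟩ := hW w0 hw0
    have hz : zform A' B' v w0 n = 0 :=
      Int.abs_lt_one_iff.1 (by exact_mod_cast (hz' w0 hw0 n hn).trans hlt)
    refine hgood ⟨heq.1, heq.2, ?_⟩
    rw [heq.1, heq.2]
    exact hz
  have hB'low : (1 / (5 * H * x) ≤ (B' : ℝ)) ∨ (1 / (2 * lam) ≤ (B' : ℝ)) := by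
    rcases lt_or_ge (5 * H * x * (B' : ℝ)) 1 with h | h
    · right
      rw [div_le_iff₀ (by positivity)]
      linarith [hdiffer (hsmall h)]
    · left
      rw [div_le_iff₀ (by positivity)]
      linarith
  have hlamB : 1 / 2 ≤ (B' : ℝ) * lam ∨ (p * B' ≤ lam ∧ 1 ≤ 5 * H * x * (B' : ℝ)) := by
    by_cases heq : (A, B) = (A', B')
    · refine Or.inr ⟨?_, not_lt.1 fun h => hsmall h heq⟩
      simp only [Prod.mk.injEq] at heq
      rw [← heq.2]; exact hA.le_norm.1
    · exact Or.inl (hdiffer heq)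
  -- the possible `r'`
  set T : Finset ℕ := W.image (fun w => qd w v) with hT
  have hTcard : (T.card : ℝ) * 1 ≤
      H * (8 * ((3 * H * x) ^ 2 / p + 3 * H * x / lam + 1)) := by
    have hsub : ∀ b ∈ T, ∃ h ∈ Finset.Icc 1 H,
        p * ((h * b : ℕ) : ℝ) ≤ 3 * H * x ∧ ∃ a : ℤ, |((h * b : ℕ) : ℝ) * γ - a| ≤ 3 * H * x := by
      intro b hb
      obtain ⟨w, hw, rfl⟩ := Finset.mem_image.1 hb
      obtain ⟨-, -, hD, ⟨n, hn, -⟩, -, h, h1, h2, ⟨k, hk⟩, hq⟩ := hW w hw
      rw [nearSet, Finset.mem_filter] at hn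
      refine ⟨h, Finset.mem_Icc.2 ⟨h1, h2⟩, ?_, (k : ℤ) * A' - h * n, ?_⟩
      · have hrD : ψ v * (qd w v : ℝ) ≤ x := (le_max_left _ _).trans hD
        push_cast
        calc p * ((h : ℝ) * qd w v) ≤ (h : ℝ) * (ψ v * qd w v) := by
              rw [← mul_assoc, mul_comm p, mul_assoc]
              exact mul_le_mul_of_nonneg_left
                (mul_le_mul_of_nonneg_right hpv (Nat.cast_nonneg _)) (Nat.cast_nonneg _)
          _ ≤ (H : ℝ) * x := mul_le_mul (by exact_mod_cast h2) hrD (by positivity) (by positivity)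
          _ ≤ _ := by nlinarith
      · have hkR : (h : ℝ) * qd v w = B' * k := by exact_mod_cast hk
        have e : ((h * qd w v : ℕ) : ℝ) * γ - (((k : ℤ) * A' - h * n : ℤ) : ℝ) =
            h * ((n : ℝ) + γ * mdiff v w) + k * ((B' : ℝ) * γ - A') := by
          simp only [mdiff]; push_cast
          linear_combination γ * hkR
        rw [e]
        refine (abs_add_le _ _).trans ?_
        rw [abs_mul, abs_mul, Nat.abs_cast, Nat.abs_cast, ← hδ']
        have hk2 : (k : ℝ) * δ' ≤ H * x := by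
          refine le_of_mul_le_mul_left ?_ (show (0 : ℝ) < B' by linarith)
          calc (B' : ℝ) * (k * δ') = δ' * ((h : ℝ) * qd v w) := by rw [hkR]; ring
            _ ≤ H * x * B' := by linarith
            _ = _ := by ring
        have hh : (h : ℝ) * |(n : ℝ) + γ * mdiff v w| ≤ H * (2 * x) :=
          mul_le_mul (by exact_mod_cast h2) (hn.2.le.trans (by linarith)) (abs_nonneg _)
            (by positivity)
        linarith
    choose! hh hhm hhv using hsub
    have hcover : T ⊆ (Finset.Icc 1 H).biUnion (fun h => T.filter (fun b => hh b = h)) :=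
      fun b hb => Finset.mem_biUnion.2 ⟨hh b, hhm b hb, Finset.mem_filter.2 ⟨hb, rfl⟩⟩
    have hone : ∀ h ∈ Finset.Icc 1 H, ((T.filter (fun b => hh b = h)).card : ℝ) ≤
        8 * ((3 * H * x) ^ 2 / p + 3 * H * x / lam + 1) := by
      intro h hh1
      have hpos : 0 < h := (Finset.mem_Icc.1 hh1).1
      rw [← Finset.card_image_of_injective (T.filter (fun b => hh b = h))
        (fun a b hab => Nat.eq_of_mul_eq_mul_left hpos hab : Function.Injective (h * ·))]
      refine card_lattice_le hA hp (by positivity) _ fun b hb => ?_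
      obtain ⟨c, hc, rfl⟩ := Finset.mem_image.1 hb
      obtain ⟨hcT, hc2⟩ := Finset.mem_filter.1 hc
      have := hhv c hcT
      rw [hc2] at this
      exact this
    calc (T.card : ℝ) * 1 ≤
          (∑ h ∈ Finset.Icc 1 H, (T.filter (fun b => hh b = h)).card : ℕ) := by
          rw [mul_one]
          exact_mod_cast (Finset.card_le_card hcover).trans Finset.card_biUnion_le
      _ ≤ (Finset.Icc 1 H).card • (8 * ((3 * H * x) ^ 2 / p + 3 * H * x / lam + 1)) := by
          push_cast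
          exact Finset.sum_le_card_nsmul _ _ _ hone
      _ = _ := by rw [Nat.card_Icc, nsmul_eq_mul]; congr 2
  have hQsum := cl_sum_divisors_le hv hB' H
  set Q : Finset ℕ := v.divisors.filter (fun q => ∃ h ∈ Finset.Icc 1 H, B' ∣ h * q) with hQ
  have hterm : ∀ w ∈ W, wt ψ w / dist2 ψ v w ≤ (Nat.totient (v / qd v w) : ℝ) / v :=
    fun w hw => cl_term_le hv (hW w hw).1 (hW w hw).2.1
  have hinj := cl_injOn hv W
  have hsum : ∑ w ∈ W, wt ψ w / dist2 ψ v w ≤ (T.card : ℝ) * (H ^ 2 / B') := by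
    calc ∑ w ∈ W, wt ψ w / dist2 ψ v w
        ≤ ∑ w ∈ W, (Nat.totient (v / qd v w) : ℝ) / v := Finset.sum_le_sum hterm
      _ = ∑ z ∈ W.image (fun w => (qd v w, qd w v)), (Nat.totient (v / z.1) : ℝ) / v :=
          (Finset.sum_image (f := fun z : ℕ × ℕ => (Nat.totient (v / z.1) : ℝ) / v) hinj).symm
      _ ≤ ∑ z ∈ Q ×ˢ T, (Nat.totient (v / z.1) : ℝ) / v := by
          refine Finset.sum_le_sum_of_subset_of_nonneg (fun z hz => ?_) fun _ _ _ => by positivity
          obtain ⟨w, hw, rfl⟩ := Finset.mem_image.1 hz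
          obtain ⟨-, -, -, -, -, h, h1, h2, hd, -⟩ := hW w hw
          refine Finset.mem_product.2 ⟨Finset.mem_filter.2
            ⟨Nat.mem_divisors.2 ⟨⟨_, (cl_qd_mul_gcd v w).symm⟩, hv.ne'⟩,
              h, Finset.mem_Icc.2 ⟨h1, h2⟩, hd⟩, Finset.mem_image.2 ⟨w, hw, rfl⟩⟩
      _ = (T.card : ℝ) * ((∑ q ∈ Q, (Nat.totient (v / q) : ℝ)) / v) := by
          rw [Finset.sum_product, Finset.sum_div, Finset.mul_sum]
          exact Finset.sum_congr rfl fun q _ => by simp only [Finset.sum_const, nsmul_eq_mul]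
      _ ≤ _ := by
          refine mul_le_mul_of_nonneg_left ?_ (Nat.cast_nonneg _)
          rw [div_le_iff₀ hvR]
          linarith
  rw [mul_one] at hTcard
  refine hsum.trans ((mul_le_mul_of_nonneg_right hTcard (by positivity)).trans ?_)
  exact crossLow_numeric hB' hp hx hlam hHR hB'low hlamB

end Vale.Agent.P028.T2
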