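import Vale.Agent.P028.T2.Defs

/-!
Major variables put both quotients on major arcs with small denominators.

In a final state `q' = Q a d`, `r' = R c b`.  If `a` and `d` are both major then, as they are coprime,
the common fraction has denominator dividing `h h' Q`; if one of them is major the denominator is
`h Q` times the other; if neither is large the arc is read off from the other side.
-/

noncomputable section

namespace Vale.Agent.P028.T2

open Finset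
open scoped Classical

/-- A major arc of `γ` attached to `q'`, with the error which the classification gives:
here `W = x ^ (-sigC)`. -/
def MajorSide (γ x W : ℝ) (q' H e : ℕ) (L : ℤ) : Prop :=
  1 ≤ H ∧ (H : ℝ) ≤ 4 * (W * W) ∧ e ∣ q' ∧
    |((H * e : ℕ) : ℝ) * γ - L| * q' ≤ 4 * (x * (W * W)) * e

/-- The powers of `x` in use are monomials in `W = x ^ (-sigC)`. -/
theorem gainMajor_powers {x : ℝ} (hx : 0 < x) (h0 : x ≤ Real.exp (-(10 / sigC))) :
    10 ≤ x ^ (-sigC) ∧ (hR x : ℝ) ≤ 2 * x ^ (-sigC) ∧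
      x ^ (-(2 * sigC)) = x ^ (-sigC) * x ^ (-sigC) ∧
      x ^ (1 - sigC) = x * x ^ (-sigC) ∧
      x ^ (1 - 3 * sigC) = x * (x ^ (-sigC) * x ^ (-sigC) * x ^ (-sigC)) ∧
      x ^ (-(2 + kapC + 4 * sigC)) =
        x ^ (-(2 + kapC)) * (x ^ (-sigC) * x ^ (-sigC) * (x ^ (-sigC) * x ^ (-sigC))) := by
  have hσ : (0 : ℝ) < sigC := by norm_num [sigC]
  have h10 : (10 : ℝ) ≤ x ^ (-sigC) := by
    have hlog : Real.log x ≤ -(10 / sigC) := by
      have := Real.log_le_log hx h0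
      rwa [Real.log_exp] at this
    have h : (10 : ℝ) ≤ Real.log x * -sigC := by
      have := mul_le_mul_of_nonneg_right hlog hσ.le
      rw [neg_mul, div_mul_cancel₀ _ hσ.ne'] at this
      linarith
    rw [Real.rpow_def_of_pos hx]
    linarith [Real.add_one_le_exp (Real.log x * -sigC)]
  refine ⟨h10, ?_, ?_, ?_, ?_, ?_⟩
  · have : ((hR x : ℕ) : ℝ) < x ^ (-sigC) + 1 := Nat.ceil_lt_add_one (by linarith)
    linarith
  · rw [← Real.rpow_add hx]
    congr 1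
    ring
  · conv_rhs => rw [← Real.rpow_one x]
    rw [← Real.rpow_mul hx.le, one_mul, ← Real.rpow_add hx]
    congr 1
  · conv_rhs => arg 1; rw [← Real.rpow_one x]
    rw [← Real.rpow_add hx, ← Real.rpow_add hx, ← Real.rpow_add hx]
    congr 1
    ring
  · rw [← Real.rpow_add hx, ← Real.rpow_add hx, ← Real.rpow_add hx]
    congr 1
    ring

/-- A short resonance at the size of `c`, as a bound against `c` itself. -/
theorem Maj2.exists_le {x α : ℝ} {c : ℕ} (h : Maj2 x α c) :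
    ∃ h : ℕ, 1 ≤ h ∧ h ≤ hR x ∧ ∃ l : ℤ, |α * h - l| * c ≤ 2 * x ^ (1 - sigC) := by
  obtain ⟨h, h1, h2, l, hl⟩ := h
  refine ⟨h, h1, h2, l, ?_⟩
  have hlt : c ≤ 2 ^ (Nat.log 2 c + 1) := (Nat.lt_pow_succ_log_self one_lt_two c).le
  have hc : (c : ℝ) ≤ (2 : ℝ) ^ Nat.log 2 c * 2 := by
    rw [← pow_succ]
    exact_mod_cast hlt
  calc |α * h - l| * c ≤ |α * h - l| * ((2 : ℝ) ^ Nat.log 2 c * 2) :=
        mul_le_mul_of_nonneg_left hc (abs_nonneg _)
    _ = 2 * (|α * h - l| * (2 : ℝ) ^ Nat.log 2 c) := by ring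
    _ ≤ _ := by linarith

/-- Two resonances of coprime variables have one fraction. -/
theorem majorSide_both {γ x W : ℝ} {Q a d h h' : ℕ} {l l' : ℤ}
    (hx : 0 ≤ x) (hW : 1 ≤ W) (hxW : 8 * (x * (W * W)) < 1) (hd : 0 < d) (hco : Nat.Coprime a d)
    (h1 : 1 ≤ h) (h1' : 1 ≤ h') (hh : (h : ℝ) ≤ 2 * W) (hh' : (h' : ℝ) ≤ 2 * W)
    (hl : |γ * (Q * d : ℕ) * h - l| * a ≤ 2 * (x * W))
    (hl' : |γ * (Q * a : ℕ) * h' - l'| * d ≤ 2 * (x * W)) :
    ∃ (H : ℕ) (L : ℤ), MajorSide γ x W (Q * (a * d)) H Q L := by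
  have hxW0 : 0 ≤ 2 * (x * W) := by positivity
  set u : ℝ := γ * (Q * d : ℕ) * h - l with hu
  set u' : ℝ := γ * (Q * a : ℕ) * h' - l' with hu'
  have hint : ((h' * a * l - h * d * l' : ℤ) : ℝ) = h * (u' * d) - h' * (u * a) := by
    rw [hu, hu']
    push_cast
    ring
  have hz : (h' : ℤ) * a * l - h * d * l' = 0 := by
    rw [← Int.abs_lt_one_iff]
    have : |((h' * a * l - h * d * l' : ℤ) : ℝ)| < 1 := by
      rw [hint]
      refine lt_of_le_of_lt ?_ hxW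
      refine (abs_sub _ _).trans ?_
      rw [abs_mul (h : ℝ), abs_mul (h' : ℝ), Nat.abs_cast, Nat.abs_cast, abs_mul u, abs_mul u',
        Nat.abs_cast, Nat.abs_cast]
      have e1 : (h : ℝ) * (|u'| * d) ≤ 2 * W * (2 * (x * W)) :=
        mul_le_mul hh hl' (by positivity) (by linarith)
      have e2 : (h' : ℝ) * (|u| * a) ≤ 2 * W * (2 * (x * W)) :=
        mul_le_mul hh' hl (by positivity) (by linarith)
      linarith
    exact_mod_cast this
  obtain ⟨k, hk⟩ : (d : ℤ) ∣ (h' : ℤ) * l :=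
    (Nat.isCoprime_iff_coprime.2 hco.symm : IsCoprime (d : ℤ) (a : ℤ)).dvd_of_dvd_mul_left
      ⟨(h : ℤ) * l', by linarith⟩
  refine ⟨h * h', k, Nat.one_le_iff_ne_zero.2 (by positivity), ?_, Dvd.intro _ rfl, ?_⟩
  · push_cast
    calc (h : ℝ) * h' ≤ 2 * W * (2 * W) :=
          mul_le_mul hh hh' (Nat.cast_nonneg _) (by linarith)
      _ = 4 * (W * W) := by ring
  · have hkR : (d : ℝ) * k = h' * l := by exact_mod_cast hk.symm
    have e : (((h * h' * Q : ℕ) : ℝ) * γ - k) * d = h' * u := by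
      rw [hu]
      push_cast
      linarith
    calc |((h * h' * Q : ℕ) : ℝ) * γ - k| * ((Q * (a * d) : ℕ) : ℝ)
        = |((((h * h' * Q : ℕ) : ℝ) * γ - k) * d)| * (a * Q) := by
          rw [abs_mul, Nat.abs_cast]
          push_cast
          ring
      _ = (h' : ℝ) * (|u| * a) * Q := by
          rw [e, abs_mul, Nat.abs_cast]
          ring
      _ ≤ 2 * W * (2 * (x * W)) * Q :=
          mul_le_mul_of_nonneg_right (mul_le_mul hh' hl (by positivity) (by linarith))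
            (Nat.cast_nonneg _)
      _ = 4 * (x * (W * W)) * Q := by ring

/-- One resonance: the other variable joins the denominator. -/
theorem majorSide_one {γ x W : ℝ} {Q a d h : ℕ} {l : ℤ} (hx : 0 ≤ x) (hW : 1 ≤ W)
    (h1 : 1 ≤ h) (hh : (h : ℝ) ≤ 2 * W)
    (hl : |γ * (Q * d : ℕ) * h - l| * a ≤ 2 * (x * W)) :
    ∃ (H : ℕ) (L : ℤ), MajorSide γ x W (Q * (a * d)) H (Q * d) L := by
  refine ⟨h, l, h1, ?_, Nat.mul_dvd_mul_left Q (dvd_mul_left d a), ?_⟩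
  · nlinarith
  · calc |((h * (Q * d) : ℕ) : ℝ) * γ - l| * ((Q * (a * d) : ℕ) : ℝ)
        = |γ * (Q * d : ℕ) * h - l| * a * ((Q * d : ℕ) : ℝ) := by
          push_cast
          ring_nf
      _ ≤ 2 * (x * W) * ((Q * d : ℕ) : ℝ) := mul_le_mul_of_nonneg_right hl (Nat.cast_nonneg _)
      _ ≤ 4 * (x * (W * W)) * ((Q * d : ℕ) : ℝ) := by
          refine mul_le_mul_of_nonneg_right ?_ (Nat.cast_nonneg _)
          nlinarith [mul_le_mul_of_nonneg_left hW (mul_nonneg hx (by linarith : (0 : ℝ) ≤ W))]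

/-- One side: a major arc with a small denominator, or a small quotient. -/
theorem majorSide_or_small {γ x W M' : ℝ} {Q a d : ℕ} (hx : 0 ≤ x) (hW : 1 ≤ W)
    (hxW : 8 * (x * (W * W)) < 1) (hWM : W ≤ M') (hd : 0 < d) (hco : Nat.Coprime a d)
    (hh : (hR x : ℝ) ≤ 2 * W) (hpow : x ^ (1 - sigC) = x * W) {M : ℝ} (hM : M ≤ M')
    (ha : W ≤ (a : ℝ) → Maj2 x (γ * (Q * d : ℕ)) a)
    (hd' : M ≤ (d : ℝ) → Maj2 x (γ * (Q * a : ℕ)) d) :
    (∃ (H e : ℕ) (L : ℤ), MajorSide γ x W (Q * (a * d)) H e L ∧ (e : ℝ) ≤ Q * M') ∨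
      ((Q * (a * d) : ℕ) : ℝ) ≤ Q * (W * M') := by
  have hQ : (0 : ℝ) ≤ Q := Nat.cast_nonneg _
  by_cases h1 : W ≤ (a : ℝ)
  · obtain ⟨h, hh1, hh2, l, hl⟩ := (ha h1).exists_le
    rw [hpow] at hl
    have hhW : (h : ℝ) ≤ 2 * W := (Nat.cast_le.2 hh2).trans hh
    by_cases h2 : M ≤ (d : ℝ)
    · obtain ⟨h', hh1', hh2', l', hl'⟩ := (hd' h2).exists_le
      rw [hpow] at hl'
      obtain ⟨H, L, hs⟩ := majorSide_both hx hW hxW hd hco hh1 hh1' hhW
        ((Nat.cast_le.2 hh2').trans hh) hl hl'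
      exact Or.inl ⟨H, Q, L, hs, le_mul_of_one_le_right hQ (hW.trans hWM)⟩
    · obtain ⟨H, L, hs⟩ := majorSide_one hx hW hh1 hhW hl
      refine Or.inl ⟨H, Q * d, L, hs, ?_⟩
      push_cast
      exact mul_le_mul_of_nonneg_left (((not_le.1 h2).le).trans hM) hQ
  · by_cases h2 : M ≤ (d : ℝ)
    · obtain ⟨h', hh1', hh2', l', hl'⟩ := (hd' h2).exists_le
      rw [hpow] at hl'
      obtain ⟨H, L, hs⟩ := majorSide_one hx hW hh1' ((Nat.cast_le.2 hh2').trans hh) hl'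
      refine Or.inl ⟨H, Q * a, L, ?_, ?_⟩
      · rwa [Nat.mul_comm a d]
      · push_cast
        exact mul_le_mul_of_nonneg_left (((not_le.1 h1).le).trans hWM) hQ
    · refine Or.inr ?_
      push_cast
      exact mul_le_mul_of_nonneg_left
        (mul_le_mul (not_le.1 h1).le ((not_le.1 h2).le.trans hM) (Nat.cast_nonneg _)
          (by linarith)) hQ

/-- A major side gives the data of a side. -/
theorem MajorSide.sideData {γ x : ℝ} {q' H e : ℕ} {L : ℤ} (hx : 0 < x)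
    (h0 : x ≤ Real.exp (-(10 / sigC))) (h : MajorSide γ x (x ^ (-sigC)) q' H e L) :
    SideData γ x q' H e L := by
  obtain ⟨h10, -, e2, -, e3, -⟩ := gainMajor_powers hx h0
  obtain ⟨h1, h2, h3, h4⟩ := h
  refine ⟨h1, e2 ▸ h2, h3, h4.trans (mul_le_mul_of_nonneg_right ?_ (Nat.cast_nonneg _))⟩
  rw [e3]
  have : 0 ≤ x * (x ^ (-sigC) * x ^ (-sigC)) := by positivity
  nlinarith [mul_le_mul_of_nonneg_left h10 this]

/-- A side without large variables takes the arc of the other side. -/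
theorem MajorSide.transfer {γ x : ℝ} {q' r' H e : ℕ} {L n : ℤ} (hx : 0 < x)
    (h0 : x ≤ Real.exp (-(10 / sigC))) (hr : 0 < r')
    (h : MajorSide γ x (x ^ (-sigC)) r' H e L)
    (hn : |(n : ℝ) + γ * ((r' : ℝ) - q')| ≤ 4 * x) :
    ∃ L' : ℤ, SideData γ x q' H q' L' := by
  obtain ⟨h10, -, e2, -, e3, -⟩ := gainMajor_powers hx h0
  obtain ⟨h1, h2, ⟨k, hk⟩, h4⟩ := h
  refine ⟨(H : ℤ) * n + (k : ℤ) * L, h1, e2 ▸ h2, dvd_rfl,
    mul_le_mul_of_nonneg_right ?_ (Nat.cast_nonneg _)⟩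
  have hr' : (0 : ℝ) < r' := Nat.cast_pos.2 hr
  have hkR : (r' : ℝ) = e * k := by exact_mod_cast hk
  have hE : (k : ℝ) * |((H * e : ℕ) : ℝ) * γ - L| ≤ 4 * (x * (x ^ (-sigC) * x ^ (-sigC))) := by
    refine le_of_mul_le_mul_right ?_ hr'
    calc (k : ℝ) * |((H * e : ℕ) : ℝ) * γ - L| * r'
        = k * (|((H * e : ℕ) : ℝ) * γ - L| * r') := by ring
      _ ≤ k * (4 * (x * (x ^ (-sigC) * x ^ (-sigC))) * e) :=
          mul_le_mul_of_nonneg_left h4 (Nat.cast_nonneg _)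
      _ = _ := by rw [hkR]; ring
  have e : ((H * q' : ℕ) : ℝ) * γ - (((H : ℤ) * n + (k : ℤ) * L : ℤ) : ℝ) =
      k * (((H * e : ℕ) : ℝ) * γ - L) - H * ((n : ℝ) + γ * ((r' : ℝ) - q')) := by
    rw [hkR]
    push_cast
    ring
  rw [e, e3]
  refine (abs_sub _ _).trans ?_
  rw [abs_mul, abs_mul, Nat.abs_cast, Nat.abs_cast]
  have hH := mul_le_mul h2 hn (abs_nonneg _) (by positivity)
  have hxWW : 0 ≤ x * (x ^ (-sigC) * x ^ (-sigC)) := by positivity
  nlinarith [mul_le_mul_of_nonneg_left h10 hxWW]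

/-- The largest product of two denominators, in terms of `W`. -/
theorem cast_mul_le_ebd {Λ x : ℝ} {Q R u v : ℕ} (hx : 0 < x) (h0 : x ≤ Real.exp (-(10 / sigC)))
    (hQR : (Q : ℝ) * R ≤ x ^ (-(2 + kapC)))
    (hu : (u : ℝ) ≤ Q * (x ^ (-sigC) * (x ^ (-sigC) * Real.exp (Λ ^ (9 / 10 : ℝ)))))
    (hv : (v : ℝ) ≤ R * (x ^ (-sigC) * (x ^ (-sigC) * Real.exp (Λ ^ (9 / 10 : ℝ))))) :
    ((u * v : ℕ) : ℝ) ≤ ebd Λ x := by
  obtain ⟨-, -, -, -, -, e4⟩ := gainMajor_powers hx h0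
  set W := x ^ (-sigC)
  set E := Real.exp (Λ ^ (9 / 10 : ℝ)) with hE
  have hW : 0 ≤ W := Real.rpow_nonneg hx.le _
  have hE0 : 0 ≤ E := (Real.exp_pos _).le
  rw [ebd, e4, two_mul (Λ ^ (9 / 10 : ℝ)), Real.exp_add, ← hE, Nat.cast_mul]
  calc (u : ℝ) * v ≤ Q * (W * (W * E)) * (R * (W * (W * E))) :=
        mul_le_mul hu hv (Nat.cast_nonneg _) (by positivity)
    _ = (Q : ℝ) * R * (W * (W * E) * (W * (W * E))) := by ring
    _ ≤ x ^ (-(2 + kapC)) * (W * (W * E) * (W * (W * E))) :=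
        mul_le_mul_of_nonneg_right hQR (by positivity)
    _ = _ := by ring

/-- `8 x W ^ 2` is below `1`. -/
theorem eight_mul_lt_one {x : ℝ} (hx : 0 < x) (h0 : x ≤ Real.exp (-(10 / sigC))) :
    8 * (x * (x ^ (-sigC) * x ^ (-sigC))) < 1 := by
  have e : x * (x ^ (-sigC) * x ^ (-sigC)) = Real.exp (Real.log x * (1 - 2 * sigC)) := by
    rw [Real.rpow_def_of_pos hx, ← Real.exp_add]
    conv_lhs => arg 1; rw [← Real.exp_log hx]
    rw [← Real.exp_add]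
    congr 1
    ring
  have hlog : Real.log x ≤ -(10 / sigC) := by
    have := Real.log_le_log hx h0
    rwa [Real.log_exp] at this
  have h : Real.log x * (1 - 2 * sigC) ≤ -10 := by
    norm_num [sigC] at hlog ⊢
    linarith
  have h8 : Real.exp (-10) ≤ 1 / 11 := by
    rw [Real.exp_neg, one_div]
    exact inv_anti₀ (by norm_num) (by linarith [Real.add_one_le_exp (10 : ℝ)])
  linarith [Real.exp_le_exp.2 h]

/-- The classification. -/
theorem exists_pairMajor_le :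
    ∃ x0 : ℝ, 0 < x0 ∧ ∀ (γ Λ x M : ℝ) (Q a d R b c : ℕ) (n : ℤ),
      0 ≤ Λ → 0 < x → x ≤ x0 → x ^ (-sigC) ≤ M →
      M ≤ max (x ^ (-sigC)) (Real.exp (Λ ^ (9 / 10 : ℝ))) →
      0 < Q → 0 < a → 0 < d → 0 < R → 0 < b → 0 < c → Nat.Coprime a d → Nat.Coprime c b →
      (Q : ℝ) * R ≤ x ^ (-(2 + kapC)) →
      ebd Λ x < ((Q * (a * d) : ℕ) : ℝ) * ((R * (c * b) : ℕ) : ℝ) →
      |(n : ℝ) + γ * (((R * (c * b) : ℕ) : ℝ) - ((Q * (a * d) : ℕ) : ℝ))| ≤ 4 * x →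
      (x ^ (-sigC) ≤ (a : ℝ) → Maj2 x (γ * (Q * d : ℕ)) a) →
      (x ^ (-sigC) ≤ (c : ℝ) → Maj2 x (γ * (R * b : ℕ)) c) →
      (M ≤ (d : ℝ) → Maj2 x (γ * (Q * a : ℕ)) d) →
      (M ≤ (b : ℝ) → Maj2 x (γ * (R * c : ℕ)) b) →
      PairMajor γ Λ x (Q * (a * d)) (R * (c * b)) := by
  refine ⟨Real.exp (-(10 / sigC)), Real.exp_pos _, ?_⟩
  intro γ Λ x M Q a d R b c n hΛ hx h0 _ hM hQ ha hd hR' hb hc had hcb hQR hbig hn
    hA hC hD hB
  obtain ⟨h10, hh, -, e1, -, -⟩ := gainMajor_powers hx h0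
  have hW1 : 1 ≤ x ^ (-sigC) := by linarith
  have hE1 : 1 ≤ Real.exp (Λ ^ (9 / 10 : ℝ)) := Real.one_le_exp (Real.rpow_nonneg hΛ _)
  have hWM := le_mul_of_one_le_right (zero_le_one.trans hW1) hE1
  have hM' := hM.trans (max_le hWM (le_mul_of_one_le_left (zero_le_one.trans hE1) hW1))
  have hup : ∀ {u Q' : ℕ}, (u : ℝ) ≤ Q' * (x ^ (-sigC) * Real.exp (Λ ^ (9 / 10 : ℝ))) →
      (u : ℝ) ≤ Q' * (x ^ (-sigC) * (x ^ (-sigC) * Real.exp (Λ ^ (9 / 10 : ℝ)))) := fun h =>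
    h.trans (mul_le_mul_of_nonneg_left
      (le_mul_of_one_le_left ((zero_le_one.trans hW1).trans hWM) hW1) (Nat.cast_nonneg _))
  rcases majorSide_or_small (M := M) hx.le hW1 (eight_mul_lt_one hx h0) hWM hd had hh e1 hM'
      hA hD with ⟨H, e, L, hs, he⟩ | hq <;>
    rcases majorSide_or_small (M := M) hx.le hW1 (eight_mul_lt_one hx h0) hWM hb hcb hh e1 hM'
      hC hB with ⟨H', e', L', hs', he'⟩ | hr
  · exact ⟨H, e, L, H', e', L', hs.sideData hx h0, hs'.sideData hx h0,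
      cast_mul_le_ebd hx h0 hQR (hup he) (hup he')⟩
  · have hswap : |((-n : ℤ) : ℝ) + γ * (((Q * (a * d) : ℕ) : ℝ) - ((R * (c * b) : ℕ) : ℝ))| ≤
        4 * x := by
      rw [← abs_neg, Int.cast_neg]
      refine le_of_eq_of_le ?_ hn
      congr 1
      ring
    obtain ⟨L', hs'⟩ := hs.transfer hx h0 (Nat.mul_pos hQ (Nat.mul_pos ha hd)) hswap
    exact ⟨H, e, L, H, _, L', hs.sideData hx h0, hs', cast_mul_le_ebd hx h0 hQR (hup he) hr⟩
  · obtain ⟨L, hs⟩ := hs'.transfer hx h0 (Nat.mul_pos hR' (Nat.mul_pos hc hb)) hn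
    exact ⟨H', _, L, H', e', L', hs, hs'.sideData hx h0, cast_mul_le_ebd hx h0 hQR hq (hup he')⟩
  · have := cast_mul_le_ebd hx h0 hQR hq hr
    rw [Nat.cast_mul] at this
    exact absurd this (not_le.2 hbig)

end Vale.Agent.P028.T2
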