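import Vale.Agent.P028.T2.StateClasses

/-!
The classes in which one of `a`, `c`, `d`, `b` is large and off the major arcs of its shift, and the
combined bound in a final state.
-/

noncomputable section

namespace Vale.Agent.P028.T2

open Finset
open scoped Classical

theorem minor_s_le {x α β : ℝ} {a : ℕ} (hx : 0 < x) (hx20 : x ≤ (2 : ℝ) ^ (-(20 : ℝ))) (ha : 0 < a)
    (T : Finset ℕ) (hT : ∀ c ∈ T, c ≤ a ∧ x ^ (-sigC) ≤ (c : ℝ) ∧ ¬ Maj2 x α c ∧
      ∃ n : ℤ, |(n : ℝ) + α * c - β| ≤ 4 * x) :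
    ∑ c ∈ T, ((a : ℝ) / c) ^ sT / a ≤ cMinor * x ^ sigC :=
  (exists_minor_up_s_le.choose_spec x α β a T hx hx20 ha hT).trans
    (mul_le_mul_of_nonneg_right ((le_max_left _ _).trans (le_max_right _ _)) (by positivity))

theorem minor_t_le {x α β : ℝ} {c : ℕ} (hx : 0 < x) (hx20 : x ≤ (2 : ℝ) ^ (-(20 : ℝ))) (hc : 0 < c)
    (T : Finset ℕ) (hT : ∀ a ∈ T, c ≤ a ∧ x ^ (-sigC) ≤ (a : ℝ) ∧ ¬ Maj2 x α a ∧
      ∃ n : ℤ, |(n : ℝ) + α * a - β| ≤ 4 * x) :
    ∑ a ∈ T, ((c : ℝ) / a) ^ tT / c ≤ cMinor * x ^ sigC :=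
  (exists_minor_up_t_le.choose_spec x α β c T hx hx20 hc hT).trans
    (mul_le_mul_of_nonneg_right
      ((le_max_left _ _).trans ((le_max_right _ _).trans (le_max_right _ _))) (by positivity))

theorem minor_down_le {x α β L : ℝ} {N : ℕ} (hx : 0 < x) (hx20 : x ≤ (2 : ℝ) ^ (-(20 : ℝ)))
    (hN : 0 < N) (hL : 1 ≤ L) (T : Finset ℕ) (hTN : T ⊆ N.divisors)
    (hT : ∀ d ∈ T, x ^ (-sigC) ≤ (d : ℝ) ∧ Real.log d ≤ L ∧ ¬ Maj2 x α d ∧
      ∃ n : ℤ, |(n : ℝ) + α * d - β| ≤ 4 * x) :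
    ∑ d ∈ T, (Nat.totient N : ℝ) / N / Nat.totient d ≤ cMinor * x ^ sigC * L ^ 2 :=
  (exists_minor_down_le.choose_spec x α β L N T hx hx20 hN hL hTN hT).trans
    (mul_le_mul_of_nonneg_right (mul_le_mul_of_nonneg_right
      ((le_max_right _ _).trans ((le_max_right _ _).trans (le_max_right _ _))) (by positivity))
      (by positivity))

section State

variable {γ x L M : ℝ} {ψ : ℕ → ℝ} {P S U V W : Finset ℕ} {i j k : ℕ → ℕ}

/-- The pair with `c` large and minor. -/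
def MinorUpC (γ : ℝ) (ψ : ℕ → ℝ) (x : ℝ) (P U : Finset ℕ) (i j k : ℕ → ℕ) (v w : ℕ) : Prop :=
  BaseT γ ψ x U k v w ∧ x ^ (-sigC) ≤ (upDev U k w : ℝ) ∧
    ¬ Maj2 x (γ * (fixedPart (P \ U) j i * downDev U k v : ℕ)) (upDev U k w)

/-- The pair with `a` large and minor. -/
def MinorUpA (γ : ℝ) (ψ : ℕ → ℝ) (x : ℝ) (P U : Finset ℕ) (i j k : ℕ → ℕ) (v w : ℕ) : Prop :=
  BaseT γ ψ x U k v w ∧ x ^ (-sigC) ≤ (upDev U k v : ℝ) ∧
    ¬ Maj2 x (γ * (fixedPart (P \ U) i j * downDev U k w : ℕ)) (upDev U k v)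

/-- The pair with `d` large and minor. -/
def MinorDownD (γ : ℝ) (ψ : ℕ → ℝ) (x L : ℝ) (P U : Finset ℕ) (i j k : ℕ → ℕ) (v w : ℕ) : Prop :=
  BaseT γ ψ x U k v w ∧ Real.log (qd v w) ≤ L ∧ x ^ (-sigC) ≤ (downDev U k w : ℝ) ∧
    ¬ Maj2 x (γ * (fixedPart (P \ U) i j * upDev U k v : ℕ)) (downDev U k w)

/-- The pair with `b` large and minor. -/
def MinorDownB (γ : ℝ) (ψ : ℕ → ℝ) (x L : ℝ) (P U : Finset ℕ) (i j k : ℕ → ℕ) (v w : ℕ) : Prop :=
  BaseT γ ψ x U k v w ∧ Real.log (qd w v) ≤ L ∧ x ^ (-sigC) ≤ (downDev U k v : ℝ) ∧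
    ¬ Maj2 x (γ * (fixedPart (P \ U) j i * upDev U k w : ℕ)) (downDev U k v)

theorem rpow_sig_le (hx : 0 < x) (hx1 : x ≤ 1) (hM : 1 ≤ M) :
    x ^ sigC ≤ M * x ^ (sigC / 2) :=
  (Real.rpow_le_rpow_of_exponent_ge hx hx1 (by norm_num [sigC])).trans
    (le_mul_of_one_le_left (by positivity) hM)

theorem rpow_sig_sq_le (hx : 0 < x) (hLM : L ^ 2 * x ^ (sigC / 2) ≤ M) :
    x ^ sigC * L ^ 2 ≤ M * x ^ (sigC / 2) := by
  have e : x ^ sigC = x ^ (sigC / 2) * x ^ (sigC / 2) := by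
    rw [← Real.rpow_add hx]; norm_num
  rw [e]
  nlinarith [mul_le_mul_of_nonneg_right hLM (Real.rpow_nonneg hx.le (sigC / 2))]

theorem minor_c_T2_le (h : FinState P S U V W i j) (hψ : ∀ q, 0 ≤ ψ q) (hx : 0 < x)
    (hx20 : x ≤ (2 : ℝ) ^ (-(20 : ℝ))) (hM : 1 ≤ M) :
    pairSum ψ V W (MinorUpC γ ψ x P U i j k) ≤ cClass * M * x ^ (1 + gainC) *
      stateT ψ S V W (fixedPart (P \ U) i j) (fixedPart (P \ U) j i) := by
  have hx1 : x ≤ 1 :=
    hx20.trans (Real.rpow_le_one_of_one_le_of_nonpos (by norm_num) (by norm_num))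
  refine gain_state_le (γ := γ) h hψ hx hx1 _ (fun _ _ _ _ hr => hr.1) hM (Or.inl fun v hv => ?_)
  refine (G1_by_down h _ (fun _ _ _ _ hr => hr.1.1) hv (cMinor * x ^ sigC)
    (mul_nonneg (zero_le_one.trans one_le_cMinor) (by positivity)) (fun d => ?_)).trans ?_
  · refine minor_s_le (α := γ * (fixedPart (P \ U) j i * downDev U k v : ℕ))
      (β := γ * (fixedPart (P \ U) i j * (upDev U k v * d) : ℕ)) hx hx20 (upPos h v) _
      fun c hc => ?_
    simp only [mem_image, mem_filter] at hc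
    obtain ⟨w, ⟨⟨hw, hr, hbig, hmaj⟩, rfl⟩, rfl⟩ := hc
    refine ⟨hr.2.1, hbig, hmaj, ?_⟩
    obtain ⟨e1, e2⟩ := qd_eq_of_finState h hv hw hr.1
    obtain ⟨n, hn⟩ := hr.2.2.2
    refine ⟨n, le_of_eq_of_le (congrArg abs ?_) hn⟩
    simp only [mdiff, e1, e2]; push_cast; ring
  · calc cBase * (cMinor * x ^ sigC) ≤ cBase * (cMinor * (M * x ^ (sigC / 2))) := by
          have := one_le_cBase
          have := one_le_cMinor
          gcongr
          exact rpow_sig_le hx hx1 hM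
      _ = _ := by ring

theorem minor_a_T2_le (h : FinState P S U V W i j) (hψ : ∀ q, 0 ≤ ψ q) (hx : 0 < x)
    (hx20 : x ≤ (2 : ℝ) ^ (-(20 : ℝ))) (hM : 1 ≤ M) :
    pairSum ψ V W (MinorUpA γ ψ x P U i j k) ≤ cClass * M * x ^ (1 + gainC) *
      stateT ψ S V W (fixedPart (P \ U) i j) (fixedPart (P \ U) j i) := by
  have hx1 : x ≤ 1 :=
    hx20.trans (Real.rpow_le_one_of_one_le_of_nonpos (by norm_num) (by norm_num))
  refine gain_state_le (γ := γ) h hψ hx hx1 _ (fun _ _ _ _ hr => hr.1) hM (Or.inr fun w hw => ?_)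
  refine (G2_by_down h _ (fun _ _ _ _ hr => hr.1.1) hw (cMinor * x ^ sigC)
    (mul_nonneg (zero_le_one.trans one_le_cMinor) (by positivity)) (fun d => ?_)).trans ?_
  · refine minor_t_le (α := γ * (fixedPart (P \ U) i j * downDev U k w : ℕ))
      (β := γ * (fixedPart (P \ U) j i * (upDev U k w * d) : ℕ)) hx hx20 (upPos h w) _
      fun c hc => ?_
    simp only [mem_image, mem_filter] at hc
    obtain ⟨v, ⟨⟨hv, hr, hbig, hmaj⟩, rfl⟩, rfl⟩ := hc
    refine ⟨hr.2.1, hbig, hmaj, ?_⟩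
    obtain ⟨e1, e2⟩ := qd_eq_of_finState h hv hw hr.1
    obtain ⟨n, hn⟩ := hr.2.2.2
    refine ⟨-n, le_of_eq_of_le ?_ hn⟩
    rw [← abs_neg]
    congr 1
    simp only [mdiff, e1, e2]; push_cast; ring
  · calc cBase * (cMinor * x ^ sigC) ≤ cBase * (cMinor * (M * x ^ (sigC / 2))) := by
          have := one_le_cBase
          have := one_le_cMinor
          gcongr
          exact rpow_sig_le hx hx1 hM
      _ = _ := by ring

theorem minor_d_T2_le (h : FinState P S U V W i j) (hψ : ∀ q, 0 ≤ ψ q) (hx : 0 < x)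
    (hx20 : x ≤ (2 : ℝ) ^ (-(20 : ℝ))) (hL : 1 ≤ L) (hM : 1 ≤ M)
    (hLM : L ^ 2 * x ^ (sigC / 2) ≤ M) :
    pairSum ψ V W (MinorDownD γ ψ x L P U i j k) ≤ cClass * M * x ^ (1 + gainC) *
      stateT ψ S V W (fixedPart (P \ U) i j) (fixedPart (P \ U) j i) := by
  have hx1 : x ≤ 1 :=
    hx20.trans (Real.rpow_le_one_of_one_le_of_nonpos (by norm_num) (by norm_num))
  refine gain_state_le (γ := γ) h hψ hx hx1 _ (fun _ _ _ _ hr => hr.1) hM (Or.inl fun v hv => ?_)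
  set T := W.filter (fun w => MinorDownD γ ψ x L P U i j k v w) with hT
  have hsum : ∑ c ∈ T.image (upDev U k), ((upDev U k v : ℝ) / c) ^ sT / upDev U k v ≤ cBase := by
    refine ratio_s_le (upPos h v) _ fun c hc => ?_
    simp only [hT, mem_image, mem_filter] at hc
    obtain ⟨w, ⟨-, hr, -⟩, rfl⟩ := hc
    exact ⟨upPos h w, hr.2.1⟩
  calc _ = ∑ w ∈ T, ((upDev U k v : ℝ) / upDev U k w) ^ sT / upDev U k v *
          ((Nat.totient (centre U k) : ℝ) / centre U k / Nat.totient (downDev U k w)) :=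
        sum_congr rfl fun _ _ => mul_comm _ _
    _ ≤ (∑ c ∈ T.image (upDev U k), ((upDev U k v : ℝ) / c) ^ sT / upDev U k v) *
          (cMinor * x ^ sigC * L ^ 2) := by
        refine sum_pairs_le (up := downDev U k) (down := upDev U k)
          (u := fun c => ((upDev U k v : ℝ) / c) ^ sT / upDev U k v)
          (f := fun d => (Nat.totient (centre U k) : ℝ) / centre U k / Nat.totient d)
          (fun w hw w' hw' he => (dev_injOn h).2.mono (coe_subset.2 (filter_subset _ _)) hw hw'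
            (Prod.ext (Prod.ext_iff.1 he).2 (Prod.ext_iff.1 he).1))
          (fun w hw => mem_image_of_mem _ hw) (fun c _ => by positivity) fun c _ => ?_
        refine minor_down_le (α := γ * (fixedPart (P \ U) i j * upDev U k v : ℕ))
          (β := γ * (fixedPart (P \ U) j i * (c * downDev U k v) : ℕ)) hx hx20 (centre_pos h)
          hL _ ?_ ?_
        · intro d hd
          simp only [hT, mem_image, mem_filter] at hd
          obtain ⟨w, ⟨⟨hw, hr, -⟩, -⟩, rfl⟩ := hd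
          exact Nat.mem_divisors.2 ⟨(centre_dvd_lcm h hv hw hr.1).2.2, (centre_pos h).ne'⟩
        · intro d hd
          simp only [hT, mem_image, mem_filter] at hd
          obtain ⟨w, ⟨⟨hw, hr, hlog, hbig, hmaj⟩, rfl⟩, rfl⟩ := hd
          obtain ⟨e1, e2⟩ := qd_eq_of_finState h hv hw hr.1
          refine ⟨hbig, le_trans ?_ hlog, hmaj, ?_⟩
          · refine Real.log_le_log (by exact_mod_cast downPos h w) ?_
            rw [e1]
            exact_mod_cast Nat.le_of_dvd (Nat.mul_pos (q1_pos h) (Nat.mul_pos (upPos h v)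
              (downPos h w))) ((dvd_mul_left _ _).trans (dvd_mul_left _ _))
          · obtain ⟨n, hn⟩ := hr.2.2.2
            refine ⟨-n, le_of_eq_of_le ?_ hn⟩
            rw [← abs_neg]
            congr 1
            simp only [mdiff, e1, e2]; push_cast; ring
    _ ≤ cBase * (cMinor * (M * x ^ (sigC / 2))) := by
        have := one_le_cBase
        have := one_le_cMinor
        rw [mul_assoc cMinor]
        refine mul_le_mul hsum (mul_le_mul_of_nonneg_left (rpow_sig_sq_le hx hLM) (by linarith))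
          (by positivity) (by linarith)
    _ = _ := by ring

theorem minor_b_T2_le (h : FinState P S U V W i j) (hψ : ∀ q, 0 ≤ ψ q) (hx : 0 < x)
    (hx20 : x ≤ (2 : ℝ) ^ (-(20 : ℝ))) (hL : 1 ≤ L) (hM : 1 ≤ M)
    (hLM : L ^ 2 * x ^ (sigC / 2) ≤ M) :
    pairSum ψ V W (MinorDownB γ ψ x L P U i j k) ≤ cClass * M * x ^ (1 + gainC) *
      stateT ψ S V W (fixedPart (P \ U) i j) (fixedPart (P \ U) j i) := by
  have hx1 : x ≤ 1 :=
    hx20.trans (Real.rpow_le_one_of_one_le_of_nonpos (by norm_num) (by norm_num))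
  refine gain_state_le (γ := γ) h hψ hx hx1 _ (fun _ _ _ _ hr => hr.1) hM (Or.inr fun w hw => ?_)
  set T := V.filter (fun v => MinorDownB γ ψ x L P U i j k v w) with hT
  have hsum : ∑ c ∈ T.image (upDev U k), ((upDev U k w : ℝ) / c) ^ tT / upDev U k w ≤ cBase := by
    refine ratio_t_le (upPos h w) _ fun c hc => ?_
    simp only [hT, mem_image, mem_filter] at hc
    obtain ⟨v, ⟨-, hr, -⟩, rfl⟩ := hc
    exact hr.2.1
  calc _ = ∑ v ∈ T, ((upDev U k w : ℝ) / upDev U k v) ^ tT / upDev U k w *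
          ((Nat.totient (centre U k) : ℝ) / centre U k / Nat.totient (downDev U k v)) :=
        sum_congr rfl fun _ _ => mul_comm _ _
    _ ≤ (∑ c ∈ T.image (upDev U k), ((upDev U k w : ℝ) / c) ^ tT / upDev U k w) *
          (cMinor * x ^ sigC * L ^ 2) := by
        refine sum_pairs_le (up := downDev U k) (down := upDev U k)
          (u := fun c => ((upDev U k w : ℝ) / c) ^ tT / upDev U k w)
          (f := fun d => (Nat.totient (centre U k) : ℝ) / centre U k / Nat.totient d)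
          (fun v hv v' hv' he => (dev_injOn h).1.mono (coe_subset.2 (filter_subset _ _)) hv hv'
            (Prod.ext (Prod.ext_iff.1 he).2 (Prod.ext_iff.1 he).1))
          (fun v hv => mem_image_of_mem _ hv) (fun c _ => by positivity) fun c _ => ?_
        refine minor_down_le (α := γ * (fixedPart (P \ U) j i * upDev U k w : ℕ))
          (β := γ * (fixedPart (P \ U) i j * (c * downDev U k w) : ℕ)) hx hx20 (centre_pos h)
          hL _ ?_ ?_
        · intro d hd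
          simp only [hT, mem_image, mem_filter] at hd
          obtain ⟨v, ⟨⟨hv, hr, -⟩, -⟩, rfl⟩ := hd
          exact Nat.mem_divisors.2 ⟨(centre_dvd_lcm h hv hw hr.1).2.1, (centre_pos h).ne'⟩
        · intro d hd
          simp only [hT, mem_image, mem_filter] at hd
          obtain ⟨v, ⟨⟨hv, hr, hlog, hbig, hmaj⟩, rfl⟩, rfl⟩ := hd
          obtain ⟨e1, e2⟩ := qd_eq_of_finState h hv hw hr.1
          refine ⟨hbig, le_trans ?_ hlog, hmaj, ?_⟩
          · refine Real.log_le_log (by exact_mod_cast downPos h v) ?_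
            rw [e2]
            exact_mod_cast Nat.le_of_dvd (Nat.mul_pos (r1_pos h) (Nat.mul_pos (upPos h w)
              (downPos h v))) ((dvd_mul_left _ _).trans (dvd_mul_left _ _))
          · obtain ⟨n, hn⟩ := hr.2.2.2
            refine ⟨n, le_of_eq_of_le (congrArg abs ?_) hn⟩
            simp only [mdiff, e1, e2]; push_cast; ring
    _ ≤ cBase * (cMinor * (M * x ^ (sigC / 2))) := by
        have := one_le_cBase
        have := one_le_cMinor
        rw [mul_assoc cMinor]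
        refine mul_le_mul hsum (mul_le_mul_of_nonneg_left (rpow_sig_sq_le hx hLM) (by linarith))
          (by positivity) (by linarith)
    _ = _ := by ring

/-- The slack pairs of the first kind. -/
def SlackW (γ : ℝ) (ψ : ℕ → ℝ) (x : ℝ) (U : Finset ℕ) (k : ℕ → ℕ) (v w : ℕ) : Prop :=
  BaseT γ ψ x U k v w ∧ ψ w * (qd v w : ℝ) ≤ x ^ (1 + slackC)

/-- The slack pairs of the second kind. -/
def SlackV (γ : ℝ) (ψ : ℕ → ℝ) (x : ℝ) (U : Finset ℕ) (k : ℕ → ℕ) (v w : ℕ) : Prop :=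
  BaseT γ ψ x U k v w ∧ ψ v * (qd w v : ℝ) ≤ x ^ (1 + slackC)

/-- One of the six classes of a final state with small fixed parts. -/
def GainCase (γ : ℝ) (ψ : ℕ → ℝ) (x L : ℝ) (P U : Finset ℕ) (i j k : ℕ → ℕ) (v w : ℕ) : Prop :=
  (SlackW γ ψ x U k v w ∨ SlackV γ ψ x U k v w) ∨
    (MinorUpC γ ψ x P U i j k v w ∨ MinorUpA γ ψ x P U i j k v w) ∨
      (MinorDownD γ ψ x L P U i j k v w ∨ MinorDownB γ ψ x L P U i j k v w)

theorem gainCase_le (h : FinState P S U V W i j) (hψ : ∀ q, 0 ≤ ψ q) (hx : 0 < x)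
    (hx20 : x ≤ (2 : ℝ) ^ (-(20 : ℝ))) (hL : 1 ≤ L) (hM : 1 ≤ M)
    (hLM : L ^ 2 * x ^ (sigC / 2) ≤ M) :
    pairSum ψ V W (GainCase γ ψ x L P U i j k) ≤ 6 * cClass * M * x ^ (1 + gainC) *
      stateT ψ S V W (fixedPart (P \ U) i j) (fixedPart (P \ U) j i) := by
  have hx1 : x ≤ 1 :=
    hx20.trans (Real.rpow_le_one_of_one_le_of_nonpos (by norm_num) (by norm_num))
  set T := cClass * M * x ^ (1 + gainC) *
    stateT ψ S V W (fixedPart (P \ U) i j) (fixedPart (P \ U) j i) with hT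
  have hmono : cClass * x ^ (1 + gainC) *
      stateT ψ S V W (fixedPart (P \ U) i j) (fixedPart (P \ U) j i) ≤ T := by
    rw [hT]
    refine mul_le_mul_of_nonneg_right (mul_le_mul_of_nonneg_right ?_ (by positivity))
      (stateT_nonneg hψ ..)
    exact le_mul_of_one_le_right (zero_le_one.trans one_le_cClass) hM
  have t1 : pairSum ψ V W (SlackW γ ψ x U k) ≤ T :=
    (slack_state_le (γ := γ) h hψ hx hx1 _ (fun _ _ _ _ hr => hr.1)
      (Or.inl fun _ _ _ _ hr => hr.2)).trans hmono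
  have t2 : pairSum ψ V W (SlackV γ ψ x U k) ≤ T :=
    (slack_state_le (γ := γ) h hψ hx hx1 _ (fun _ _ _ _ hr => hr.1)
      (Or.inr fun _ _ _ _ hr => hr.2)).trans hmono
  have t3 : pairSum ψ V W (MinorUpC γ ψ x P U i j k) ≤ T := minor_c_T2_le h hψ hx hx20 hM
  have t4 : pairSum ψ V W (MinorUpA γ ψ x P U i j k) ≤ T := minor_a_T2_le h hψ hx hx20 hM
  have t5 : pairSum ψ V W (MinorDownD γ ψ x L P U i j k) ≤ T :=
    minor_d_T2_le h hψ hx hx20 hL hM hLM
  have t6 : pairSum ψ V W (MinorDownB γ ψ x L P U i j k) ≤ T :=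
    minor_b_T2_le h hψ hx hx20 hL hM hLM
  have s : ∀ (R1 R2 : ℕ → ℕ → Prop), pairSum ψ V W (fun v w => R1 v w ∨ R2 v w) ≤
      pairSum ψ V W R1 + pairSum ψ V W R2 :=
    fun R1 R2 => pairSum_le_add hψ fun _ _ _ _ h => h
  have s1 := s (SlackW γ ψ x U k) (SlackV γ ψ x U k)
  have s2 := s (MinorUpC γ ψ x P U i j k) (MinorUpA γ ψ x P U i j k)
  have s3 := s (MinorDownD γ ψ x L P U i j k) (MinorDownB γ ψ x L P U i j k)
  have s23 := s (fun v w => MinorUpC γ ψ x P U i j k v w ∨ MinorUpA γ ψ x P U i j k v w)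
    (fun v w => MinorDownD γ ψ x L P U i j k v w ∨ MinorDownB γ ψ x L P U i j k v w)
  have s0 : pairSum ψ V W (GainCase γ ψ x L P U i j k) ≤ _ :=
    s (fun v w => SlackW γ ψ x U k v w ∨ SlackV γ ψ x U k v w) _
  rw [show 6 * cClass * M * x ^ (1 + gainC) *
    stateT ψ S V W (fixedPart (P \ U) i j) (fixedPart (P \ U) j i) = 6 * T by rw [hT]; ring]
  linarith

/-- A kernel supported on pairs which gain. -/
theorem kernel_state_le (h : FinState P S U V W i j) (hψ : ∀ q, 0 ≤ ψ q) (hx : 0 < x)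
    (hx20 : x ≤ (2 : ℝ) ^ (-(20 : ℝ))) (hL : 1 ≤ L) (hM : 1 ≤ M)
    (hLM : L ^ 2 * x ^ (sigC / 2) ≤ M) (K : ℕ → ℕ → ℝ) (hK1 : ∀ v w, K v w ≤ 1)
    (hK : ∀ v ∈ V, ∀ w ∈ W, K v w ≠ 0 → BaseT γ ψ x U k v w ∧
      (x ^ (-(2 + kapC)) < (fixedPart (P \ U) i j : ℝ) * (fixedPart (P \ U) j i : ℝ) ∨
        GainCase γ ψ x L P U i j k v w)) :
    ∑ v ∈ V, ∑ w ∈ W, K v w * (wt ψ v * wt ψ w) ≤ 6 * cClass * M * x ^ (1 + gainC) *
      stateT ψ S V W (fixedPart (P \ U) i j) (fixedPart (P \ U) j i) := by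
  set Rel : ℕ → ℕ → Prop := fun v w => K v w ≠ 0 ∧ v ∈ V ∧ w ∈ W with hRel
  have hle : ∑ v ∈ V, ∑ w ∈ W, K v w * (wt ψ v * wt ψ w) ≤ pairSum ψ V W Rel := by
    refine sum_le_sum fun v hv => sum_le_sum fun w hw => ?_
    have hp : 0 ≤ wt ψ v * wt ψ w := mul_nonneg (wt_nonneg hψ v) (wt_nonneg hψ w)
    by_cases hz : K v w = 0
    · rw [hz, zero_mul]; split_ifs <;> first | exact hp | exact le_rfl
    · rw [if_pos (show Rel v w from ⟨hz, hv, hw⟩)]
      exact mul_le_of_le_one_left hp (hK1 v w)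
  refine hle.trans ?_
  have hx1 : x ≤ 1 :=
    hx20.trans (Real.rpow_le_one_of_one_le_of_nonpos (by norm_num) (by norm_num))
  by_cases hQR : x ^ (-(2 + kapC)) <
      (fixedPart (P \ U) i j : ℝ) * (fixedPart (P \ U) j i : ℝ)
  · refine (spare_state_le (γ := γ) (k := k) h hψ hx hx1 Rel
      (fun v hv w hw hr => (hK v hv w hw hr.1).1) hQR).trans ?_
    refine mul_le_mul_of_nonneg_right (mul_le_mul_of_nonneg_right ?_ (by positivity))
      (stateT_nonneg hψ ..)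
    nlinarith [one_le_cClass]
  · refine le_trans ?_ (gainCase_le (γ := γ) (k := k) h hψ hx hx20 hL hM hLM)
    refine sum_le_sum fun v hv => sum_le_sum fun w hw => ?_
    have hp : 0 ≤ wt ψ v * wt ψ w := mul_nonneg (wt_nonneg hψ v) (wt_nonneg hψ w)
    by_cases hr : Rel v w
    · rw [if_pos hr, if_pos ((hK v hv w hw hr.1).2.resolve_left hQR)]
    · rw [if_neg hr]; split_ifs <;> first | exact hp | exact le_rfl

end State

end Vale.Agent.P028.T2
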