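import Vale.Agent.P028.T2.State
import Vale.Agent.P028.T2.GainMajor
import Vale.Agent.P028.T2.StateMinor

/-!
The gain between two windows.

In a final state a pair either has slack in a radius, or is tight; a tight pair has
`q' r' ≥ x ^ (2 + 2 slack) exp (Λ + Λ')`, which exceeds `ebd`, so by the classification of the major
variables one of `a`, `c`, `d`, `b` is large and minor.  As `log q', log r' ≤ 3 Λ'` and
`√Λ' ≤ 100 log (1 / x)`, the logarithm lost by `d` and `b` is absorbed.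
-/

noncomputable section

namespace Vale.Agent.P028.T2

open Finset
open scoped Classical

/-- The upward and downward deviations of a pair without common deviation are coprime. -/
theorem coprime_up_down {P S U V W : Finset ℕ} {i j k : ℕ → ℕ} (h : FinState P S U V W i j)
    {v w : ℕ} (hk : NoCoDev U k v w) : Nat.Coprime (upDev U k v) (downDev U k w) := by
  refine Nat.coprime_of_dvd fun p hp h1 h2 => ?_
  have e1 := hp.factorization_pos_of_dvd (upDev_pos h.prime_U k v).ne' h1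
  have e2 := hp.factorization_pos_of_dvd (downDev_pos h.prime_U k w).ne' h2
  rw [upDev, BilinearAux.factorization_prodPow h.prime_U] at e1
  rw [downDev, BilinearAux.factorization_prodPow h.prime_U] at e2
  split_ifs at e1 e2 with hpU
  · rcases hk p hpU with e | e <;> omega
  · omega

/-- The logarithms lost between two windows are absorbed by a power of `x`. -/
theorem exists_sq_mul_rpow_le :
    ∃ M : ℝ, 1 ≤ M ∧ ∀ t x : ℝ, 0 ≤ t → 0 < x → x ≤ Real.exp (-(Real.sqrt t / 100)) →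
      (3 * t) ^ 2 * x ^ (sigC / 2) ≤ M := by
  set c : ℝ := sigC / 200 with hc
  have hc0 : 0 < c := by norm_num [hc, sigC]
  refine ⟨max 1 (9 * 24 / c ^ 4), le_max_left _ _, fun t x ht hx hxt => ?_⟩
  set s := Real.sqrt t with hs
  have hs0 : 0 ≤ s := Real.sqrt_nonneg t
  have hts : t = s ^ 2 := (Real.sq_sqrt ht).symm
  have hx' : x ^ (sigC / 2) ≤ Real.exp (-(c * s)) := by
    refine (Real.rpow_le_rpow hx.le hxt (by norm_num [sigC])).trans_eq ?_
    rw [← Real.exp_mul, hc]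
    ring_nf
  have h4 : (c * s) ^ 4 ≤ 24 * Real.exp (c * s) := by
    have := Real.pow_div_factorial_le_exp (c * s) (mul_nonneg hc0.le hs0) 4
    norm_num [Nat.factorial] at this
    linarith
  refine le_trans ?_ (le_max_right _ _)
  calc (3 * t) ^ 2 * x ^ (sigC / 2) ≤ (3 * t) ^ 2 * Real.exp (-(c * s)) :=
        mul_le_mul_of_nonneg_left hx' (sq_nonneg _)
    _ = 9 * ((c * s) ^ 4 * Real.exp (-(c * s))) / c ^ 4 := by
        rw [hts]; field_simp; ring
    _ ≤ 9 * (24 * Real.exp (c * s) * Real.exp (-(c * s))) / c ^ 4 := by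
        gcongr
    _ = 9 * 24 / c ^ 4 := by
        rw [mul_assoc, ← Real.exp_add, add_neg_cancel, Real.exp_zero, mul_one]

/-- A tight pair of two windows has large quotients. -/
theorem ebd_lt_of_tight {Λ Λ' x pv pw q' r' : ℝ} (hΛ : 1 ≤ Λ) (hΛ' : 1000 * Λ ≤ Λ')
    (hxlo : Real.exp (-(2 * Λ)) ≤ x) (hpvw : pv * pw ≤ Real.exp (-(Λ + Λ')))
    (hq0 : 0 ≤ q') (hr0 : 0 ≤ r')
    (hq : x ^ (1 + slackC) ≤ pw * q') (hr : x ^ (1 + slackC) ≤ pv * r') :
    ebd Λ x < q' * r' := by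
  have hx : 0 < x := (Real.exp_pos _).trans_le hxlo
  have hlog : -(2 * Λ) ≤ Real.log x := by
    rw [Real.le_log_iff_exp_le hx]; exact hxlo
  have h1 : x ^ (2 + 2 * slackC) ≤ Real.exp (-(Λ + Λ')) * (q' * r') := by
    rw [show (2 : ℝ) + 2 * slackC = (1 + slackC) + (1 + slackC) by ring, Real.rpow_add hx]
    calc x ^ (1 + slackC) * x ^ (1 + slackC) ≤ pw * q' * (pv * r') :=
          mul_le_mul hq hr (by positivity) (le_trans (by positivity) hq)
      _ = pv * pw * (q' * r') := by ring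
      _ ≤ _ := mul_le_mul_of_nonneg_right hpvw (by positivity)
  have hpow : Λ ^ (9 / 10 : ℝ) ≤ Λ :=
    Real.rpow_le_self_of_one_le hΛ (by norm_num)
  have h2 : ebd Λ x * Real.exp (-(Λ + Λ')) < x ^ (2 + 2 * slackC) := by
    rw [ebd, Real.rpow_def_of_pos hx, Real.rpow_def_of_pos hx, ← Real.exp_add, ← Real.exp_add,
      Real.exp_lt_exp]
    norm_num [kapC, sigC, slackC]
    nlinarith
  have h3 := h2.trans_le h1
  rw [mul_comm (ebd Λ x)] at h3
  exact lt_of_mul_lt_mul_left h3 (Real.exp_pos _).le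

/-- The bad pairs between two windows gain a power of `x`, down to `exp (-2 Λ)`. -/
theorem exists_gainCross_le :
    ∃ C lam0 : ℝ, ∀ P : Sys, P.Ok lam0 → ∀ S : Finset ℕ, S ⊆ P.S →
      ∀ Λ Λ' : ℝ, 1000 * Λ ≤ Λ' → (∀ q ∈ S, P.lam q = Λ ∨ P.lam q = Λ') → ∀ x : ℝ,
      Real.exp (-(2 * Λ)) ≤ x → x ≤ Real.exp (-(Real.sqrt Λ' / 100)) →
      ∑ v ∈ S, ∑ w ∈ S.filter (fun w => P.lam v ≠ P.lam w ∧ BadPair P.γ P.ψ Λ x v w),
          wt P.ψ v * wt P.ψ w ≤
        C * (mass P.ψ S + mass P.ψ S ^ 2) * x ^ (1 + gainC) := by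
  obtain ⟨Cs, hCs⟩ := exists_symm_split_le
  obtain ⟨x0, hx0, hmajor⟩ := exists_pairMajor_le
  obtain ⟨M, hM1, hM⟩ := exists_sq_mul_rpow_le
  set K0 : ℝ := max 20 (-Real.log x0) with hK0
  refine ⟨max 0 (Cs * (6 * cClass * M)), max 1 (10000 * K0 ^ 2),
    fun P hP S hS Λ Λ' hΛΛ' hlam x hxlo hxhi => ?_⟩
  have hx : 0 < x := (Real.exp_pos _).trans_le hxlo
  have hmS := mass_nonneg hP.nonneg S
  by_cases hex : ∃ v ∈ S, ∃ w ∈ S, P.lam v ≠ P.lam w
  swap
  · refine le_of_eq_of_le (sum_eq_zero fun v hv => ?_) (by positivity)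
    refine sum_eq_zero fun w hw => absurd ⟨v, hv, w, (mem_filter.1 hw).1, (mem_filter.1 hw).2.1⟩ hex
  obtain ⟨v0, hv0, w0, hw0, hne0⟩ := hex
  have hlam0 : max 1 (10000 * K0 ^ 2) ≤ Λ ∧ max 1 (10000 * K0 ^ 2) ≤ Λ' := by
    rcases hlam v0 hv0 with e | e <;> rcases hlam w0 hw0 with e' | e'
    · exact absurd (e.trans e'.symm) hne0
    · exact ⟨e ▸ hP.lam_ge v0 (hS hv0), e' ▸ hP.lam_ge w0 (hS hw0)⟩
    · exact ⟨e' ▸ hP.lam_ge w0 (hS hw0), e ▸ hP.lam_ge v0 (hS hv0)⟩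
    · exact absurd (e.trans e'.symm) hne0
  have hΛ1 : 1 ≤ Λ := (le_max_left _ _).trans hlam0.1
  have hΛ'1 : 1 ≤ Λ' := (le_max_left _ _).trans hlam0.2
  have hxK : x ≤ Real.exp (-K0) := by
    refine hxhi.trans (Real.exp_le_exp.2 (neg_le_neg ?_))
    rw [le_div_iff₀ (by norm_num)]
    have h100 := (le_max_right _ _).trans hlam0.2
    exact Real.le_sqrt_of_sq_le (le_trans (le_of_eq (by ring)) h100)
  have hx20 : x ≤ (2 : ℝ) ^ (-(20 : ℝ)) := by
    refine hxK.trans ?_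
    rw [Real.rpow_def_of_pos (by norm_num)]
    refine Real.exp_le_exp.2 ?_
    have := le_max_left 20 (-Real.log x0)
    nlinarith [Real.log_two_lt_d9]
  have hxx0 : x ≤ x0 := by
    refine hxK.trans ((Real.exp_le_exp.2 ?_).trans_eq (Real.exp_log hx0))
    linarith [le_max_right 20 (-Real.log x0)]
  have hx1 : x ≤ 1 :=
    hx20.trans (Real.rpow_le_one_of_one_le_of_nonpos (by norm_num) (by norm_num))
  have hx2 : 2 * x ≤ 1 := by
    have h : (2 : ℝ) ^ (-(20 : ℝ)) ≤ (2 : ℝ) ^ (-(1 : ℝ)) :=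
      Real.rpow_le_rpow_of_exponent_le (by norm_num) (by norm_num)
    have h' := hx20.trans h
    rw [Real.rpow_neg_one] at h'
    linarith
  have hLM := hM Λ' x (by linarith) hx hxhi
  have hL1 : 1 ≤ 3 * Λ' := by linarith
  set G : ℝ := 6 * cClass * M * x ^ (1 + gainC) with hG
  have hG0 : 0 ≤ G := by
    have := one_le_cClass
    rw [hG]; positivity
  set R : ℕ → ℕ → Prop := fun v w => P.lam v ≠ P.lam w ∧ BadPair P.γ P.ψ Λ x v w with hR
  refine le_trans (le_trans ?_ (hCs P.ψ S R G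
    (fun q hq => hP.pos q (hS hq)) hP.nonneg (fun v w hr => ⟨hr.1.symm, hr.2.symm⟩) hG0 ?_)) ?_
  · refine le_of_eq (sum_congr rfl fun v _ => sum_congr ?_ fun _ _ => rfl)
    ext w
    simp only [mem_filter, hR]
  swap
  · calc Cs * G * (mass P.ψ S + mass P.ψ S ^ 2)
        = Cs * (6 * cClass * M) * (mass P.ψ S + mass P.ψ S ^ 2) * x ^ (1 + gainC) := by
          rw [hG]; ring
      _ ≤ _ := by gcongr; exact le_max_right _ _
  intro Pr U V W i j k K hst _ hK1 hKsupp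
  refine (kernel_state_le (γ := P.γ) (k := k) hst hP.nonneg hx hx20 hL1 hM1 hLM K hK1
    fun v hv w hw hne => ?_).trans_eq ?_
  swap
  · rw [stateT, hG]; ring
  obtain ⟨⟨hlne, hvw, hD, ⟨n, hn⟩, hnot⟩, hk, hup⟩ := hKsupp v w hne
  have hbase : BaseT P.γ P.ψ x U k v w := ⟨hk, hup, hD, n, hn⟩
  refine ⟨hbase, ?_⟩
  by_contra hc
  obtain ⟨hQR, hcase⟩ := not_or.1 hc
  simp only [GainCase, SlackW, SlackV, MinorUpC, MinorUpA, MinorDownD, MinorDownB, hbase,
    true_and, not_or, not_le, not_lt, not_and, not_not] at hQR hcase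
  obtain ⟨⟨hsw, hsv⟩, ⟨hmc, hma⟩, hmd, hmb⟩ := hcase
  have hvS := hS (hst.V_sub hv)
  have hwS := hS (hst.W_sub hw)
  obtain ⟨hq', hr'⟩ := pair_pos hst hv hw
  have hlog : ∀ {a : ℕ} {q : ℕ}, a ∈ S → 0 < q → P.ψ a * (q : ℝ) ≤ 2 * x →
      Real.log q ≤ 3 * Λ' := by
    intro a q ha hq hcap
    have hla : P.lam a ≤ Λ' := by
      rcases hlam a ha with e | e <;> linarith
    have h1 : Real.exp (-(rhoC * P.lam a)) * (q : ℝ) ≤ 1 :=
      ((mul_le_mul_of_nonneg_right (hP.le_psi a (hS ha)) (Nat.cast_nonneg q)).trans hcap).trans hx2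
    have h2 : (q : ℝ) ≤ Real.exp (3 * Λ') := by
      rw [Real.exp_neg, inv_mul_le_iff₀ (Real.exp_pos _), mul_one] at h1
      refine h1.trans (Real.exp_le_exp.2 ?_)
      norm_num [rhoC]
      linarith
    exact (Real.log_le_log (by exact_mod_cast hq) h2).trans_eq (Real.log_exp _)
  have hlogq := hlog (hst.W_sub hw) hq' hbase.caps.1
  have hlogr := hlog (hst.V_sub hv) hr' hbase.caps.2
  have htight : Tight P.ψ x v w := ⟨hsw.le, hsv.le⟩
  have hsum : P.lam v + P.lam w = Λ + Λ' := by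
    rcases hlam v (hst.V_sub hv) with e | e <;> rcases hlam w (hst.W_sub hw) with e' | e'
    · exact absurd (e.trans e'.symm) hlne
    · rw [e, e']
    · rw [e, e', add_comm]
    · exact absurd (e.trans e'.symm) hlne
  have hpvw : P.ψ v * P.ψ w ≤ Real.exp (-(Λ + Λ')) := by
    rw [← hsum, neg_add, Real.exp_add]
    exact mul_le_mul (hP.psi_le v hvS) (hP.psi_le w hwS) (hP.nonneg w) (Real.exp_pos _).le
  have hbig := ebd_lt_of_tight hΛ1 hΛΛ' hxlo hpvw (Nat.cast_nonneg _) (Nat.cast_nonneg _)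
    htight.1 htight.2
  obtain ⟨e1, e2⟩ := qd_eq_of_finState hst hv hw hk
  refine hnot ⟨htight, ?_⟩
  rw [e1, e2]
  refine hmajor P.γ Λ x (x ^ (-sigC)) _ _ _ _ _ _ n (by linarith) hx hxx0 le_rfl
    (le_max_left _ _) (q1_pos hst) (upPos hst v) (downPos hst w) (r1_pos hst) (downPos hst v)
    (upPos hst w) (coprime_up_down hst hk)
    (coprime_up_down hst fun p hp => (hk p hp).symm) hQR ?_ ?_ hma hmc (hmd hlogq) (hmb hlogr)
  · rw [← e1, ← e2]; exact_mod_cast hbig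
  · refine le_of_eq_of_le (congrArg abs ?_) hn
    simp only [mdiff, e1, e2]; push_cast; ring

end Vale.Agent.P028.T2
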