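import Vale.Agent.P028.T2.Defs
import Vale.Agent.P028.NumberLemmas
import Vale.Agent.P028.BilinearAux
import Vale.Agent.P028.SameWindow.Factors
import Vale.Agent.P028.Main

/-!
Elementary estimates for the second stage of P028.
-/

noncomputable section

namespace Vale.Agent.P028.T2

open Finset

/-- `q / φ(q) = ∏ p / (p - 1)`. -/
theorem div_totient_eq_prod (q : ℕ) (hq : 0 < q) :
    (q : ℝ) / Nat.totient q = ∏ p ∈ q.primeFactors, ratio p := by
  have h : (Nat.totient q : ℝ) * ∏ p ∈ q.primeFactors, (p : ℝ) =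
      (q : ℝ) * ∏ p ∈ q.primeFactors, ((p : ℝ) - 1) := by
    have := congrArg (fun x : ℕ => (x : ℝ)) (Nat.totient_mul_prod_primeFactors q)
    push_cast at this
    rw [this]
    congr 1
    refine Finset.prod_congr rfl fun p hp => ?_
    rw [Nat.cast_sub (Nat.prime_of_mem_primeFactors hp).one_le]
    simp
  have hpos : (0 : ℝ) < ∏ p ∈ q.primeFactors, ((p : ℝ) - 1) := Finset.prod_pos fun p hp => by
    have : (2 : ℝ) ≤ p := by exact_mod_cast (Nat.prime_of_mem_primeFactors hp).two_le
    linarith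
  unfold ratio
  rw [Finset.prod_div_distrib, div_eq_div_iff (by exact_mod_cast (Nat.totient_pos.mpr hq).ne')
    hpos.ne']
  linarith

/-- A product of ratios over `k` different integers at least `2` is at most `k + 1`. -/
theorem prod_ratio_le_card_add_one (s : Finset ℕ) (hs : ∀ p ∈ s, 2 ≤ p) :
    ∏ p ∈ s, ratio p ≤ (s.card : ℝ) + 1 := by
  induction hk : s.card generalizing s with
  | zero => simp [Finset.card_eq_zero.1 hk]
  | succ k ih =>
    have hne : s.Nonempty := Finset.card_pos.1 (by omega)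
    set m := s.max' hne with hm
    have hmem : m ∈ s := s.max'_mem hne
    have hsub : s ⊆ Finset.Icc 2 m := fun p hp => Finset.mem_Icc.2 ⟨hs p hp, s.le_max' p hp⟩
    have hcard := Finset.card_le_card hsub
    rw [Nat.card_Icc] at hcard
    have hmk : k + 2 ≤ m := by omega
    have hrec := ih (s.erase m) (fun p hp => hs p (Finset.mem_of_mem_erase hp))
      (by rw [Finset.card_erase_of_mem hmem]; omega)
    rw [← Finset.mul_prod_erase s ratio hmem]
    have hk0 : (0 : ℝ) ≤ k := Nat.cast_nonneg k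
    have hm2 : (k : ℝ) + 2 ≤ m := by exact_mod_cast hmk
    have hr : ratio m ≤ ((k : ℝ) + 2) / ((k : ℝ) + 1) := by
      rw [ratio, div_le_div_iff₀ (by linarith) (by linarith)]
      nlinarith
    calc ratio m * ∏ p ∈ s.erase m, ratio p ≤ ((k : ℝ) + 2) / ((k : ℝ) + 1) * ((k : ℝ) + 1) :=
          mul_le_mul hr hrec (Finset.prod_nonneg fun p hp => by
            have : (2 : ℝ) ≤ p := by exact_mod_cast hs p (Finset.mem_of_mem_erase hp)
            exact div_nonneg (by linarith) (by linarith)) (by positivity)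
      _ = ((k + 1 : ℕ) : ℝ) + 1 := by
          push_cast
          field_simp
          ring

/-- `p / (p - 1) ≤ exp (2 / p)`. -/
theorem ratio_le_exp {p : ℕ} (hp : 2 ≤ p) : ratio p ≤ Real.exp (2 * (1 / p)) := by
  have h : (2 : ℝ) ≤ p := by exact_mod_cast hp
  have h' : (0 : ℝ) < (p : ℝ) - 1 := by linarith
  refine le_trans ?_ (Real.add_one_le_exp _)
  rw [ratio, div_le_iff₀ h', show (2 * (1 / (p : ℝ)) + 1) * (p - 1) = (2 + p) * (p - 1) / p by
    field_simp, le_div_iff₀ (by linarith)]
  nlinarith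

/-- Chebyshev with the constant `2`: the primes of a dyadic range. -/
theorem sum_inv_prime_dyadic_le_two (j : ℕ) (hj : 1 ≤ j) :
    ∑ p ∈ (Finset.Ioc (2 ^ j) (2 ^ (j + 1))).filter Nat.Prime, (1 : ℝ) / p ≤ 2 / j := by
  set S := (Finset.Ioc (2 ^ j) (2 ^ (j + 1))).filter Nat.Prime with hS
  set n := 2 ^ j with hn
  have hn0 : 0 < n := pow_pos two_pos j
  have h2n : 2 ^ (j + 1) = n + n := by rw [hn, pow_succ]; ring
  have h1 : ∏ p ∈ S, p ≤ 2 ^ (n + n) := by
    have hle := primorial_add_le (m := n) (n := n) le_rfl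
    have hsplit : primorial n * ∏ p ∈ S, p = primorial (n + n) := by
      unfold primorial
      rw [← Finset.prod_union]
      · refine Finset.prod_congr ?_ fun _ _ => rfl
        ext p
        simp only [hS, h2n, Finset.mem_union, Finset.mem_filter, Finset.mem_range, Finset.mem_Ioc]
        constructor
        · rintro (⟨h, h'⟩ | ⟨⟨h, h'⟩, hp⟩)
          · exact ⟨by omega, h'⟩
          · exact ⟨by omega, hp⟩
        · rintro ⟨h, hp⟩
          rcases Nat.lt_or_ge p (n + 1) with h' | h'
          · exact .inl ⟨h', hp⟩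
          · exact .inr ⟨⟨by omega, by omega⟩, hp⟩
      · refine Finset.disjoint_left.2 fun p hp hp' => ?_
        simp only [hS, Finset.mem_filter, Finset.mem_range, Finset.mem_Ioc] at hp hp'
        omega
    rw [← hsplit] at hle
    exact (Nat.le_of_mul_le_mul_left hle (primorial_pos n)).trans (Nat.choose_le_two_pow _ _)
  have h2 : n ^ S.card ≤ ∏ p ∈ S, p := by
    refine Finset.pow_card_le_prod S _ _ fun p hp => ?_
    rw [hS, Finset.mem_filter, Finset.mem_Ioc] at hp
    omega
  have h3 : j * S.card ≤ n + n := by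
    have h5 := h2.trans h1
    rw [hn, ← pow_mul] at h5
    exact (Nat.pow_le_pow_iff_right (by norm_num)).mp h5
  calc ∑ p ∈ S, (1 : ℝ) / p ≤ ∑ _p ∈ S, (1 : ℝ) / (n : ℝ) := by
        refine Finset.sum_le_sum fun p hp => ?_
        rw [hS, Finset.mem_filter, Finset.mem_Ioc] at hp
        exact one_div_le_one_div_of_le (by exact_mod_cast hn0) (by exact_mod_cast hp.1.1.le)
    _ = (S.card : ℝ) / n := by rw [Finset.sum_const, nsmul_eq_mul, mul_one_div]
    _ ≤ 2 / j := by
        rw [div_le_div_iff₀ (by exact_mod_cast hn0) (by exact_mod_cast hj)]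
        have h6 : ((j * S.card : ℕ) : ℝ) ≤ ((n + n : ℕ) : ℝ) := by exact_mod_cast h3
        push_cast at h6
        linarith

/-- `∏ p / (p - 1) ≤ C b ^ 2` over the primes up to `2 ^ b`. -/
theorem prod_ratio_two_pow_le {b : ℕ} (hb : 1 ≤ b) :
    ∏ p ∈ (Finset.range (2 ^ b + 1)).filter Nat.Prime, ratio p ≤
      2 * Real.exp 3 * (b : ℝ) ^ 2 := by
  set S := (Finset.Ioc (2 ^ 1) (2 ^ b)).filter Nat.Prime with hS
  have hsub : (Finset.range (2 ^ b + 1)).filter Nat.Prime ⊆ insert 2 S := by
    intro p hp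
    simp only [hS, Finset.mem_insert, Finset.mem_filter, Finset.mem_range, Finset.mem_Ioc] at hp ⊢
    rcases eq_or_lt_of_le hp.2.two_le with h | h
    · exact .inl h.symm
    · exact .inr ⟨⟨by simpa using h, by omega⟩, hp.2⟩
  have hS2 : ∀ p ∈ S, 2 ≤ p := fun p hp => (Finset.mem_filter.1 hp).2.two_le
  have hdy : ∀ b : ℕ, 1 ≤ b → ∑ p ∈ (Finset.Ioc (2 ^ 1) (2 ^ b)).filter Nat.Prime, (1 : ℝ) / p ≤
      ∑ j ∈ Finset.Ico 1 b, 2 / (j : ℝ) := by
    intro b hb
    induction b, hb using Nat.le_induction with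
    | base => simp
    | succ b hb ih =>
      rw [Finset.sum_Ico_succ_top hb, ← Finset.Ioc_union_Ioc_eq_Ioc
        (Nat.pow_le_pow_right (by norm_num) hb)
        (Nat.pow_le_pow_right (by norm_num) (Nat.le_succ b)), Finset.filter_union, Finset.sum_union]
      · exact add_le_add ih (sum_inv_prime_dyadic_le_two b hb)
      · refine Finset.disjoint_left.mpr fun p hp hp' => ?_
        rw [Finset.mem_filter, Finset.mem_Ioc] at hp hp'
        omega
  have hharm : ∑ j ∈ Finset.Ico 1 b, 2 / (j : ℝ) ≤ 2 + 2 * Real.log b := by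
    have h1 : ∑ j ∈ Finset.Ico 1 b, 2 / (j : ℝ) ≤ ∑ j ∈ Finset.Icc 1 b, 2 / (j : ℝ) :=
      Finset.sum_le_sum_of_subset_of_nonneg Finset.Ico_subset_Icc_self fun _ _ _ => by positivity
    have h2 : ((harmonic b : ℚ) : ℝ) = ∑ j ∈ Finset.Icc 1 b, ((j : ℝ))⁻¹ := by
      rw [harmonic_eq_sum_Icc]; push_cast; rfl
    have h3 := harmonic_le_one_add_log b
    rw [h2] at h3
    simp only [div_eq_mul_inv, ← Finset.mul_sum] at h1 ⊢
    linarith
  have hexp : ∏ p ∈ S, ratio p ≤ Real.exp (3 + 2 * Real.log b) := by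
    calc ∏ p ∈ S, ratio p ≤ ∏ p ∈ S, Real.exp (1 / (p : ℝ) + 1 / (((p : ℝ) - 1) * p)) := by
          refine Finset.prod_le_prod (fun p hp => zero_le_one.trans (LoHi.one_le_ratio (hS2 p hp)))
            fun p hp => ?_
          have h : (2 : ℝ) ≤ p := by exact_mod_cast hS2 p hp
          have h' : (0 : ℝ) < (p : ℝ) - 1 := by linarith
          refine le_trans (le_of_eq ?_) (Real.add_one_le_exp _)
          rw [ratio]
          field_simp
          ring
      _ ≤ _ := by
          rw [← Real.exp_sum, Real.exp_le_exp, Finset.sum_add_distrib]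
          have h1 := LoHi.sum_inv_sub_one_mul_le (2 ^ b) S fun p hp =>
            ⟨hS2 p hp, (Finset.mem_Ioc.1 (Finset.mem_filter.1 hp).1).2⟩
          have h2 := hdy b hb
          rw [← hS] at h2
          linarith
  have hb0 : (0 : ℝ) < b := by exact_mod_cast hb
  calc ∏ p ∈ (Finset.range (2 ^ b + 1)).filter Nat.Prime, ratio p ≤ ∏ p ∈ insert 2 S, ratio p :=
        LoHi.prod_ratio_mono hsub fun p hp => by
          rcases Finset.mem_insert.1 hp with rfl | h
          · exact Nat.prime_two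
          · exact (Finset.mem_filter.1 h).2
    _ = ratio 2 * ∏ p ∈ S, ratio p := Finset.prod_insert (by simp [hS])
    _ ≤ 2 * Real.exp (3 + 2 * Real.log b) := mul_le_mul (le_of_eq (by norm_num [ratio])) hexp
        (Finset.prod_nonneg fun p hp => zero_le_one.trans (LoHi.one_le_ratio (hS2 p hp)))
        (by norm_num)
    _ = _ := by
        rw [Real.exp_add, show 2 * Real.log b = Real.log ((b : ℝ) ^ 2) by rw [Real.log_pow]; norm_num,
          Real.exp_log (by positivity)]
        ring

/-- `q / φ(q) = O((1 + log log q) ^ 2)`. -/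
theorem exists_div_totient_le :
    ∃ C : ℝ, ∀ q : ℕ, 0 < q →
      (q : ℝ) / Nat.totient q ≤ C * (1 + Real.log (1 + Real.log q)) ^ 2 := by
  refine ⟨2 * Real.exp 3 * 25 * Real.exp 1, fun q hq => ?_⟩
  rw [div_totient_eq_prod q hq]
  set L := Nat.log 2 q + 1 with hL
  set b := Nat.log 2 L + 1 with hb
  have hLb : L < 2 ^ b := Nat.lt_pow_succ_log_self (by norm_num) L
  have hω : q.primeFactors.card ≤ L := by
    have h1 : 2 ^ q.primeFactors.card ≤ q :=
      (Finset.pow_card_le_prod _ _ 2 fun p hp => (Nat.prime_of_mem_primeFactors hp).two_le).trans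
        (Nat.le_of_dvd hq (Nat.prod_primeFactors_dvd q))
    exact (Nat.le_log_of_pow_le (by norm_num) h1).trans (Nat.le_succ _)
  rw [← Finset.prod_filter_mul_prod_filter_not q.primeFactors (fun p => p ≤ 2 ^ b)]
  have h1 : ∏ p ∈ q.primeFactors.filter (fun p => p ≤ 2 ^ b), ratio p ≤
      2 * Real.exp 3 * (b : ℝ) ^ 2 := by
    refine le_trans (LoHi.prod_ratio_mono (fun p hp => ?_) fun p hp => (Finset.mem_filter.1 hp).2)
      (prod_ratio_two_pow_le (by omega))
    obtain ⟨hp1, hp2⟩ := Finset.mem_filter.1 hp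
    exact Finset.mem_filter.2 ⟨Finset.mem_range.2 (by omega), Nat.prime_of_mem_primeFactors hp1⟩
  have h2 : ∏ p ∈ q.primeFactors.filter (fun p => ¬ p ≤ 2 ^ b), ratio p ≤ Real.exp 1 := by
    calc _ ≤ ∏ _p ∈ q.primeFactors.filter (fun p => ¬ p ≤ 2 ^ b), Real.exp (1 / (L : ℝ)) := by
          refine Finset.prod_le_prod (fun p hp => zero_le_one.trans (LoHi.one_le_ratio
            (Nat.prime_of_mem_primeFactors (Finset.mem_filter.1 hp).1).two_le)) fun p hp => ?_
          have hp' := (Finset.mem_filter.1 hp).2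
          have hp2 : ((L + 1 : ℕ) : ℝ) ≤ p := by exact_mod_cast (by omega : L + 1 ≤ p)
          push_cast at hp2
          have hL0 : (0 : ℝ) < L := by rw [hL]; positivity
          refine le_trans ?_ (Real.add_one_le_exp _)
          rw [ratio, div_le_iff₀ (by linarith)]
          rw [show (1 / (L : ℝ) + 1) * (p - 1) = ((p : ℝ) - 1) / L + (p - 1) by ring]
          have : (1 : ℝ) ≤ ((p : ℝ) - 1) / L := by rw [le_div_iff₀ hL0]; linarith
          linarith
      _ ≤ _ := by
          rw [Finset.prod_const, ← Real.exp_nat_mul, Real.exp_le_exp, mul_one_div,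
            div_le_one (by rw [hL]; positivity)]
          exact_mod_cast (Finset.card_filter_le _ _).trans hω
  have hbR : (b : ℝ) ≤ 5 * (1 + Real.log (1 + Real.log q)) := by
    have hq1 : 0 ≤ Real.log q := Real.log_nonneg (by exact_mod_cast hq)
    have hl2 : (1 / 2 : ℝ) ≤ Real.log 2 := by linarith [Real.log_two_gt_d9]
    have e1 : (L : ℝ) ≤ 2 * (1 + Real.log q) := by
      have h := Real.log_le_log (by positivity : (0 : ℝ) < (2 : ℝ) ^ Nat.log 2 q)
        (show (2 : ℝ) ^ Nat.log 2 q ≤ q by exact_mod_cast Nat.pow_log_le_self 2 hq.ne')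
      rw [Real.log_pow] at h
      have := mul_le_mul_of_nonneg_left hl2 (Nat.cast_nonneg (α := ℝ) (Nat.log 2 q))
      rw [hL]; push_cast; linarith
    have e2 : (Nat.log 2 L : ℝ) * Real.log 2 ≤ Real.log 2 + Real.log (1 + Real.log q) := by
      rw [← Real.log_mul (by norm_num) (by linarith), ← Real.log_pow]
      refine Real.log_le_log (by positivity) (le_trans ?_ e1)
      exact_mod_cast Nat.pow_log_le_self 2 (by omega : L ≠ 0)
    have e3 := mul_le_mul_of_nonneg_left hl2 (Nat.cast_nonneg (α := ℝ) (Nat.log 2 L))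
    have e4 : 0 ≤ Real.log (1 + Real.log q) := Real.log_nonneg (by linarith)
    rw [hb]; push_cast
    linarith [Real.log_two_lt_d9]
  calc _ ≤ 2 * Real.exp 3 * (b : ℝ) ^ 2 * Real.exp 1 :=
        mul_le_mul h1 h2 (Finset.prod_nonneg fun p hp => zero_le_one.trans (LoHi.one_le_ratio
          (Nat.prime_of_mem_primeFactors (Finset.mem_filter.1 hp).1).two_le)) (by positivity)
    _ ≤ 2 * Real.exp 3 * (5 * (1 + Real.log (1 + Real.log q))) ^ 2 * Real.exp 1 := by
        gcongr
    _ = _ := by ring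

/-- `d / φ(d) ≤ ω(d) + 1`. -/
theorem div_totient_le_card (d : ℕ) (hd : 0 < d) :
    (d : ℝ) / Nat.totient d ≤ d.primeFactors.card + 1 := by
  rw [div_totient_eq_prod d hd]
  exact prod_ratio_le_card_add_one _ fun p hp => (Nat.prime_of_mem_primeFactors hp).two_le

/-- Few large primes contribute a bounded product. -/
theorem exists_prod_ratio_le :
    ∃ C : ℝ, 1 ≤ C ∧ ∀ (P0 : ℕ) (s : Finset ℕ), (∀ p ∈ s, p.Prime ∧ P0 < p) →
      (s.card : ℝ) ≤ ((P0 : ℝ) + 2) ^ 4 → ∏ p ∈ s, ratio p ≤ C := by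
  obtain ⟨C, hC⟩ := exists_sum_inv_prime_le
  refine ⟨(1 + Real.exp 1) * Real.exp (2 * max C 0 * 8) * Real.exp 2, ?_, fun P0 s hs hcard => ?_⟩
  · have h1 : (1 : ℝ) ≤ 1 + Real.exp 1 := le_add_of_nonneg_right (Real.exp_pos 1).le
    have h2 : (1 : ℝ) ≤ Real.exp (2 * max C 0 * 8) := Real.one_le_exp (by positivity)
    exact one_le_mul_of_one_le_of_one_le (one_le_mul_of_one_le_of_one_le h1 h2)
      (Real.one_le_exp (by norm_num))
  set y := P0 + 2 with hy
  set K := y ^ 8 with hK
  have hs2 : ∀ p ∈ s, 2 ≤ p := fun p hp => (hs p hp).1.two_le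
  have hr1 : ∀ p ∈ s, 1 ≤ ratio p := fun p hp => LoHi.one_le_ratio (hs p hp).1.two_le
  rw [← Finset.prod_filter_mul_prod_filter_not s (fun p => p ≤ y),
    ← Finset.prod_filter_mul_prod_filter_not (s.filter fun p => ¬ p ≤ y) (fun p => p ≤ K),
    ← mul_assoc]
  refine mul_le_mul (mul_le_mul ?_ ?_ ?_ (by positivity)) ?_ ?_ (by positivity)
  · refine (prod_ratio_le_card_add_one _ fun p hp => hs2 p (Finset.mem_of_mem_filter p hp)).trans ?_
    have hc : (s.filter fun p => p ≤ y).card ≤ 2 := by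
      refine le_trans (Finset.card_le_card (fun p hp => ?_ : _ ⊆ Finset.Ioc P0 y)) (by simp [hy])
      exact Finset.mem_Ioc.2 ⟨(hs p (Finset.mem_of_mem_filter p hp)).2, (Finset.mem_filter.1 hp).2⟩
    have h2 : ((s.filter fun p => p ≤ y).card : ℝ) ≤ 2 := by exact_mod_cast hc
    linarith [Real.exp_one_gt_d9]
  · calc ∏ p ∈ (s.filter fun p => ¬ p ≤ y).filter (fun p => p ≤ K), ratio p
        ≤ ∏ p ∈ (s.filter fun p => ¬ p ≤ y).filter (fun p => p ≤ K),
            Real.exp (2 * (1 / (p : ℝ))) := by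
          refine Finset.prod_le_prod (fun p hp => ?_) fun p hp => ratio_le_exp ?_
          · exact zero_le_one.trans
              (hr1 p (Finset.mem_of_mem_filter p (Finset.mem_of_mem_filter p hp)))
          · exact hs2 p (Finset.mem_of_mem_filter p (Finset.mem_of_mem_filter p hp))
      _ ≤ _ := by
          rw [← Real.exp_sum, Real.exp_le_exp, ← Finset.mul_sum, mul_assoc]
          refine mul_le_mul_of_nonneg_left (le_trans ?_ ((hC y 8 (by omega) (by norm_num)).trans
            (mul_le_mul_of_nonneg_right (le_max_left _ _) (by norm_num)))) (by norm_num)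
          refine Finset.sum_le_sum_of_subset_of_nonneg (fun p hp => ?_) fun _ _ _ => by positivity
          simp only [Finset.mem_filter, Finset.mem_Ioc] at hp ⊢
          exact ⟨⟨by omega, hp.2⟩, (hs p hp.1.1).1⟩
  · exact Finset.prod_nonneg fun p hp => zero_le_one.trans
      (hr1 p (Finset.mem_of_mem_filter p (Finset.mem_of_mem_filter p hp)))
  · calc ∏ p ∈ (s.filter fun p => ¬ p ≤ y).filter (fun p => ¬ p ≤ K), ratio p
        ≤ ∏ p ∈ (s.filter fun p => ¬ p ≤ y).filter (fun p => ¬ p ≤ K),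
            Real.exp (2 * (1 / (p : ℝ))) := by
          refine Finset.prod_le_prod (fun p hp => ?_) fun p hp => ratio_le_exp ?_
          · exact zero_le_one.trans
              (hr1 p (Finset.mem_of_mem_filter p (Finset.mem_of_mem_filter p hp)))
          · exact hs2 p (Finset.mem_of_mem_filter p (Finset.mem_of_mem_filter p hp))
      _ ≤ _ := by
          rw [← Real.exp_sum, Real.exp_le_exp, ← Finset.mul_sum]
          have hsum : ∑ p ∈ (s.filter fun p => ¬ p ≤ y).filter (fun p => ¬ p ≤ K), (1 / (p : ℝ)) ≤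
              ∑ _p ∈ s, (1 / (K : ℝ)) := by
            refine le_trans (Finset.sum_le_sum fun p hp => ?_) (Finset.sum_le_sum_of_subset_of_nonneg
              ((Finset.filter_subset _ _).trans (Finset.filter_subset _ _)) fun _ _ _ => by positivity)
            have hKp : K ≤ p := by have := (Finset.mem_filter.1 hp).2; omega
            exact one_div_le_one_div_of_le (by rw [hK]; positivity) (by exact_mod_cast hKp)
          have hbound : (s.card : ℝ) * (1 / (K : ℝ)) ≤ 1 := by
            rw [mul_one_div, div_le_one (by rw [hK]; positivity)]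
            refine hcard.trans ?_
            rw [hK, hy]
            push_cast
            refine pow_le_pow_right₀ ?_ (by norm_num)
            have : (0 : ℝ) ≤ P0 := Nat.cast_nonneg P0
            linarith
          rw [Finset.sum_const, nsmul_eq_mul] at hsum
          linarith
  · exact Finset.prod_nonneg fun p hp => zero_le_one.trans
      (hr1 p (Finset.mem_of_mem_filter p (Finset.mem_of_mem_filter p hp)))

/-- A short vector exists at every scale. -/
theorem exists_shortVec (γ e : ℝ) (he : 0 ≤ e) :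
    ∃ (A : ℤ) (B : ℕ), ShortVec γ (Real.exp (-e)) A B := by
  obtain ⟨A, B, hB, hco, h⟩ := exists_dirichlet γ (e / 2)
  obtain ⟨hBle, hd⟩ := h (by linarith)
  refine ⟨A, B, hB, hco, ?_⟩
  have hle : latNorm γ (Real.exp (-e)) A B ≤ Real.exp (-(e / 2)) := by
    refine max_le ?_ (by push_cast; exact hd)
    push_cast
    rw [abs_of_nonneg (Nat.cast_nonneg B)]
    refine (mul_le_mul_of_nonneg_left hBle (Real.exp_pos _).le).trans (le_of_eq ?_)
    rw [← Real.exp_add]
    congr 1
    ring
  have h0 : 0 ≤ latNorm γ (Real.exp (-e)) A B := le_max_of_le_right (abs_nonneg _)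
  refine (pow_le_pow_left₀ h0 hle 2).trans (le_of_eq ?_)
  rw [← Real.exp_nat_mul]
  congr 1
  push_cast
  ring

/-- The size of a short vector. -/
theorem shortVec_bounds {γ e : ℝ} {A : ℤ} {B : ℕ} (h : ShortVec γ (Real.exp (-e)) A B) :
    (B : ℝ) ≤ Real.exp (e / 2) ∧ |(B : ℝ) * γ - A| ≤ Real.exp (-(e / 2)) := by
  obtain ⟨h1, h2⟩ := h.le_norm
  have hn : latNorm γ (Real.exp (-e)) A B ≤ Real.exp (-(e / 2)) := by
    refine le_of_pow_le_pow_left₀ two_ne_zero (Real.exp_pos _).le (h.norm_sq_le.trans_eq ?_)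
    rw [← Real.exp_nat_mul]
    congr 1
    push_cast
    ring
  refine ⟨le_of_mul_le_mul_left ((h1.trans hn).trans_eq ?_) (Real.exp_pos (-e)), h2.trans hn⟩
  rw [← Real.exp_add]
  congr 1
  ring

/-- Windows grow geometrically, so stretched exponential decay sums. -/
theorem exists_sum_windows_le (k : ℕ) (c : ℝ) (hc : 0 < c) :
    ∃ C : ℝ, ∀ T : Finset ℝ, (∀ t ∈ T, 1 ≤ t) →
      (∀ t ∈ T, ∀ u ∈ T, t = u ∨ 1000 * t ≤ u ∨ 1000 * u ≤ t) →
      ∑ t ∈ T, t ^ k * Real.exp (-(c * Real.sqrt t)) ≤ C := by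
  obtain ⟨M, hM0, hM⟩ : ∃ M : ℝ, 0 ≤ M ∧ ∀ t : ℝ, 1 ≤ t →
      t ^ k * Real.exp (-(c * Real.sqrt t)) ≤ M / Real.sqrt t := by
    refine ⟨(2 * k + 1).factorial / c ^ (2 * k + 1), by positivity, fun t ht => ?_⟩
    set u := Real.sqrt t with hu
    have hu0 : 0 < u := Real.sqrt_pos.2 (by linarith)
    have h := Real.pow_div_factorial_le_exp (c * u) (by positivity) (2 * k + 1)
    rw [div_le_iff₀ (by positivity)] at h
    rw [Real.exp_neg, ← div_eq_mul_inv, div_le_div_iff₀ (Real.exp_pos _) hu0,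
      show t ^ k = u ^ (2 * k) by rw [pow_mul, Real.sq_sqrt (by linarith)],
      ← pow_succ, div_mul_eq_mul_div, le_div_iff₀ (by positivity), ← mul_pow, mul_comm u c]
    linarith
  refine ⟨2 * M, fun T hT hsep => ?_⟩
  refine (Finset.sum_le_sum fun t ht => hM t (hT t ht)).trans ?_
  have key : ∀ (n : ℕ) (T : Finset ℝ), T.card = n → (∀ t ∈ T, 1 ≤ t) →
      (∀ t ∈ T, ∀ u ∈ T, t = u ∨ 1000 * t ≤ u ∨ 1000 * u ≤ t) → ∀ a : ℝ, 1 ≤ a →
      (∀ t ∈ T, a ≤ t) → ∑ t ∈ T, M / Real.sqrt t ≤ 2 * M / Real.sqrt a := by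
    intro n
    induction n with
    | zero =>
      intro T hT _ _ a ha _
      rw [Finset.card_eq_zero.1 hT, Finset.sum_empty]
      positivity
    | succ n ih =>
      intro T hcard hT hsep a ha haT
      have hne : T.Nonempty := Finset.card_pos.1 (by omega)
      set m := T.min' hne with hm
      have hmT : m ∈ T := T.min'_mem hne
      have hm1 : 1 ≤ m := hT m hmT
      have hrest := ih (T.erase m) (by rw [Finset.card_erase_of_mem hmT]; omega)
        (fun t ht => hT t (Finset.mem_of_mem_erase ht))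
        (fun t ht u hu => hsep t (Finset.mem_of_mem_erase ht) u (Finset.mem_of_mem_erase hu))
        (1000 * m) (by linarith) fun t ht => by
          obtain ⟨htm, htT⟩ := Finset.mem_erase.1 ht
          have := T.min'_le t htT
          rcases hsep m hmT t htT with h | h | h
          · exact absurd h.symm htm
          · exact h
          · linarith
      rw [← Finset.add_sum_erase T _ hmT]
      have hsm : Real.sqrt a ≤ Real.sqrt m := Real.sqrt_le_sqrt (haT m hmT)
      have hsa : 0 < Real.sqrt a := Real.sqrt_pos.2 (by linarith)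
      have hth : 2 * Real.sqrt m ≤ Real.sqrt (1000 * m) := by
        rw [show (2 : ℝ) = Real.sqrt 4 by rw [show (4 : ℝ) = 2 ^ 2 by norm_num, Real.sqrt_sq two_pos.le],
          ← Real.sqrt_mul (by norm_num)]
        exact Real.sqrt_le_sqrt (by linarith)
      have h1 : M / Real.sqrt m ≤ M / Real.sqrt a := div_le_div_of_nonneg_left hM0 hsa hsm
      have h2 : 2 * M / Real.sqrt (1000 * m) ≤ M / Real.sqrt a := by
        rw [div_le_div_iff₀ (by positivity) hsa]
        nlinarith [mul_le_mul_of_nonneg_left (hth.trans' (by linarith : 2 * Real.sqrt a ≤ 2 * Real.sqrt m)) hM0]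
      calc _ ≤ M / Real.sqrt a + M / Real.sqrt a := add_le_add h1 (hrest.trans h2)
        _ = _ := by ring
  have h := key T.card T rfl hT hsep 1 le_rfl hT
  simpa using h

/-- There are few windows below a given one. -/
theorem card_windows_le (T : Finset ℝ) (M : ℝ) (hT : ∀ t ∈ T, 1 ≤ t ∧ t ≤ M)
    (hsep : ∀ t ∈ T, ∀ u ∈ T, t = u ∨ 1000 * t ≤ u ∨ 1000 * u ≤ t) :
    (T.card : ℝ) ≤ 1 + Real.log (max M 1) := by
  rcases T.eq_empty_or_nonempty with rfl | hne
  · simp only [Finset.card_empty, Nat.cast_zero]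
    have := Real.log_nonneg (le_max_right M 1)
    linarith
  have key : ∀ (n : ℕ) (T : Finset ℝ), T.card = n + 1 → (∀ t ∈ T, 1 ≤ t) →
      (∀ t ∈ T, ∀ u ∈ T, t = u ∨ 1000 * t ≤ u ∨ 1000 * u ≤ t) →
      ∃ t ∈ T, (1000 : ℝ) ^ n ≤ t := by
    intro n
    induction n with
    | zero =>
      intro T hcard hT _
      obtain ⟨t, rfl⟩ := Finset.card_eq_one.1 hcard
      exact ⟨t, Finset.mem_singleton_self t, by simpa using hT t (Finset.mem_singleton_self t)⟩
    | succ n ih =>
      intro T hcard hT hsep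
      have hne : T.Nonempty := Finset.card_pos.1 (by omega)
      set m := T.max' hne with hm
      have hmT : m ∈ T := T.max'_mem hne
      obtain ⟨t, ht, hpow⟩ := ih (T.erase m) (by rw [Finset.card_erase_of_mem hmT]; omega)
        (fun t ht => hT t (Finset.mem_of_mem_erase ht))
        (fun t ht u hu => hsep t (Finset.mem_of_mem_erase ht) u (Finset.mem_of_mem_erase hu))
      obtain ⟨htm, htT⟩ := Finset.mem_erase.1 ht
      refine ⟨m, hmT, ?_⟩
      have := T.le_max' t htT
      have h1 := hT t htT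
      rcases hsep t htT m hmT with h | h | h
      · exact absurd h htm
      · rw [pow_succ']; linarith
      · linarith
  obtain ⟨n, hn⟩ : ∃ n, T.card = n + 1 := ⟨T.card - 1, by have := hne.card_pos; omega⟩
  obtain ⟨t, ht, hpow⟩ := key n T hn (fun t ht => (hT t ht).1) hsep
  have hle : Real.log ((1000 : ℝ) ^ n) ≤ Real.log (max M 1) :=
    Real.log_le_log (by positivity) (hpow.trans ((hT t ht).2.trans (le_max_left _ _)))
  rw [Real.log_pow] at hle
  have h1 : (1 : ℝ) ≤ Real.log 1000 := by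
    rw [Real.le_log_iff_exp_le (by norm_num)]
    linarith [Real.exp_one_lt_d9]
  have := mul_le_mul_of_nonneg_left h1 (Nat.cast_nonneg (α := ℝ) n)
  rw [hn]
  push_cast
  linarith

end Vale.Agent.P028.T2
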