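import Vale.Agent.P028.T2.Defs
import Vale.Agent.P028.T2.Elem

/-!
Two major arcs with small denominators are the arc of both windows, so the pair is on the line.

The fractions `L / (H e)` and `L' / (H' e')` coincide, so, as `e` and `e'` are coprime, both are
`K / (H H')`; this has a small denominator and is very close to `γ`, hence it is `A / B` in both
windows, and `n H H' + K m` is an integer below `1`.
-/

noncomputable section

namespace Vale.Agent.P028.T2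

open Finset
open scoped Classical

/-- The data of a side in exponentials. -/
theorem SideData.exp_bounds {γ t : ℝ} {q' H e : ℕ} {L : ℤ}
    (h : SideData γ (Real.exp (-t)) q' H e L) :
    1 ≤ H ∧ (H : ℝ) ≤ 4 * Real.exp (2 * sigC * t) ∧ e ∣ q' ∧
      |((H * e : ℕ) : ℝ) * γ - L| * q' ≤ 2 * Real.exp (-((1 - 3 * sigC) * t)) * e := by
  obtain ⟨h1, h2, h3, h4⟩ := h
  rw [← Real.exp_mul] at h2 h4
  refine ⟨h1, ?_, h3, ?_⟩
  · rwa [show -t * -(2 * sigC) = 2 * sigC * t by ring] at h2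
  · rwa [show -t * (1 - 3 * sigC) = -((1 - 3 * sigC) * t) by ring] at h4

/-- `2 Λ ^ 0.9` is negligible against `Λ`. -/
theorem kill_rpow_le {Λ : ℝ} (hΛ : (10 : ℝ) ^ 30 ≤ Λ) : Λ ^ (9 / 10 : ℝ) ≤ Λ / 1000 := by
  have h0 : (0 : ℝ) < Λ := lt_of_lt_of_le (by positivity) hΛ
  have e : (((10 : ℝ) ^ 30)) ^ (1 / 10 : ℝ) = 1000 := by
    rw [← Real.rpow_natCast, ← Real.rpow_mul (by norm_num : (0 : ℝ) ≤ 10)]
    norm_num
  have h : (1000 : ℝ) ≤ Λ ^ (1 / 10 : ℝ) :=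
    e.symm.trans_le (Real.rpow_le_rpow (by positivity) hΛ (by norm_num))
  have hmul : Λ ^ (9 / 10 : ℝ) * Λ ^ (1 / 10 : ℝ) = Λ := by
    rw [← Real.rpow_add h0]
    norm_num
  rw [le_div_iff₀ (by norm_num)]
  calc Λ ^ (9 / 10 : ℝ) * 1000 ≤ Λ ^ (9 / 10 : ℝ) * Λ ^ (1 / 10 : ℝ) :=
        mul_le_mul_of_nonneg_left h (Real.rpow_nonneg h0.le _)
    _ = Λ := hmul

/-- `1 / q'` is small when the other radius has no slack. -/
theorem kill_inv_le {ψr q' t μ : ℝ} (h : Real.exp (-t) ^ (1 + slackC) ≤ ψr * q')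
    (hψ : ψr ≤ Real.exp (-μ)) (hq : 0 < q') :
    1 / q' ≤ Real.exp ((1 + slackC) * t - μ) := by
  rw [← Real.exp_mul] at h
  rw [div_le_iff₀ hq, show (1 + slackC) * t - μ = -μ - -t * (1 + slackC) by ring, Real.exp_sub,
    div_mul_eq_mul_div, le_div_iff₀ (Real.exp_pos _), one_mul]
  exact h.trans (mul_le_mul_of_nonneg_right hψ hq.le)

/-- An integer against a major side: `|L H' e' - L' H e| < 1`. -/
theorem kill_frac {γ t Λ : ℝ} {q' r' H e H' e' : ℕ} {L L' : ℤ}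
    (ht : t ≤ 49 / 100 * Λ) (hΛ : (10 : ℝ) ^ 30 ≤ Λ)
    (h : SideData γ (Real.exp (-t)) q' H e L) (h' : SideData γ (Real.exp (-t)) r' H' e' L')
    (hee : ((e * e' : ℕ) : ℝ) ≤ ebd Λ (Real.exp (-t)))
    (hq : 0 < q') (hr : 0 < r') (hq1 : 1 / (q' : ℝ) ≤ Real.exp ((1 + slackC) * t - Λ))
    (hr1 : 1 / (r' : ℝ) ≤ Real.exp ((1 + slackC) * t - Λ)) :
    L * (H' * e' : ℕ) = L' * (H * e : ℕ) := by
  obtain ⟨-, hH, -, hE⟩ := h.exp_bounds
  obtain ⟨-, hH', -, hE'⟩ := h'.exp_bounds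
  set ε := Real.exp (-((1 - 3 * sigC) * t)) with hε
  set u : ℝ := ((H * e : ℕ) : ℝ) * γ - L with hu
  set u' : ℝ := ((H' * e' : ℕ) : ℝ) * γ - L' with hu'
  have hq' : (0 : ℝ) < q' := Nat.cast_pos.2 hq
  have hr' : (0 : ℝ) < r' := Nat.cast_pos.2 hr
  have h1 : |u| ≤ 2 * ε * e * Real.exp ((1 + slackC) * t - Λ) := by
    refine le_trans ?_ (mul_le_mul_of_nonneg_left hq1 (by positivity))
    rw [mul_one_div, le_div_iff₀ hq']
    exact hE
  have h2 : |u'| ≤ 2 * ε * e' * Real.exp ((1 + slackC) * t - Λ) := by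
    refine le_trans ?_ (mul_le_mul_of_nonneg_left hr1 (by positivity))
    rw [mul_one_div, le_div_iff₀ hr']
    exact hE'
  have hint : ((L * (H' * e' : ℕ) - L' * (H * e : ℕ) : ℤ) : ℝ) =
      ((H * e : ℕ) : ℝ) * u' - ((H' * e' : ℕ) : ℝ) * u := by
    rw [hu, hu']
    push_cast
    ring
  refine sub_eq_zero.1 (Int.abs_lt_one_iff.1 ?_)
  suffices hlt : |((L * (H' * e' : ℕ) - L' * (H * e : ℕ) : ℤ) : ℝ)| < 1 by exact_mod_cast hlt
  rw [hint]
  refine lt_of_le_of_lt (abs_sub _ _) ?_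
  rw [abs_mul, abs_mul, Nat.abs_cast, Nat.abs_cast]
  have hb : ((e * e' : ℕ) : ℝ) ≤ Real.exp ((2 + kapC + 4 * sigC) * t + 2 * Λ ^ (9 / 10 : ℝ)) := by
    refine hee.trans_eq ?_
    rw [ebd, ← Real.exp_mul, ← Real.exp_add]
    congr 1
    ring
  calc ((H * e : ℕ) : ℝ) * |u'| + ((H' * e' : ℕ) : ℝ) * |u|
      ≤ ((H * e : ℕ) : ℝ) * (2 * ε * e' * Real.exp ((1 + slackC) * t - Λ)) +
        ((H' * e' : ℕ) : ℝ) * (2 * ε * e * Real.exp ((1 + slackC) * t - Λ)) := by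
        gcongr
    _ = ((H : ℝ) + H') * ((e * e' : ℕ) : ℝ) * (2 * ε * Real.exp ((1 + slackC) * t - Λ)) := by
        push_cast
        ring
    _ ≤ 8 * Real.exp (2 * sigC * t) *
          Real.exp ((2 + kapC + 4 * sigC) * t + 2 * Λ ^ (9 / 10 : ℝ)) *
          (2 * ε * Real.exp ((1 + slackC) * t - Λ)) := by
        refine mul_le_mul_of_nonneg_right (mul_le_mul ?_ hb (Nat.cast_nonneg _) (by positivity))
          (by positivity)
        linarith
    _ = 16 * Real.exp (2 * sigC * t + ((2 + kapC + 4 * sigC) * t + 2 * Λ ^ (9 / 10 : ℝ)) +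
          (-((1 - 3 * sigC) * t) + ((1 + slackC) * t - Λ))) := by
        simp only [Real.exp_add, hε]
        ring
    _ ≤ 16 * Real.exp (-100) := by
        refine mul_le_mul_of_nonneg_left (Real.exp_le_exp.2 ?_) (by norm_num)
        have := kill_rpow_le hΛ
        norm_num [sigC, kapC, slackC] at hΛ ⊢
        linarith
    _ < 1 := by
        have : (101 : ℝ) ≤ Real.exp 100 := by linarith [Real.add_one_le_exp (100 : ℝ)]
        rw [Real.exp_neg, ← div_eq_mul_inv, div_lt_one (Real.exp_pos _)]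
        linarith

/-- The common denominator `H H'`. -/
theorem exists_kill_common {e e' H H' : ℕ} {L L' : ℤ} (hco : Nat.Coprime e e') (he : 0 < e)
    (h : L * (H' * e' : ℕ) = L' * (H * e : ℕ)) :
    ∃ K : ℤ, L * H' = K * e ∧ L' * H = K * e' := by
  obtain ⟨K, hK⟩ : (e : ℤ) ∣ L * H' :=
    (Nat.isCoprime_iff_coprime.2 hco : IsCoprime (e : ℤ) (e' : ℤ)).dvd_of_dvd_mul_right
      ⟨L' * H, by push_cast at h; linarith⟩
  refine ⟨K, by linarith, mul_right_cancel₀ (b := (e : ℤ)) (by exact_mod_cast he.ne') ?_⟩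
  push_cast at h
  calc L' * H * e = L * H' * e' := by linarith
    _ = _ := by rw [hK]; ring

/-- The common fraction against one side. -/
theorem kill_side {γ t : ℝ} {q' H e H' : ℕ} {L K : ℤ}
    (h : SideData γ (Real.exp (-t)) q' H e L) (hH' : (H' : ℝ) ≤ 4 * Real.exp (2 * sigC * t))
    (he : 0 < e) (hK : L * H' = K * e) :
    |((H * H' : ℕ) : ℝ) * γ - K| * q' ≤ 8 * Real.exp (-((1 - 5 * sigC) * t)) := by
  obtain ⟨-, -, -, hE⟩ := h.exp_bounds
  have he' : (0 : ℝ) < e := Nat.cast_pos.2 he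
  have hK' : (L : ℝ) * H' = K * e := by exact_mod_cast hK
  refine le_of_mul_le_mul_right ?_ he'
  have e1 : (((H * H' : ℕ) : ℝ) * γ - K) * e = H' * (((H * e : ℕ) : ℝ) * γ - L) := by
    push_cast
    linarith
  calc |((H * H' : ℕ) : ℝ) * γ - K| * q' * e
      = |(((H * H' : ℕ) : ℝ) * γ - K) * e| * q' := by rw [abs_mul, Nat.abs_cast]; ring
    _ = H' * (|((H * e : ℕ) : ℝ) * γ - L| * q') := by rw [e1, abs_mul, Nat.abs_cast]; ring
    _ ≤ 4 * Real.exp (2 * sigC * t) * (2 * Real.exp (-((1 - 3 * sigC) * t)) * e) :=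
        mul_le_mul hH' hE (by positivity) (by positivity)
    _ = 8 * (Real.exp (2 * sigC * t) * Real.exp (-((1 - 3 * sigC) * t))) * e := by ring
    _ = _ := by rw [← Real.exp_add]; congr 3; ring

/-- In a window the common fraction is the short vector. -/
theorem kill_window {γ t μ : ℝ} {A K : ℤ} {B G : ℕ} (ht : t ≤ 49 / 100 * μ)
    (hμ : (10 : ℝ) ^ 30 ≤ μ) (hG : (G : ℝ) ≤ 16 * Real.exp (4 * sigC * t))
    (hK : |(G : ℝ) * γ - K| ≤ 8 * Real.exp ((5 * sigC + slackC) * t - μ))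
    (h : ShortVec γ (Real.exp (-(rhoC * μ))) A B) : K * B = A * G := by
  obtain ⟨hB, hd⟩ := shortVec_bounds h
  refine sub_eq_zero.1 (Int.abs_lt_one_iff.1 ?_)
  suffices hlt : |((K * B - A * G : ℤ) : ℝ)| < 1 by exact_mod_cast hlt
  have hint : ((K * B - A * G : ℤ) : ℝ) =
      (G : ℝ) * ((B : ℝ) * γ - A) - (B : ℝ) * ((G : ℝ) * γ - K) := by
    push_cast
    ring
  rw [hint]
  refine lt_of_le_of_lt (abs_sub _ _) ?_
  rw [abs_mul, abs_mul, Nat.abs_cast, Nat.abs_cast]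
  have h100 : Real.exp (-100) ≤ 1 / 101 := by
    rw [Real.exp_neg, one_div]
    exact inv_anti₀ (by norm_num) (by linarith [Real.add_one_le_exp (100 : ℝ)])
  have h1 : (G : ℝ) * |(B : ℝ) * γ - A| ≤ 16 * Real.exp (-100) := by
    refine (mul_le_mul hG hd (abs_nonneg _) (by positivity)).trans ?_
    rw [mul_assoc, ← Real.exp_add]
    refine mul_le_mul_of_nonneg_left (Real.exp_le_exp.2 ?_) (by norm_num)
    norm_num [sigC, rhoC] at hμ ⊢
    linarith
  have h2 : (B : ℝ) * |(G : ℝ) * γ - K| ≤ 8 * Real.exp (-100) := by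
    refine (mul_le_mul hB hK (abs_nonneg _) (by positivity)).trans ?_
    rw [mul_left_comm, ← Real.exp_add]
    refine mul_le_mul_of_nonneg_left (Real.exp_le_exp.2 ?_) (by norm_num)
    norm_num [sigC, slackC, rhoC] at hμ ⊢
    linarith
  linarith

/-- The coincidence number is on the line of the common fraction. -/
theorem kill_line {γ t : ℝ} {q' r' G : ℕ} {n K : ℤ} (ht : 200 ≤ t)
    (hG : (G : ℝ) ≤ 16 * Real.exp (4 * sigC * t))
    (hq : |(G : ℝ) * γ - K| * q' ≤ 8 * Real.exp (-((1 - 5 * sigC) * t)))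
    (hr : |(G : ℝ) * γ - K| * r' ≤ 8 * Real.exp (-((1 - 5 * sigC) * t)))
    (hn : |(n : ℝ) + γ * (((r' : ℤ) - q' : ℤ) : ℝ)| ≤ 4 * Real.exp (-t)) :
    n * G + K * ((r' : ℤ) - q') = 0 := by
  refine Int.abs_lt_one_iff.1 ?_
  suffices hlt : |((n * G + K * ((r' : ℤ) - q') : ℤ) : ℝ)| < 1 by exact_mod_cast hlt
  have hint : ((n * G + K * ((r' : ℤ) - q') : ℤ) : ℝ) =
      (G : ℝ) * ((n : ℝ) + γ * (((r' : ℤ) - q' : ℤ) : ℝ)) -
        (((G : ℝ) * γ - K) * r' - ((G : ℝ) * γ - K) * q') := by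
    push_cast
    ring
  rw [hint]
  refine lt_of_le_of_lt ((abs_sub _ _).trans (add_le_add_right (abs_sub _ _) _)) ?_
  rw [abs_mul, abs_mul _ (r' : ℝ), abs_mul _ (q' : ℝ), Nat.abs_cast, Nat.abs_cast, Nat.abs_cast]
  have h100 : Real.exp (-100) ≤ 1 / 101 := by
    rw [Real.exp_neg, one_div]
    exact inv_anti₀ (by norm_num) (by linarith [Real.add_one_le_exp (100 : ℝ)])
  have h1 : (G : ℝ) * |(n : ℝ) + γ * (((r' : ℤ) - q' : ℤ) : ℝ)| ≤ 64 * Real.exp (-100) := by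
    refine (mul_le_mul hG hn (abs_nonneg _) (by positivity)).trans ?_
    rw [show 16 * Real.exp (4 * sigC * t) * (4 * Real.exp (-t)) =
      64 * (Real.exp (4 * sigC * t) * Real.exp (-t)) by ring, ← Real.exp_add]
    refine mul_le_mul_of_nonneg_left (Real.exp_le_exp.2 ?_) (by norm_num)
    norm_num [sigC] at ⊢
    linarith
  have h2 : Real.exp (-((1 - 5 * sigC) * t)) ≤ Real.exp (-100) := by
    refine Real.exp_le_exp.2 ?_
    norm_num [sigC] at ⊢
    linarith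
  linarith

/-- Two short vectors of one fraction are equal. -/
theorem kill_eq {A A' K : ℤ} {B B' G : ℕ} (hB : 0 < B) (hB' : 0 < B') (hG : 0 < G)
    (hco : IsCoprime A (B : ℤ)) (hco' : IsCoprime A' (B' : ℤ)) (h : K * B = A * G)
    (h' : K * B' = A' * G) : A = A' ∧ B = B' := by
  have hG0 : (G : ℤ) ≠ 0 := by exact_mod_cast hG.ne'
  have hx : A * B' = A' * B := by
    refine mul_right_cancel₀ hG0 ?_
    calc A * B' * G = K * B * B' := by rw [h]; ring
      _ = A' * B * G := by rw [mul_assoc, mul_left_comm, h']; ring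
  have d1 : (B : ℤ) ∣ B' := hco.symm.dvd_of_dvd_mul_left ⟨A', by rw [hx]; ring⟩
  have d2 : (B' : ℤ) ∣ B := hco'.symm.dvd_of_dvd_mul_left ⟨A, by rw [← hx]; ring⟩
  have e : B = B' := Nat.dvd_antisymm (Int.natCast_dvd_natCast.1 d1) (Int.natCast_dvd_natCast.1 d2)
  subst e
  exact ⟨mul_right_cancel₀ (by exact_mod_cast hB.ne') hx, rfl⟩

theorem exists_kill :
    ∃ lam0 x0 : ℝ, 0 < x0 ∧ ∀ P : Sys, P.Ok lam0 → ∀ q ∈ P.S, ∀ r ∈ P.S, P.lam q ≤ P.lam r →
      ∀ x : ℝ, Real.exp (-(49 / 100 * P.lam q)) ≤ x → x ≤ x0 → dist2 P.ψ q r ≤ 2 * x →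
      Tight P.ψ x q r → PairMajor P.γ (P.lam q) x (qd q r) (qd r q) →
      ∀ n : ℤ, |(n : ℝ) + P.γ * mdiff q r| ≤ 4 * x →
      P.A q = P.A r ∧ P.B q = P.B r ∧ zform (P.A q) (P.B q) q r n = 0 := by
  refine ⟨10 ^ 30, Real.exp (-200), Real.exp_pos _, ?_⟩
  intro P hP q hqS r hrS hle x hxlo hx0 _ hT hM n hn
  obtain ⟨t, rfl⟩ : ∃ t, x = Real.exp (-t) :=
    ⟨-Real.log x, by rw [neg_neg, Real.exp_log ((Real.exp_pos _).trans_le hxlo)]⟩
  rw [Real.exp_le_exp] at hxlo hx0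
  have hΛ := hP.lam_ge q hqS
  have hq0 : 0 < qd q r := cl_qd_pos (hP.pos q hqS)
  have hr0 : 0 < qd r q := cl_qd_pos (hP.pos r hrS)
  have hq1 : 1 / (qd q r : ℝ) ≤ Real.exp ((1 + slackC) * t - P.lam r) :=
    kill_inv_le hT.1 (hP.psi_le r hrS) (Nat.cast_pos.2 hq0)
  have hr1 : 1 / (qd r q : ℝ) ≤ Real.exp ((1 + slackC) * t - P.lam q) :=
    kill_inv_le hT.2 (hP.psi_le q hqS) (Nat.cast_pos.2 hr0)
  obtain ⟨H, e, L, H', e', L', hs, hs', hee⟩ := hM
  have he : 0 < e := Nat.pos_of_dvd_of_pos hs.2.2.1 hq0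
  have he' : 0 < e' := Nat.pos_of_dvd_of_pos hs'.2.2.1 hr0
  have hco : Nat.Coprime e e' :=
    ((cl_coprime_qd (hP.pos q hqS)).coprime_dvd_left hs.2.2.1).coprime_dvd_right hs'.2.2.1
  obtain ⟨K, hK1, hK2⟩ := exists_kill_common hco he (kill_frac (Λ := P.lam q) (by linarith) hΛ
    hs hs' hee hq0 hr0 (hq1.trans (Real.exp_le_exp.2 (by linarith))) hr1)
  obtain ⟨hH1, hH, -, -⟩ := hs.exp_bounds
  obtain ⟨hH1', hH', -, -⟩ := hs'.exp_bounds
  set G := H * H' with hGdef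
  have hG0 : 0 < G := Nat.mul_pos hH1 hH1'
  have hG : (G : ℝ) ≤ 16 * Real.exp (4 * sigC * t) := by
    rw [hGdef, show 4 * sigC * t = 2 * sigC * t + 2 * sigC * t by ring, Real.exp_add]
    push_cast
    calc (H : ℝ) * H' ≤ 4 * Real.exp (2 * sigC * t) * (4 * Real.exp (2 * sigC * t)) :=
          mul_le_mul hH hH' (Nat.cast_nonneg _) (by positivity)
      _ = _ := by ring
  have hsq := kill_side hs hH' he hK1
  have hsr : |(G : ℝ) * P.γ - K| * qd r q ≤ 8 * Real.exp (-((1 - 5 * sigC) * t)) := by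
    rw [hGdef, Nat.mul_comm]
    exact kill_side hs' hH he' hK2
  have hdev : |(G : ℝ) * P.γ - K| ≤ 8 * Real.exp ((5 * sigC + slackC) * t - P.lam r) := by
    have hq' : (0 : ℝ) < qd q r := Nat.cast_pos.2 hq0
    calc |(G : ℝ) * P.γ - K| = |(G : ℝ) * P.γ - K| * qd q r * (1 / qd q r) := by
          field_simp
      _ ≤ 8 * Real.exp (-((1 - 5 * sigC) * t)) * Real.exp ((1 + slackC) * t - P.lam r) :=
          mul_le_mul hsq hq1 (by positivity) (by positivity)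
      _ = _ := by rw [mul_assoc, ← Real.exp_add]; congr 2; ring
  have hwr := kill_window (by linarith) (hP.lam_ge r hrS) hG hdev (hP.short r hrS)
  have hwq := kill_window (by linarith) hΛ hG
    (hdev.trans (mul_le_mul_of_nonneg_left (Real.exp_le_exp.2 (by linarith)) (by norm_num)))
    (hP.short q hqS)
  obtain ⟨hA, hB⟩ := kill_eq (hP.short q hqS).B_pos (hP.short r hrS).B_pos hG0
    (hP.short q hqS).coprime (hP.short r hrS).coprime hwq hwr
  have hline := kill_line (γ := P.γ) (by linarith) hG hsq hsr (n := n)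
    (by simpa only [mdiff] using hn)
  refine ⟨hA, hB, mul_right_cancel₀ (b := (G : ℤ)) (by exact_mod_cast hG0.ne') ?_⟩
  rw [zero_mul, zform, mdiff]
  calc (n * (P.B q : ℤ) + P.A q * ((qd r q : ℤ) - qd q r)) * G
      = (P.B q : ℤ) * (n * G + K * ((qd r q : ℤ) - qd q r)) := by
        linear_combination ((qd q r : ℤ) - qd r q) * hwq
    _ = 0 := by rw [hline, mul_zero]

end Vale.Agent.P028.T2
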