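import Vale.Agent.P028.T2.Overlap
import Vale.Agent.P028.T2.GainCross
import Vale.Agent.P028.T2.Coarse
import Vale.Agent.P028.T2.Kill
import Vale.Agent.P028.T2.CrossBand

/-!
The pairs between two windows at distance below `exp (√Λ' / 100)`.

Within `exp (± √Λ' / 100)` the coarse bound applies; below, a pair with a coincidence off the line
is bad or, under `exp (-0.49 Λ)`, in the cross band.  Every bound decays like a stretched exponential
of the deeper window, so the sum over pairs of windows converges.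
-/

noncomputable section

namespace Vale.Agent.P028.T2

open Finset
open scoped Classical

/-- `(1 + D) / D` is small above `exp (-(√Λ' / 100))`. -/
theorem crossWindows_ratio_le {D u : ℝ} (hu : 0 ≤ u) (h : Real.exp (-u) ≤ D) :
    (1 + D) / D ≤ 2 * Real.exp u := by
  have hD : 0 < D := (Real.exp_pos _).trans_le h
  rw [add_div, div_self hD.ne']
  have h1 : 1 / D ≤ Real.exp u := by
    rw [div_le_iff₀ hD]
    have := mul_le_mul_of_nonneg_left h (Real.exp_pos u).le
    rw [← Real.exp_add, add_neg_cancel, Real.exp_zero] at this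
    exact this
  linarith [Real.one_le_exp hu]

/-- The level of a small distance. -/
theorem exists_level {D : ℝ} (hD : 0 < D) (hD1 : D ≤ 1) :
    ∃ j : ℕ, ((1 / 2 : ℝ) ^ (j + 1)) < D ∧ D ≤ 2 * (1 / 2 : ℝ) ^ (j + 1) := by
  obtain ⟨n, h1, h2⟩ := exists_nat_pow_near_of_lt_one hD hD1 (show (0 : ℝ) < 1 / 2 by norm_num)
    (by norm_num)
  exact ⟨n, h1, h2.trans (le_of_eq (by rw [pow_succ]; ring))⟩

/-- Two windows. -/
theorem exists_windowPair_le :
    ∃ C lam0 : ℝ, 0 ≤ C ∧ ∀ P : Sys, P.Ok lam0 → ∀ Λ Λ' : ℝ, lam0 ≤ Λ → 1000 * Λ ≤ Λ' →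
      ∑ v ∈ P.S.filter (fun v => P.lam v = Λ), ∑ w ∈ P.S.filter (fun w => P.lam w = Λ' ∧
          dist2 P.ψ v w < Real.exp (Real.sqrt Λ' / 100)), P.gTerm v w ≤
        C * (mass P.ψ P.S + mass P.ψ P.S ^ 2) *
          (Λ' ^ 3 * Real.exp (-(gainC / 100 * Real.sqrt Λ'))) := by
  obtain ⟨Cg, lg, hcrude⟩ := exists_gTerm_crude_le
  obtain ⟨Cc, lc, hcoarse⟩ := exists_coarse_le
  obtain ⟨Cb, lb, hgain⟩ := exists_gainCross_le
  obtain ⟨lk, x0, hx0, hkill⟩ := exists_kill
  obtain ⟨Ch, lh, hband⟩ := exists_crossBand_le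
  set lam0 := max (max (max (max lg lc) (max lb lk)) lh) (max 4 ((100 * Real.log x0) ^ 2))
    with hlam0
  refine ⟨max Cg 0 * (2 * max Cc 0 + 12 * (max Cb 0 + max Ch 0)), lam0, by positivity,
    fun P hP Λ Λ' hΛ hΛ' => ?_⟩
  have hle : ∀ l, l ≤ lam0 → P.Ok l := fun l hl =>
    { hP with lam_ge := fun q hq => hl.trans (hP.lam_ge q hq) }
  obtain ⟨⟨⟨⟨⟨hlg, hlc⟩, hlb, hlk⟩, hlh⟩, h4, hl4⟩, -⟩ :
      (((((lg ≤ lam0) ∧ lc ≤ lam0) ∧ lb ≤ lam0 ∧ lk ≤ lam0) ∧ lh ≤ lam0) ∧
        4 ≤ lam0 ∧ (100 * Real.log x0) ^ 2 ≤ lam0) ∧ True := by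
    refine ⟨⟨⟨⟨⟨?_, ?_⟩, ?_, ?_⟩, ?_⟩, ?_, ?_⟩, trivial⟩ <;> simp [hlam0]
  set S : Finset ℕ := P.S.filter (fun q => P.lam q = Λ ∨ P.lam q = Λ') with hS
  have hSS : S ⊆ P.S := filter_subset _ _
  set μ := mass P.ψ P.S with hμ
  have hμ0 : 0 ≤ μ := BilinearAux.mass_nonneg hP.nonneg _
  have hμS : mass P.ψ S + mass P.ψ S ^ 2 ≤ μ + μ ^ 2 :=
    add_le_add (BilinearAux.mass_mono hP.nonneg hSS)
      (pow_le_pow_left₀ (BilinearAux.mass_nonneg hP.nonneg _)
        (BilinearAux.mass_mono hP.nonneg hSS) 2)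
  have hμS0 : 0 ≤ mass P.ψ S + mass P.ψ S ^ 2 :=
    add_nonneg (BilinearAux.mass_nonneg hP.nonneg _) (sq_nonneg _)
  have hM0 : 0 ≤ μ + μ ^ 2 := by positivity
  have hw0 : ∀ q, 0 ≤ wt P.ψ q := fun q => BilinearAux.wt_nonneg hP.nonneg q
  set u := Real.sqrt Λ' / 100 with hu
  have hu0 : 0 ≤ u := by positivity
  have hΛ1 : 4 ≤ Λ := h4.trans hΛ
  have hΛ'1 : 1 ≤ Λ' := by linarith
  set E := Real.exp (-(gainC / 100 * Real.sqrt Λ')) with hE
  set V := P.S.filter (fun v => P.lam v = Λ) with hV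
  set W : ℕ → Finset ℕ := fun v => P.S.filter (fun w => P.lam w = Λ' ∧
    dist2 P.ψ v w < Real.exp u) with hW
  set ff : ℕ → ℕ → ℝ := fun v w => wt P.ψ v * wt P.ψ w with hff
  have hff0 : ∀ v w, 0 ≤ ff v w := fun v w => mul_nonneg (hw0 v) (hw0 w)
  have hD0 : ∀ v ∈ V, ∀ w ∈ W v, Real.exp (-(2 * Λ)) * 2 ≤ dist2 P.ψ v w := by
    intro v hv w hw
    obtain ⟨hvS, hvl⟩ := mem_filter.1 hv
    have h1 : P.ψ v ≤ dist2 P.ψ v w := by
      refine le_trans ?_ (le_max_left _ _)
      refine le_mul_of_one_le_right (hP.nonneg v) ?_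
      exact_mod_cast qd_pos (hP.pos w (mem_filter.1 hw).1)
    refine le_trans ?_ ((hP.le_psi v hvS).trans h1)
    rw [hvl]
    calc Real.exp (-(2 * Λ)) * 2 ≤ Real.exp (-(2 * Λ)) * Real.exp 1 :=
          mul_le_mul_of_nonneg_left (by linarith [Real.add_one_le_exp (1 : ℝ)]) (Real.exp_pos _).le
      _ ≤ _ := by
          rw [← Real.exp_add]
          exact Real.exp_le_exp.2 (by norm_num [rhoC]; linarith)
  set G : ℕ → ℕ → ℝ := fun v w => if (P.goodSet v w).Nonempty then
    ff v w * ((1 + dist2 P.ψ v w) / dist2 P.ψ v w) else 0 with hG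
  have hpt : ∀ v ∈ V, ∀ w ∈ W v, P.gTerm v w ≤ max Cg 0 * Λ' ^ 2 * G v w := by
    intro v hv w hw
    obtain ⟨hvS, hvl⟩ := mem_filter.1 hv
    obtain ⟨hwS, hwl, -⟩ := mem_filter.1 hw
    have hD : 0 < dist2 P.ψ v w := lt_of_lt_of_le (by positivity) (hD0 v hv w hw)
    simp only [hG]
    split_ifs with hg
    · refine (hcrude P (hle _ hlg) v hvS w hwS).trans ?_
      rw [hvl, hwl]
      have h1 : Cg * (Λ * Λ') ≤ max Cg 0 * Λ' ^ 2 :=
        (mul_le_mul_of_nonneg_right (le_max_left _ 0) (by positivity)).trans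
          (mul_le_mul_of_nonneg_left (by nlinarith) (le_max_right _ _))
      refine (mul_le_mul_of_nonneg_right (mul_le_mul_of_nonneg_right h1 (by linarith))
        (div_nonneg (hff0 v w) hD.le)).trans (le_of_eq ?_)
      simp only [hff]
      ring
    · rw [not_nonempty_iff_eq_empty] at hg
      rw [Sys.gTerm, hg, sum_empty, mul_zero, mul_zero]
  set far : ℕ → ℕ → Prop := fun v w => Real.exp (-u) ≤ dist2 P.ψ v w with hfar
  -- the coarse part
  have hA : ∑ v ∈ V, ∑ w ∈ (W v).filter (far v), G v w ≤ 2 * max Cc 0 * (μ + μ ^ 2) * E := by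
    have h1 : ∀ v ∈ V, ∀ w ∈ (W v).filter (far v), G v w ≤ ff v w * (2 * Real.exp u) := by
      intro v hv w hw
      simp only [hG]
      split_ifs with hg
      · exact mul_le_mul_of_nonneg_left (crossWindows_ratio_le hu0 (mem_filter.1 hw).2) (hff0 v w)
      · exact mul_nonneg (hff0 v w) (by positivity)
    refine (sum_le_sum fun v hv => sum_le_sum (h1 v hv)).trans ?_
    simp only [← sum_mul]
    have hc := hcoarse P (hle _ hlc) S hSS Λ Λ' hΛ' (fun q hq => (mem_filter.1 hq).2)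
    have hb : ∑ v ∈ V, ∑ w ∈ (W v).filter (far v), ff v w ≤
        max Cc 0 * (μ + μ ^ 2) * Real.exp (-(Real.sqrt Λ' / 20)) := by
      refine le_trans ?_ (hc.trans (mul_le_mul_of_nonneg_right
        (mul_le_mul (le_max_left _ _) hμS hμS0 (le_max_right _ _)) (Real.exp_pos _).le))
      refine le_trans (sum_le_sum fun v hv => sum_le_sum_of_subset_of_nonneg ?_
        fun w _ _ => hff0 v w) (sum_le_sum_of_subset_of_nonneg
          (fun v hv => mem_filter.2 ⟨(mem_filter.1 hv).1, .inl (mem_filter.1 hv).2⟩)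
          fun v _ _ => sum_nonneg fun w _ => hff0 v w)
      intro w hw
      obtain ⟨hwW, hwfar⟩ := mem_filter.1 hw
      obtain ⟨hwS, hwl, hwD⟩ := mem_filter.1 hwW
      refine mem_filter.2 ⟨mem_filter.2 ⟨hwS, .inr hwl⟩, ?_, hwfar, hwD.le⟩
      rw [(mem_filter.1 hv).2, hwl]
      intro h
      linarith
    refine (mul_le_mul_of_nonneg_right hb (by positivity)).trans ?_
    rw [show max Cc 0 * (μ + μ ^ 2) * Real.exp (-(Real.sqrt Λ' / 20)) * (2 * Real.exp u) =
      2 * max Cc 0 * (μ + μ ^ 2) * (Real.exp (-(Real.sqrt Λ' / 20)) * Real.exp u) by ring,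
      ← Real.exp_add]
    refine mul_le_mul_of_nonneg_left ?_ (mul_nonneg (by positivity) hM0)
    refine Real.exp_le_exp.2 ?_
    simp only [hu]
    norm_num [gainC]
    linarith [Real.sqrt_nonneg Λ']
  -- the levels
  set J := ⌈4 * Λ⌉₊ + 1 with hJ
  set lev : ℕ → ℕ → ℕ → Prop := fun j v w => dist2 P.ψ v w < Real.exp (-u) ∧
    (1 / 2 : ℝ) ^ (j + 1) < dist2 P.ψ v w ∧
    dist2 P.ψ v w ≤ 2 * (1 / 2 : ℝ) ^ (j + 1) with hlev
  have hG0 : ∀ v w, 0 ≤ G v w := by
    intro v w
    simp only [hG]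
    split_ifs
    · have : 0 ≤ dist2 P.ψ v w :=
        le_max_of_le_left (mul_nonneg (hP.nonneg v) (Nat.cast_nonneg _))
      exact mul_nonneg (hff0 v w) (div_nonneg (by linarith) this)
    · exact le_rfl
  have hB : ∀ j, ∑ v ∈ V, ∑ w ∈ (W v).filter (lev j v), G v w ≤
      2 * (max Cb 0 + max Ch 0) * (μ + μ ^ 2) * E := by
    intro j
    set x : ℝ := (1 / 2 : ℝ) ^ (j + 1) with hx
    have hxp : 0 < x := by positivity
    by_cases hne : ∀ v ∈ V, (W v).filter (lev j v) = ∅
    · rw [sum_congr rfl fun v hv => by rw [hne v hv, sum_empty], sum_const_zero]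
      positivity
    push Not at hne
    obtain ⟨v1, hv1, hne1⟩ := hne
    obtain ⟨w1, hw1⟩ := hne1
    obtain ⟨hw1W, hl1, hl2, hl3⟩ := mem_filter.1 hw1
    have hxhi : x ≤ Real.exp (-u) := hl2.le.trans hl1.le
    have hxlo : Real.exp (-(2 * Λ)) ≤ x := by linarith [hD0 v1 hv1 w1 hw1W]
    have hux : u ≤ 2 * Λ := by
      have := Real.exp_le_exp.1 (hxlo.trans hxhi)
      linarith
    have hxx0 : x ≤ x0 := by
      refine hxhi.trans ((Real.le_log_iff_exp_le hx0).1 ?_)
      have h := Real.abs_le_sqrt (hl4.trans (hΛ.trans (show Λ ≤ Λ' by linarith)))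
      have := neg_abs_le (100 * Real.log x0)
      simp only [hu]
      linarith
    set bad : ℕ → ℕ → Prop := fun v w => BadPair P.γ P.ψ Λ x v w with hbad
    set band : ℕ → ℕ → Prop := fun v w => x ≤ Real.exp (-(49 / 100 * Λ)) ∧ P.lam w = Λ' ∧
      x < dist2 P.ψ v w ∧ dist2 P.ψ v w ≤ 2 * x ∧ Tight P.ψ x v w ∧
      PairMajor P.γ Λ x (qd v w) (qd w v) ∧ (P.goodSet v w).Nonempty with hband'
    have hpt2 : ∀ v ∈ V, ∀ w ∈ (W v).filter (lev j v), G v w ≤
        2 * ((if bad v w then ff v w else 0) / x +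
          wt P.ψ v * (if band v w then wt P.ψ w / dist2 P.ψ v w else 0)) := by
      intro v hv w hw
      obtain ⟨hwW, hd1, hd2, hd3⟩ := mem_filter.1 hw
      obtain ⟨hvS, hvl⟩ := mem_filter.1 hv
      obtain ⟨hwS, hwl, -⟩ := mem_filter.1 hwW
      set D := dist2 P.ψ v w with hD
      have hDp : 0 < D := hxp.trans hd2
      have hD1 : D ≤ 1 := hd1.le.trans (Real.exp_le_one_iff.2 (by linarith))
      have hn0 : 0 ≤ (if bad v w then ff v w else 0) / x := by
        refine div_nonneg ?_ hxp.le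
        split_ifs <;> simp [hff0]
      have hn1 : 0 ≤ wt P.ψ v * (if band v w then wt P.ψ w / D else 0) := by
        refine mul_nonneg (hw0 v) ?_
        split_ifs
        · exact div_nonneg (hw0 w) hDp.le
        · exact le_rfl
      simp only [hG]
      by_cases hg : (P.goodSet v w).Nonempty
      swap
      · rw [if_neg hg]
        linarith
      rw [if_pos hg]
      have hGle : ff v w * ((1 + D) / D) ≤ 2 * (ff v w / D) := by
        rw [show ff v w * ((1 + D) / D) = (1 + D) * (ff v w / D) by ring]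
        exact mul_le_mul_of_nonneg_right (by linarith) (div_nonneg (hff0 v w) hDp.le)
      refine hGle.trans (mul_le_mul_of_nonneg_left ?_ two_pos.le)
      obtain ⟨n, hn⟩ := hg
      obtain ⟨hnear, hgood⟩ := mem_filter.1 hn
      have hn4 : |(n : ℝ) + P.γ * mdiff v w| ≤ 4 * x := by
        have := (mem_filter.1 hnear).2
        linarith
      by_cases hb : bad v w
      · rw [if_pos hb]
        have : ff v w / D ≤ ff v w / x := div_le_div_of_nonneg_left (hff0 v w) hxp hd2.le
        linarith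
      have hvw : v ≠ w := by
        intro h
        rw [h] at hvl
        linarith
      have htm : Tight P.ψ x v w ∧ PairMajor P.γ Λ x (qd v w) (qd w v) := by
        by_contra hh
        exact hb ⟨hvw, hd3, ⟨n, hn4⟩, hh⟩
      have hxb : x ≤ Real.exp (-(49 / 100 * Λ)) := by
        by_contra hh
        refine hgood ?_
        refine hkill P (hle _ hlk) v hvS w hwS (by linarith) x ?_ hxx0 hd3 htm.1 ?_ n hn4
        · rw [hvl]; exact (not_le.1 hh).le
        · rw [hvl]; exact htm.2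
      rw [if_neg hb, if_pos ⟨hxb, hwl, hd2, hd3, htm.1, htm.2, n, hn⟩, zero_div, zero_add,
        hff, mul_div_assoc]
    refine (sum_le_sum fun v hv => sum_le_sum (hpt2 v hv)).trans ?_
    simp only [← mul_sum, sum_add_distrib, ← sum_div]
    have hb1 : (∑ v ∈ V, ∑ w ∈ (W v).filter (lev j v), if bad v w then ff v w else 0) / x ≤
        max Cb 0 * (μ + μ ^ 2) * E := by
      have hg := hgain P (hle _ hlb) S hSS Λ Λ' hΛ' (fun q hq => (mem_filter.1 hq).2) x hxlo hxhi
      have hle1 : (∑ v ∈ V, ∑ w ∈ (W v).filter (lev j v), if bad v w then ff v w else 0) ≤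
          max Cb 0 * (μ + μ ^ 2) * x ^ (1 + gainC) := by
        refine le_trans ?_ (hg.trans (mul_le_mul_of_nonneg_right
          (mul_le_mul (le_max_left _ _) hμS hμS0 (le_max_right _ _)) (by positivity)))
        simp only [← sum_filter]
        refine le_trans (sum_le_sum fun v hv => sum_le_sum_of_subset_of_nonneg ?_
          fun w _ _ => hff0 v w) (sum_le_sum_of_subset_of_nonneg
            (fun v hv => mem_filter.2 ⟨(mem_filter.1 hv).1, .inl (mem_filter.1 hv).2⟩)
            fun v _ _ => sum_nonneg fun w _ => hff0 v w)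
        intro w hw
        obtain ⟨hwl1, hwb⟩ := mem_filter.1 hw
        obtain ⟨hwS, hwl, -⟩ := mem_filter.1 (mem_filter.1 hwl1).1
        refine mem_filter.2 ⟨mem_filter.2 ⟨hwS, .inr hwl⟩, ?_, hwb⟩
        rw [(mem_filter.1 hv).2, hwl]
        intro h
        linarith
      rw [div_le_iff₀ hxp]
      refine hle1.trans ?_
      rw [Real.rpow_add hxp, Real.rpow_one, mul_assoc (max Cb 0 * (μ + μ ^ 2)), mul_comm x]
      refine mul_le_mul_of_nonneg_left (mul_le_mul_of_nonneg_right ?_ hxp.le)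
        (mul_nonneg (le_max_right _ _) hM0)
      refine (Real.rpow_le_rpow hxp.le hxhi (by norm_num [gainC])).trans (le_of_eq ?_)
      rw [← Real.exp_mul, hE, hu]
      congr 1
      ring
    have hb2 : ∑ v ∈ V, wt P.ψ v *
        (∑ w ∈ (W v).filter (lev j v), if band v w then wt P.ψ w / dist2 P.ψ v w else 0) ≤
        max Ch 0 * (μ + μ ^ 2) * E := by
      have hv2 : ∀ v ∈ V, (∑ w ∈ (W v).filter (lev j v),
          if band v w then wt P.ψ w / dist2 P.ψ v w else 0) ≤ max Ch 0 * E := by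
        intro v hv
        obtain ⟨hvS, hvl⟩ := mem_filter.1 hv
        by_cases hxb : x ≤ Real.exp (-(49 / 100 * Λ))
        swap
        · refine le_trans (le_of_eq (sum_eq_zero fun w _ => if_neg fun h => hxb h.1)) ?_
          positivity
        have hb := hband P (hle _ hlh) v hvS Λ' (by rw [hvl]; exact hΛ') x
          (by rw [hvl]; exact hxlo) (by rw [hvl]; exact hxb)
        rw [← sum_filter]
        refine le_trans (sum_le_sum_of_subset_of_nonneg ?_ fun w _ _ => ?_) (hb.trans ?_)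
        · intro w hw
          obtain ⟨hw1, -, hb1, hb2, hb3, hb4, hb5, hb6⟩ := mem_filter.1 hw
          refine mem_filter.2 ⟨(mem_filter.1 (mem_filter.1 hw1).1).1, hb1, hb2, hb3, hb4, ?_, hb6⟩
          rw [hvl]; exact hb5
        · exact div_nonneg (hw0 w) (le_max_of_le_left (mul_nonneg (hP.nonneg v) (Nat.cast_nonneg _)))
        · refine mul_le_mul (le_max_left _ _) ?_ (Real.exp_pos _).le (le_max_right _ _)
          rw [hvl, hE]
          refine Real.exp_le_exp.2 ?_
          simp only [hu] at hux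
          norm_num [gainC]
          linarith [Real.sqrt_nonneg Λ']
      refine (sum_le_sum fun v hv => mul_le_mul_of_nonneg_left (hv2 v hv) (hw0 v)).trans ?_
      rw [← sum_mul]
      have hsum : ∑ v ∈ V, wt P.ψ v ≤ μ + μ ^ 2 :=
        le_trans (BilinearAux.mass_mono hP.nonneg (filter_subset _ _))
          (le_add_of_nonneg_right (sq_nonneg μ))
      exact (mul_le_mul_of_nonneg_right hsum (by positivity)).trans (le_of_eq (by ring))
    linarith
  have hsplit : ∀ v ∈ V, ∑ w ∈ W v, G v w ≤ ∑ w ∈ (W v).filter (far v), G v w +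
      ∑ j ∈ range J, ∑ w ∈ (W v).filter (lev j v), G v w := by
    intro v hv
    simp only [sum_filter]
    rw [sum_comm (s := range J), ← sum_add_distrib]
    refine sum_le_sum fun w hw => ?_
    have hs : 0 ≤ ∑ j ∈ range J, if lev j v w then G v w else 0 :=
      sum_nonneg fun j _ => by split_ifs <;> simp [hG0]
    by_cases hf : far v w
    · rw [if_pos hf]; linarith
    rw [if_neg hf, zero_add]
    have hlt : dist2 P.ψ v w < Real.exp (-u) := not_le.1 hf
    have hlo := hD0 v hv w hw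
    have hDp : 0 < dist2 P.ψ v w := lt_of_lt_of_le (by positivity) hlo
    obtain ⟨j, hj1, hj2⟩ := exists_level hDp (hlt.le.trans (Real.exp_le_one_iff.2 (by linarith)))
    have hjJ : j < J := by
      have h1 : Real.exp (-(2 * Λ)) ≤ (1 / 2 : ℝ) ^ (j + 1) := by linarith
      have h2 := (Real.le_log_iff_exp_le (by positivity)).2 h1
      rw [Real.log_pow, one_div, Real.log_inv] at h2
      push_cast at h2
      have hl2 : (1 / 2 : ℝ) ≤ Real.log 2 := by linarith [Real.log_two_gt_d9]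
      have h3 := mul_le_mul_of_nonneg_left hl2 (show (0 : ℝ) ≤ (j : ℝ) + 1 by positivity)
      have h4 : (j : ℝ) < (J : ℝ) := by
        rw [hJ]
        push_cast
        linarith [Nat.le_ceil (4 * Λ)]
      exact_mod_cast h4
    refine le_trans (le_of_eq (if_pos ?_).symm) (single_le_sum (f := fun j =>
      if lev j v w then G v w else 0) (fun j _ => by split_ifs <;> simp [hG0]) (mem_range.2 hjJ))
    exact ⟨hlt, hj1, hj2⟩
  have hJle : (J : ℝ) ≤ 6 * Λ' := by
    rw [hJ]
    push_cast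
    linarith [Nat.ceil_lt_add_one (show (0 : ℝ) ≤ 4 * Λ by linarith)]
  calc ∑ v ∈ V, ∑ w ∈ W v, P.gTerm v w
      ≤ max Cg 0 * Λ' ^ 2 * ∑ v ∈ V, ∑ w ∈ W v, G v w := by
        simp only [mul_sum]
        exact sum_le_sum fun v hv => sum_le_sum fun w hw => hpt v hv w hw
    _ ≤ max Cg 0 * Λ' ^ 2 * (2 * max Cc 0 * (μ + μ ^ 2) * E +
          6 * Λ' * (2 * (max Cb 0 + max Ch 0) * (μ + μ ^ 2) * E)) := by
        refine mul_le_mul_of_nonneg_left ((sum_le_sum hsplit).trans ?_) (by positivity)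
        rw [sum_add_distrib, sum_comm]
        refine add_le_add hA ((sum_le_sum fun j _ => hB j).trans ?_)
        rw [sum_const, card_range, nsmul_eq_mul]
        exact mul_le_mul_of_nonneg_right hJle (by positivity)
    _ ≤ _ := by
        have h : 2 * max Cc 0 * (μ + μ ^ 2) * E ≤ Λ' * (2 * max Cc 0 * (μ + μ ^ 2) * E) :=
          le_mul_of_one_le_left (by positivity) hΛ'1
        have h' := mul_le_mul_of_nonneg_left h (show 0 ≤ max Cg 0 * Λ' ^ 2 by positivity)
        linarith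

theorem exists_crossWindows_le :
    ∃ C lam0 : ℝ, ∀ P : Sys, P.Ok lam0 →
      ∑ q ∈ P.S, ∑ r ∈ P.S.filter (fun r => P.lam q ≠ P.lam r ∧
          dist2 P.ψ q r < Real.exp (Real.sqrt (max (P.lam q) (P.lam r)) / 100)),
          P.gTerm q r ≤
        C * (mass P.ψ P.S + mass P.ψ P.S ^ 2) := by
  obtain ⟨C, lam0, hC, hpair⟩ := exists_windowPair_le
  obtain ⟨Cs, hsum⟩ := exists_sum_windows_le 4 (gainC / 100) (by norm_num [gainC])
  refine ⟨2 * C * (2 * max Cs 0), max lam0 1, fun P hP => ?_⟩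
  have hP0 : P.Ok lam0 :=
    { hP with lam_ge := fun q hq => (le_max_left _ _).trans (hP.lam_ge q hq) }
  set μ := mass P.ψ P.S with hμ
  have hμ0 : 0 ≤ μ := BilinearAux.mass_nonneg hP.nonneg _
  have hM0 : 0 ≤ μ + μ ^ 2 := by positivity
  set T := P.S.image P.lam with hT
  have hT1 : ∀ t ∈ T, 1 ≤ t ∧ lam0 ≤ t := by
    intro t ht
    obtain ⟨q, hq, rfl⟩ := mem_image.1 ht
    exact ⟨(le_max_right _ _).trans (hP.lam_ge q hq), (le_max_left _ _).trans (hP.lam_ge q hq)⟩
  have hTsep : ∀ t ∈ T, ∀ u ∈ T, t = u ∨ 1000 * t ≤ u ∨ 1000 * u ≤ t := by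
    intro t ht u hu
    obtain ⟨q, hq, rfl⟩ := mem_image.1 ht
    obtain ⟨r, hr, rfl⟩ := mem_image.1 hu
    exact hP.sep q hq r hr
  set K : ℕ → ℕ → ℝ := fun q r => if P.lam q < P.lam r ∧
    dist2 P.ψ q r < Real.exp (Real.sqrt (P.lam r) / 100) then P.gTerm q r else 0 with hK
  have hone : ∑ q ∈ P.S, ∑ r ∈ P.S, K q r ≤ C * (μ + μ ^ 2) * (2 * max Cs 0) := by
    have hre : ∑ q ∈ P.S, ∑ r ∈ P.S, K q r = ∑ Λ' ∈ T, ∑ Λ ∈ T.filter (fun Λ => Λ < Λ'),
        ∑ v ∈ P.S.filter (fun v => P.lam v = Λ), ∑ w ∈ P.S.filter (fun w => P.lam w = Λ' ∧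
          dist2 P.ψ v w < Real.exp (Real.sqrt Λ' / 100)), P.gTerm v w := by
      rw [sum_comm, ← sum_fiberwise_of_maps_to (g := P.lam) (t := T)
        (fun r hr => mem_image_of_mem _ hr)]
      refine sum_congr rfl fun Λ' _ => ?_
      rw [sum_comm, ← sum_fiberwise_of_maps_to (g := P.lam) (t := T)
        (fun q hq => mem_image_of_mem _ hq), sum_filter]
      refine sum_congr rfl fun Λ hΛ => ?_
      split_ifs with hlt
      · refine sum_congr rfl fun v hv => ?_
        rw [sum_filter, sum_filter]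
        refine sum_congr rfl fun w _ => ?_
        simp only [hK]
        by_cases hw : P.lam w = Λ'
        · rw [(mem_filter.1 hv).2, hw]
          simp [hlt]
        · simp [hw]
      · refine sum_eq_zero fun v hv => sum_eq_zero fun w hw => if_neg fun h => hlt ?_
        rw [← (mem_filter.1 hv).2, ← (mem_filter.1 hw).2]
        exact h.1
    rw [hre]
    calc _ ≤ ∑ Λ' ∈ T, ∑ _Λ ∈ T.filter (fun Λ => Λ < Λ'), C * (μ + μ ^ 2) *
            (Λ' ^ 3 * Real.exp (-(gainC / 100 * Real.sqrt Λ'))) := by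
          refine sum_le_sum fun Λ' hΛ' => sum_le_sum fun Λ hΛ => ?_
          obtain ⟨hΛT, hlt⟩ := mem_filter.1 hΛ
          refine hpair P hP0 Λ Λ' (hT1 Λ hΛT).2 ?_
          have h1 := (hT1 Λ hΛT).1
          have h2 := (hT1 Λ' hΛ').1
          rcases hTsep Λ hΛT Λ' hΛ' with h | h | h
          · exact absurd h hlt.ne
          · exact h
          · linarith
      _ ≤ ∑ Λ' ∈ T, C * (μ + μ ^ 2) *
            (2 * (Λ' ^ 4 * Real.exp (-(gainC / 100 * Real.sqrt Λ')))) := by
          refine sum_le_sum fun Λ' hΛ' => ?_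
          rw [sum_const, nsmul_eq_mul]
          have h1 := (hT1 Λ' hΛ').1
          have hc : ((T.filter (fun Λ => Λ < Λ')).card : ℝ) ≤ 2 * Λ' := by
            refine (card_windows_le _ Λ' (fun t ht => ?_) fun t ht u hu => ?_).trans ?_
            · exact ⟨(hT1 t (mem_filter.1 ht).1).1, (mem_filter.1 ht).2.le⟩
            · exact hTsep t (mem_filter.1 ht).1 u (mem_filter.1 hu).1
            · rw [max_eq_left h1]
              linarith [Real.log_le_sub_one_of_pos (show 0 < Λ' by linarith)]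
          refine (mul_le_mul_of_nonneg_right hc (by positivity)).trans (le_of_eq ?_)
          ring
      _ ≤ _ := by
          rw [← mul_sum, ← mul_sum]
          refine mul_le_mul_of_nonneg_left ?_ (mul_nonneg hC hM0)
          exact mul_le_mul_of_nonneg_left ((hsum T (fun t ht => (hT1 t ht).1) hTsep).trans
            (le_max_left _ _)) two_pos.le
  have hpt : ∀ q ∈ P.S, ∀ r ∈ P.S, (if P.lam q ≠ P.lam r ∧ dist2 P.ψ q r <
      Real.exp (Real.sqrt (max (P.lam q) (P.lam r)) / 100) then P.gTerm q r else 0) =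
        K q r + K r q := by
    intro q hq r hr
    simp only [hK]
    rcases lt_trichotomy (P.lam q) (P.lam r) with h | h | h
    · simp [h, h.ne, max_eq_right h.le, not_lt.2 h.le]
    · simp [h]
    · simp [h, h.ne', max_eq_left h.le, not_lt.2 h.le, BilinearAux.dist2_comm P.ψ r q,
        gTerm_comm hP hr hq]
  simp only [sum_filter]
  rw [sum_congr rfl fun q hq => sum_congr rfl (hpt q hq)]
  simp only [sum_add_distrib]
  rw [sum_comm (f := fun q r => K r q)]
  have hK2 := add_le_add hone hone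
  linarith

end Vale.Agent.P028.T2
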