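import Vale.Agent.P028.Defs
import Vale.Agent.P028.T2.CrossLow

/-!
Definitions for the second stage of P028: every shift and every `ψ q ≤ exp (-(log log q) ^ 2)`.

The moduli are split into windows according to `log (1 / ψ q)`; `lam q` is the parameter of the
window of `q` and `A q / B q` a short vector of the shift at that scale.  The class `a B + A ≡ 0` is
deleted at the primes of `q` which exceed the cut `y q` and do not divide `B q`; at the other primes
of `q` a constant weight is used.  This is the bump of P028 for the modified approximation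
`At q / Bt q`, where `Bt q = B q * primorial (y q)`.
-/

noncomputable section

namespace Vale.Agent.P028.T2

open Finset MeasureTheory
open scoped Classical

/-- Ratio of the two ends of a window. -/
def rhoC : ℝ := 1001 / 1000

/-- The exponent on the first sum in a final state. -/
def aOne : ℝ := 49999 / 100000

/-- The exponent on the second sum in a final state. -/
def aTwo : ℝ := 49998999 / 100000000

/-- The exponent of the splitting. -/
def betaT : ℝ := 49998001 / 100000000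

/-- The exponent of the masses in the splitting. -/
def thetaT : ℝ := 50001 / 100000

/-- The ratio exponent of the first sum. -/
def sT : ℝ := 1 - 1 / 100000000

/-- The ratio exponent of the second sum. -/
def tT : ℝ := sT * aOne / aTwo

/-- The spare parameter. -/
def kapC : ℝ := 12 / 1000

/-- The slack parameter. -/
def slackC : ℝ := 1 / 1000

/-- The size above which a variable is large. -/
def sigC : ℝ := 1 / 2000

/-- The gain. -/
def gainC : ℝ := 5 / 100000000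

/-- The cut below which the deleted classes are replaced by weights: every prime above it can
coincide only boundedly often. -/
def yCut (γ p : ℝ) (A : ℤ) (B : ℕ) : ℕ :=
  ⌈Real.sqrt (Real.log (2 + (B : ℝ) + |(B : ℝ) * γ - A| / p))⌉₊

/-- The cut of a pair at distance `D`: below it the coincidences are counted periodically. -/
def cutY (D : ℝ) : ℕ := ⌊Real.log (max D 1) / 2⌋₊

/-- A system: a shift, radii, moduli and for each modulus the data of its window. -/
structure Sys where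
  γ : ℝ
  ψ : ℕ → ℝ
  S : Finset ℕ
  lam : ℕ → ℝ
  A : ℕ → ℤ
  B : ℕ → ℕ

/-- The hypotheses on a system. -/
structure Sys.Ok (P : Sys) (lam0 : ℝ) : Prop where
  gamma_nonneg : 0 ≤ P.γ
  gamma_lt : P.γ < 1
  nonneg : ∀ q, 0 ≤ P.ψ q
  pos : ∀ q ∈ P.S, 0 < q
  psi_pos : ∀ q ∈ P.S, 0 < P.ψ q
  le_psi : ∀ q ∈ P.S, Real.exp (-(rhoC * P.lam q)) ≤ P.ψ q
  psi_le : ∀ q ∈ P.S, P.ψ q ≤ Real.exp (-(P.lam q))
  lam_ge : ∀ q ∈ P.S, lam0 ≤ P.lam q
  log_le : ∀ q ∈ P.S, Real.log q ≤ Real.exp (2 * Real.sqrt (P.lam q))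
  sep : ∀ q ∈ P.S, ∀ r ∈ P.S,
    P.lam q = P.lam r ∨ 1000 * P.lam q ≤ P.lam r ∨ 1000 * P.lam r ≤ P.lam q
  short : ∀ q ∈ P.S, ShortVec P.γ (Real.exp (-(rhoC * P.lam q))) (P.A q) (P.B q)
  const : ∀ q ∈ P.S, ∀ r ∈ P.S, P.lam q = P.lam r → P.A q = P.A r ∧ P.B q = P.B r

namespace Sys

variable (P : Sys)

/-- The cut of a modulus. -/
def y (q : ℕ) : ℕ := yCut P.γ (P.ψ q) (P.A q) (P.B q)

/-- The denominator of the modified approximation: all primes up to the cut carry weights. -/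
def Bt (q : ℕ) : ℕ := P.B q * primorial (P.y q)

/-- The product of the primes of `q` at which a class is deleted. -/
def detProd (q : ℕ) : ℕ := ∏ p ∈ q.primeFactors.filter (fun p => ¬ p ∣ P.Bt q), p

/-- The numerator of the modified approximation: it is `1` modulo `Bt q` and
`A q * primorial (y q)` modulo `detProd q`. -/
def At (q : ℕ) : ℤ :=
  1 + (P.Bt q : ℤ) *
    (Nat.gcdA (P.Bt q) (P.detProd q) * (P.A q * (primorial (P.y q) : ℤ) - 1))

/-- The bump of a modulus. -/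
def bmp (q : ℕ) (x : ℝ) : ℝ := bump P.γ P.ψ (P.At q) (P.Bt q) q x

/-- The overlap of two bumps. -/
def ov (q r : ℕ) : ℝ := ∫ x, P.bmp q x * P.bmp r x

end Sys

/-- The form which decides the coincidences of two classes. -/
def zform2 (A : ℤ) (B : ℕ) (A' : ℤ) (B' : ℕ) (q r : ℕ) (n : ℤ) : ℤ :=
  n * (B : ℤ) * B' + (qd r q : ℤ) * A * B' - (qd q r : ℤ) * A' * B

namespace Sys

variable (P : Sys)

/-- A coincidence number which is off the line of a common approximation. -/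
def Good (q r : ℕ) (n : ℤ) : Prop :=
  ¬ (P.A q = P.A r ∧ P.B q = P.B r ∧ zform (P.A q) (P.B q) q r n = 0)

/-- The good coincidence numbers. -/
def goodSet (q r : ℕ) : Finset ℤ := (nearSet P.γ P.ψ q r).filter (fun n => P.Good q r n)

/-- The pairs on the common line all of whose primes carry weights. -/
def Exc (q r : ℕ) : Prop :=
  q ≠ r ∧ P.A q = P.A r ∧ P.B q = P.B r ∧
    (∃ n ∈ nearSet P.γ P.ψ q r, zform (P.A q) (P.B q) q r n = 0) ∧
    (∀ p ∈ (qd q r).primeFactors, p ≤ P.y q) ∧ ∀ p ∈ (qd r q).primeFactors, p ≤ P.y r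

/-- The overlap on the line. -/
def excTerm (q r : ℕ) : ℝ :=
  if P.Exc q r then
    2 * (if P.ψ q ≤ P.ψ r then wt P.ψ r * P.ψ q else wt P.ψ q * P.ψ r) / dist2 P.ψ q r
  else 0

/-- The product over the primes above `y0` of the common part at which the classes coincide. -/
def wF (y0 q r : ℕ) (n : ℤ) : ℝ :=
  ∏ p ∈ (Nat.gcd q r).primeFactors.filter (fun p => y0 < p ∧ P.y q < p ∧ P.y r < p ∧
      ¬ p ∣ qd q r * qd r q ∧ ¬ p ∣ P.B q ∧ ¬ p ∣ P.B r ∧
      (p : ℤ) ∣ zform2 (P.A q) (P.B q) (P.A r) (P.B r) q r n), ratio p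

/-- The bound on an overlap off the line. -/
def gTerm (q r : ℕ) : ℝ :=
  wt P.ψ q * wt P.ψ r / dist2 P.ψ q r *
    ∑ n ∈ P.goodSet q r, hFac 0 (qd q r * qd r q) * P.wF 0 q r n

end Sys

/-- The range of the multipliers. -/
def hR (x : ℝ) : ℕ := ⌈x ^ (-sigC)⌉₊

/-- A short resonance of `α` at the size of `c`. -/
def Maj2 (x α : ℝ) (c : ℕ) : Prop :=
  ∃ h : ℕ, 1 ≤ h ∧ h ≤ hR x ∧ ∃ l : ℤ, |α * h - l| * (2 : ℝ) ^ Nat.log 2 c ≤ x ^ (1 - sigC)

/-- A major arc of `γ` attached to the quotient `q'`: the fraction `L / (H e)`, `e ∣ q'`. -/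
def SideData (γ x : ℝ) (q' H e : ℕ) (L : ℤ) : Prop :=
  1 ≤ H ∧ (H : ℝ) ≤ 4 * x ^ (-(2 * sigC)) ∧ e ∣ q' ∧
    |((H * e : ℕ) : ℝ) * γ - L| * q' ≤ 2 * x ^ (1 - 3 * sigC) * e

/-- The largest product of the two denominators. -/
def ebd (Λ x : ℝ) : ℝ := x ^ (-(2 + kapC + 4 * sigC)) * Real.exp (2 * Λ ^ (9 / 10 : ℝ))

/-- Both quotients lie on major arcs with small denominators. -/
def PairMajor (γ Λ x : ℝ) (q' r' : ℕ) : Prop :=
  ∃ (H e : ℕ) (L : ℤ) (H' e' : ℕ) (L' : ℤ),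
    SideData γ x q' H e L ∧ SideData γ x r' H' e' L' ∧ ((e * e' : ℕ) : ℝ) ≤ ebd Λ x

/-- Neither radius has slack. -/
def Tight (ψ : ℕ → ℝ) (x : ℝ) (v w : ℕ) : Prop :=
  x ^ (1 + slackC) ≤ ψ w * (qd v w : ℝ) ∧ x ^ (1 + slackC) ≤ ψ v * (qd w v : ℝ)

/-- The pairs which the bilinear bound treats. -/
def BadPair (γ : ℝ) (ψ : ℕ → ℝ) (Λ x : ℝ) (v w : ℕ) : Prop :=
  v ≠ w ∧ dist2 ψ v w ≤ 2 * x ∧ (∃ n : ℤ, |(n : ℝ) + γ * mdiff v w| ≤ 4 * x) ∧
    ¬ (Tight ψ x v w ∧ PairMajor γ Λ x (qd v w) (qd w v))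

theorem PairMajor.symm {γ Λ x : ℝ} {q' r' : ℕ} (h : PairMajor γ Λ x q' r') :
    PairMajor γ Λ x r' q' := by
  obtain ⟨H, e, L, H', e', L', h1, h2, h3⟩ := h
  exact ⟨H', e', L', H, e, L, h2, h1, by rwa [Nat.mul_comm e' e]⟩

theorem Tight.symm {ψ : ℕ → ℝ} {x : ℝ} {v w : ℕ} (h : Tight ψ x v w) : Tight ψ x w v :=
  ⟨h.2, h.1⟩

theorem BadPair.symm {γ : ℝ} {ψ : ℕ → ℝ} {Λ x : ℝ} {v w : ℕ} (h : BadPair γ ψ Λ x v w) :
    BadPair γ ψ Λ x w v := by
  obtain ⟨h1, h2, ⟨n, hn⟩, h3⟩ := h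
  refine ⟨h1.symm, by rwa [dist2, max_comm], ⟨-n, ?_⟩, fun h' => h3 ⟨h'.1.symm, h'.2.symm⟩⟩
  have : ((-n : ℤ) : ℝ) + γ * mdiff w v = -((n : ℝ) + γ * mdiff v w) := by
    simp only [mdiff]; push_cast; ring
  rwa [this, abs_neg]

end Vale.Agent.P028.T2
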