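import Vale.Agent.P028.T2.State
import Vale.Agent.P028.T2.GainMajor
import Vale.Agent.P028.T2.PTail
import Vale.Agent.P028.GainBase

/-!
The bad pairs of one window in a final state: a spare, a slack radius, a variable off the major arcs
or a large downward deviation each gain a power of `x`; no pair is left over.
-/

noncomputable section

namespace Vale.Agent.P028.T2

open Finset
open scoped Classical

namespace GainSame

/-- The facts used about the moduli of one window. -/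
structure Window (ψ : ℕ → ℝ) (S : Finset ℕ) (Λ : ℝ) : Prop where
  nonneg : ∀ q, 0 ≤ ψ q
  pos : ∀ q ∈ S, 0 < q
  le_psi : ∀ q ∈ S, Real.exp (-(rhoC * Λ)) ≤ ψ q
  psi_le : ∀ q ∈ S, ψ q ≤ Real.exp (-Λ)
  log_le : ∀ q ∈ S, Real.log q ≤ Real.exp (2 * Real.sqrt Λ)
  lam_ge : (2 : ℝ) ^ (60 : ℕ) ≤ Λ

/-- The pairs of a final state. -/
def StatePair (γ : ℝ) (ψ : ℕ → ℝ) (Λ x : ℝ) (U : Finset ℕ) (k : ℕ → ℕ) (v w : ℕ) : Prop :=
  BadPair γ ψ Λ x v w ∧ NoCoDev U k v w ∧ upDev U k w ≤ upDev U k v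

/-- The weight of a downward deviation. -/
def uW (N d : ℕ) : ℝ := (Nat.totient N : ℝ) / N / Nat.totient d

theorem uW_nonneg (N d : ℕ) : 0 ≤ uW N d := by unfold uW; positivity

/-- The threshold of the downward deviations. -/
def dCut (Λ x : ℝ) : ℝ :=
  if Real.log x⁻¹ ≤ Λ ^ (1 / 4 : ℝ) then max (x ^ (-sigC)) (Real.exp (Λ ^ (9 / 10 : ℝ)))
  else x ^ (-sigC)

theorem le_dCut (Λ x : ℝ) : x ^ (-sigC) ≤ dCut Λ x := by
  unfold dCut; split_ifs
  · exact le_max_left _ _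
  · exact le_rfl

theorem dCut_le (Λ x : ℝ) :
    dCut Λ x ≤ max (x ^ (-sigC)) (Real.exp (Λ ^ (9 / 10 : ℝ))) := by
  unfold dCut; split_ifs
  · exact le_rfl
  · exact le_max_left _ _

theorem coprime_up_down {U : Finset ℕ} {k : ℕ → ℕ} (hU : ∀ p ∈ U, p.Prime) {v w : ℕ}
    (h : NoCoDev U k v w) : Nat.Coprime (upDev U k v) (downDev U k w) := by
  refine Nat.coprime_of_dvd fun p hp h1 h2 => ?_
  have e1 := hp.factorization_pos_of_dvd (upDev_pos hU k v).ne' h1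
  have e2 := hp.factorization_pos_of_dvd (downDev_pos hU k w).ne' h2
  rw [upDev, BilinearAux.factorization_prodPow hU] at e1
  rw [downDev, BilinearAux.factorization_prodPow hU] at e2
  by_cases hpU : p ∈ U
  · rw [if_pos hpU] at e1 e2
    rcases h p hpU with e | e <;> omega
  · rw [if_neg hpU] at e1
    exact lt_irrefl 0 e1

theorem uSum_le {N : ℕ} (hN : 0 < N) {D : Finset ℕ} (hD : D ⊆ N.divisors) :
    ∑ d ∈ D, uW N d ≤ cCen := by
  refine (Finset.sum_le_sum_of_subset_of_nonneg hD fun d _ _ => uW_nonneg N d).trans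
    (le_of_eq_of_le ?_ (centre_sum_le hN))
  rw [Finset.mul_sum]
  exact Finset.sum_congr rfl fun d _ => by unfold uW; ring

/-! ### One side of a state -/

section Side

variable {P S U V W : Finset ℕ} {i j k : ℕ → ℕ}

/-- A side sum: the downward deviations first. -/
theorem side_down_first (h : FinState P S U V W i j) (T : Finset ℕ)
    (f : ℕ → ℝ) (D : Finset ℕ) (hTW : T ⊆ W) (hmap : ∀ w ∈ T, downDev U k w ∈ D) (M : ℝ)
    (hM : ∀ d ∈ D, ∑ c ∈ (T.filter (fun w => downDev U k w = d)).image (upDev U k), f c ≤ M) :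
    ∑ w ∈ T, uW (centre U k) (downDev U k w) * f (upDev U k w) ≤
      (∑ d ∈ D, uW (centre U k) d) * M :=
  sum_pairs_le ((dev_injOn h).2.mono (Finset.coe_subset.2 hTW)) hmap
    (fun d _ => uW_nonneg _ d) hM

/-- A side sum: the upward deviations first. -/
theorem side_up_first (h : FinState P S U V W i j) (T : Finset ℕ)
    (f : ℕ → ℝ) (hf : ∀ c, 0 ≤ f c) (hTW : T ⊆ W) (M : ℝ)
    (hM : ∀ c ∈ T.image (upDev U k),
      ∑ d ∈ (T.filter (fun w => upDev U k w = c)).image (downDev U k), uW (centre U k) d ≤ M) :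
    ∑ w ∈ T, uW (centre U k) (downDev U k w) * f (upDev U k w) ≤
      (∑ c ∈ T.image (upDev U k), f c) * M := by
  refine le_of_eq_of_le (Finset.sum_congr rfl fun w _ => mul_comm _ _) ?_
  exact sum_pairs_le (up := downDev U k) (down := upDev U k) (u := f)
    (fun a ha b hb e => (dev_injOn h).2 (hTW ha) (hTW hb) (by
      simp only [Prod.mk.injEq] at e ⊢; exact ⟨e.2, e.1⟩))
    (fun w hw => Finset.mem_image_of_mem _ hw) (fun c _ => hf c) hM

theorem centre_pos' (h : FinState P S U V W i j) : 0 < centre U k :=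
  Finset.prod_pos fun p hp => Nat.pow_pos (h.prime_mem p (h.U_sub hp)).pos

theorem down_mem (h : FinState P S U V W i j) {v w : ℕ} (hv : v ∈ V) (hw : w ∈ W)
    (hk : NoCoDev U k v w) :
    downDev U k v ∈ (centre U k).divisors ∧ downDev U k w ∈ (centre U k).divisors := by
  obtain ⟨-, e1, e2⟩ := centre_dvd_lcm h hv hw hk
  exact ⟨Nat.mem_divisors.2 ⟨e1, (centre_pos' h).ne'⟩,
    Nat.mem_divisors.2 ⟨e2, (centre_pos' h).ne'⟩⟩

end Side

/-! ### The sizes -/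

section Sizes

variable {γ Λ x : ℝ} {ψ : ℕ → ℝ} {P S U V W : Finset ℕ} {i j k : ℕ → ℕ}

theorem qd_le (hwin : Window ψ S Λ) {v w : ℕ} (hw : w ∈ S) (hx : x ≤ 1 / 2)
    (hd : dist2 ψ v w ≤ 2 * x) : (qd v w : ℝ) ≤ Real.exp (2 * Λ) := by
  have hψ0 : Real.exp (-(rhoC * Λ)) ≤ ψ w := hwin.le_psi w hw
  have hΛ : (0 : ℝ) ≤ Λ := le_trans (by positivity) hwin.lam_ge
  have h1 : ψ w * (qd v w : ℝ) ≤ 1 := ((le_max_right _ _).trans hd).trans (by linarith)
  have h2 : Real.exp (-(rhoC * Λ)) * (qd v w : ℝ) ≤ 1 :=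
    (mul_le_mul_of_nonneg_right hψ0 (Nat.cast_nonneg _)).trans h1
  rw [Real.exp_neg, inv_mul_le_iff₀ (Real.exp_pos _), mul_one] at h2
  exact h2.trans (Real.exp_le_exp.2 (mul_le_mul_of_nonneg_right (by norm_num [rhoC]) hΛ))

theorem log_down_le (hwin : Window ψ S Λ) (h : FinState P S U V W i j) {v w : ℕ} (hv : v ∈ V)
    (hw : w ∈ W) (hx : x ≤ 1 / 2) (hd : dist2 ψ v w ≤ 2 * x) (hk : NoCoDev U k v w) :
    Real.log (downDev U k w) ≤ 2 * Λ ∧ Real.log (downDev U k v) ≤ 2 * Λ := by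
  obtain ⟨e1, e2⟩ := qd_eq_of_finState h hv hw hk
  have hd' : dist2 ψ w v ≤ 2 * x := by rwa [dist2, max_comm]
  have key : ∀ (Q a d : ℕ) (n : ℕ), n = Q * (a * d) → 0 < n → (n : ℝ) ≤ Real.exp (2 * Λ) →
      Real.log (d : ℝ) ≤ 2 * Λ := by
    intro Q a d n hn hn0 hle
    have hdn : d ≤ n := Nat.le_of_dvd hn0 (hn ▸ Dvd.dvd.mul_left (dvd_mul_left d a) Q)
    have hd0 : 0 < d := Nat.pos_of_ne_zero (by rintro rfl; simp [hn] at hn0)
    rw [Real.log_le_iff_le_exp (by exact_mod_cast hd0)]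
    exact le_trans (by exact_mod_cast hdn) hle
  exact ⟨key _ _ _ _ e1 (BilinearAux.qd_pos (h.pos_of_mem v (h.V_sub hv)))
      (qd_le hwin (h.W_sub hw) hx hd),
    key _ _ _ _ e2 (BilinearAux.qd_pos (h.pos_of_mem w (h.W_sub hw)))
      (qd_le hwin (h.V_sub hv) hx hd')⟩

theorem tailScale_centre_le (hwin : Window ψ S Λ) (h : FinState P S U V W i j) {v w : ℕ}
    (hv : v ∈ V) (hw : w ∈ W) (hk : NoCoDev U k v w) :
    tailScale (centre U k) ≤ 3 * Real.sqrt Λ := by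
  have hv0 := h.pos_of_mem v (h.V_sub hv)
  have hw0 := h.pos_of_mem w (h.W_sub hw)
  have hs : 4 ≤ Real.sqrt Λ := by
    refine le_trans ?_ (Real.sqrt_le_sqrt hwin.lam_ge)
    rw [show ((2 : ℝ) ^ (60 : ℕ)) = ((2 : ℝ) ^ (30 : ℕ)) ^ 2 by norm_num,
      Real.sqrt_sq (by positivity)]
    norm_num
  refine max_le (by linarith) ?_
  have hN : 0 < centre U k := centre_pos' h
  have hle : centre U k ≤ v * w := Nat.le_of_dvd (Nat.mul_pos hv0 hw0)
    ((centre_dvd_lcm h hv hw hk).1.trans (Nat.lcm_dvd_mul v w))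
  have h1 : Real.log (centre U k) ≤ 2 * Real.exp (2 * Real.sqrt Λ) := by
    calc Real.log (centre U k) ≤ Real.log ((v : ℝ) * w) :=
          Real.log_le_log (by exact_mod_cast hN) (by exact_mod_cast hle)
      _ = Real.log v + Real.log w :=
          Real.log_mul (by exact_mod_cast hv0.ne') (by exact_mod_cast hw0.ne')
      _ ≤ _ := by linarith [hwin.log_le v (h.V_sub hv), hwin.log_le w (h.W_sub hw)]
  rcases (Real.log_natCast_nonneg (centre U k)).eq_or_lt with e | e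
  · rw [← e, Real.log_zero]; linarith
  · refine (Real.log_le_log e h1).trans ?_
    rw [Real.log_mul (by norm_num) (Real.exp_pos _).ne', Real.log_exp]
    linarith [Real.log_two_lt_d9]

/-- The majorant `x ^ σ L ^ 2` of a downward deviation is a power of `x`. -/
theorem exists_log_absorb :
    ∃ K : ℝ, 0 ≤ K ∧ ∀ x Λ : ℝ, 0 < x → x ≤ 1 → 0 ≤ Λ → ¬ Real.log x⁻¹ ≤ Λ ^ (1 / 4 : ℝ) →
      x ^ sigC * (2 * Λ) ^ 2 ≤ K * x ^ (sigC / 2) := by
  set ε : ℝ := sigC / 16 with hε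
  have hε0 : 0 < ε := by norm_num [hε, sigC]
  refine ⟨4 / ε ^ 8, by positivity, fun x Λ hx hx1 hΛ hz => ?_⟩
  have hX : 1 ≤ x⁻¹ := (one_le_inv₀ hx).2 hx1
  have hl0 : 0 ≤ Real.log x⁻¹ := Real.log_nonneg hX
  have hl : Real.log x⁻¹ ≤ x⁻¹ ^ ε / ε := Real.log_le_rpow_div (by positivity) hε0
  have h4 : Λ ≤ Real.log x⁻¹ ^ 4 := by
    calc Λ = (Λ ^ (1 / 4 : ℝ)) ^ (4 : ℕ) := by
          rw [← Real.rpow_natCast, ← Real.rpow_mul hΛ]; norm_num
      _ ≤ _ := pow_le_pow_left₀ (Real.rpow_nonneg hΛ _) (not_le.1 hz).le 4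
  have e8 : (x⁻¹ ^ ε) ^ (8 : ℕ) = x ^ (-(sigC / 2)) := by
    rw [← Real.rpow_natCast, ← Real.rpow_mul (by positivity), Real.inv_rpow hx.le,
      ← Real.rpow_neg hx.le]
    congr 1
    rw [hε]; push_cast; ring
  have h8 : Λ ^ 2 ≤ x ^ (-(sigC / 2)) / ε ^ 8 := by
    calc Λ ^ 2 ≤ (Real.log x⁻¹ ^ 4) ^ 2 := pow_le_pow_left₀ hΛ h4 2
      _ = Real.log x⁻¹ ^ 8 := by rw [← pow_mul]
      _ ≤ (x⁻¹ ^ ε / ε) ^ 8 := pow_le_pow_left₀ hl0 hl 8
      _ = _ := by rw [div_pow, e8]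
  calc x ^ sigC * (2 * Λ) ^ 2 = 4 * (x ^ sigC * Λ ^ 2) := by ring
    _ ≤ 4 * (x ^ sigC * (x ^ (-(sigC / 2)) / ε ^ 8)) := by gcongr
    _ = _ := by
        rw [← mul_div_assoc, ← Real.rpow_add hx, show sigC + -(sigC / 2) = sigC / 2 by ring]
        ring

/-- A tail beyond `dCut` in the small zone is a power of `x`. -/
theorem tail_absorb (hΛ : (2 : ℝ) ^ (60 : ℕ) ≤ Λ) (hx : 0 < x) (hx1 : x ≤ 1)
    (hz : Real.log x⁻¹ ≤ Λ ^ (1 / 4 : ℝ)) :
    Real.exp (-(Λ ^ (9 / 10 : ℝ) / (3 * Real.sqrt Λ))) ≤ x ^ (sigC / 2) := by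
  have h0 : (0 : ℝ) < Λ := lt_of_lt_of_le (by positivity) hΛ
  have h1 : (1 : ℝ) ≤ Λ := le_trans (one_le_pow₀ (by norm_num)) hΛ
  rw [Real.rpow_def_of_pos hx, Real.exp_le_exp]
  have e : Λ ^ (9 / 10 : ℝ) / (3 * Real.sqrt Λ) = Λ ^ (2 / 5 : ℝ) / 3 := by
    rw [Real.sqrt_eq_rpow, show (9 / 10 : ℝ) = 2 / 5 + 1 / 2 by norm_num, Real.rpow_add h0]
    field_simp
  have h2 : Λ ^ (1 / 4 : ℝ) ≤ Λ ^ (2 / 5 : ℝ) := Real.rpow_le_rpow_of_exponent_le h1 (by norm_num)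
  have h3 : 0 ≤ -Real.log x := by linarith [Real.log_nonpos hx.le hx1]
  rw [Real.log_inv] at hz
  rw [e]
  norm_num [sigC]
  linarith

end Sizes

/-! ### One class of pairs -/

/-- A class of pairs with its caps and side sums. -/
theorem class_bound {P S U V W : Finset ℕ} {i j k : ℕ → ℕ} (h : FinState P S U V W i j)
    {ψ : ℕ → ℝ} (hψ : ∀ q, 0 ≤ ψ q) {x1 x2 : ℝ} (hx1 : 0 < x1) (hx2 : 0 < x2)
    (R : ℕ → ℕ → Prop)
    (hR : ∀ v ∈ V, ∀ w ∈ W, R v w → NoCoDev U k v w ∧ ψ w * (qd v w : ℝ) ≤ x1 ∧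
      ψ v * (qd w v : ℝ) ≤ x2 ∧ upDev U k w ≤ upDev U k v)
    (G1 G2 B : ℝ) (hG1n : 0 ≤ G1) (hG2n : 0 ≤ G2)
    (hG1 : ∀ v ∈ V, ∑ w ∈ W.filter (fun w => R v w),
      uW (centre U k) (downDev U k w) *
        (((upDev U k v : ℝ) / upDev U k w) ^ sT / upDev U k v) ≤ G1)
    (hG2 : ∀ w ∈ W, ∑ v ∈ V.filter (fun v => R v w),
      uW (centre U k) (downDev U k v) *
        (((upDev U k w : ℝ) / upDev U k v) ^ tT / upDev U k w) ≤ G2)
    (hnum : x1 ^ aOne * x2 ^ aTwo * (G1 ^ aOne * G2 ^ aTwo) *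
        ((fixedPart (P \ U) i j : ℝ) * (fixedPart (P \ U) j i : ℝ)) ^ betaT ≤
      B * ((fixedPart (P \ U) i j : ℝ) ^ aOne * (fixedPart (P \ U) j i : ℝ) ^ aTwo)) :
    ∑ v ∈ V, ∑ w ∈ W, (if R v w then wt ψ v * wt ψ w else 0) ≤
      B * (mass ψ S ^ (aOne - aTwo) * (mass ψ V * mass ψ W) ^ thetaT) /
        ((fixedPart (P \ U) i j : ℝ) * (fixedPart (P \ U) j i : ℝ)) ^ betaT := by
  have h1 := finalLe2 h ψ hψ x1 x2 hx1 hx2 (fun v w => if R v w then 1 else 0)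
    (fun v w => by split_ifs <;> norm_num) (fun v w => by split_ifs <;> norm_num) (k := k)
    (fun v hv w hw hne => by
      have hr : R v w := by
        by_contra hc
        exact hne (if_neg hc)
      exact hR v hv w hw hr)
    G1 G2 hG1n hG2n
    (fun v hv => le_of_eq_of_le (Finset.sum_congr (Finset.filter_congr fun w _ => by simp)
      fun w _ => rfl) (hG1 v hv))
    (fun w hw => le_of_eq_of_le (Finset.sum_congr (Finset.filter_congr fun v _ => by simp)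
      fun v _ => rfl) (hG2 w hw))
  have hlhs : ∑ v ∈ V, ∑ w ∈ W, (if R v w then wt ψ v * wt ψ w else 0) =
      ∑ v ∈ V, ∑ w ∈ W, (if R v w then (1 : ℝ) else 0) * (wt ψ v * wt ψ w) := by
    simp [ite_mul]
  rw [hlhs]
  refine h1.trans ?_
  set Q : ℝ := (fixedPart (P \ U) i j : ℝ) with hQd
  set R' : ℝ := (fixedPart (P \ U) j i : ℝ) with hRd
  have hQ : 0 < Q := by rw [hQd]; exact_mod_cast fixedPart_pos h.prime_sdiff i j
  have hR' : 0 < R' := by rw [hRd]; exact_mod_cast fixedPart_pos h.prime_sdiff j i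
  set Mm : ℝ := mass ψ S ^ (aOne - aTwo) * (mass ψ V * mass ψ W) ^ thetaT with hMm
  have hMm0 : 0 ≤ Mm := mul_nonneg (Real.rpow_nonneg (BilinearAux.mass_nonneg hψ _) _)
    (Real.rpow_nonneg (mul_nonneg (BilinearAux.mass_nonneg hψ _)
      (BilinearAux.mass_nonneg hψ _)) _)
  rw [div_le_div_iff₀ (by positivity) (by positivity)]
  calc Mm * (x1 ^ aOne * x2 ^ aTwo) * (G1 ^ aOne * G2 ^ aTwo) * (Q * R') ^ betaT
      = Mm * (x1 ^ aOne * x2 ^ aTwo * (G1 ^ aOne * G2 ^ aTwo) * (Q * R') ^ betaT) := by ring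
    _ ≤ Mm * (B * (Q ^ aOne * R' ^ aTwo)) := mul_le_mul_of_nonneg_left hnum hMm0
    _ = _ := by ring

/-- Without a spare the fixed parts cost nothing. -/
theorem num_of_gain {x1 x2 G1 G2 B Q R : ℝ} (hQ : 1 ≤ Q) (hR : 1 ≤ R) (hB : 0 ≤ B)
    (h : x1 ^ aOne * x2 ^ aTwo * (G1 ^ aOne * G2 ^ aTwo) ≤ B) :
    x1 ^ aOne * x2 ^ aTwo * (G1 ^ aOne * G2 ^ aTwo) * (Q * R) ^ betaT ≤
      B * (Q ^ aOne * R ^ aTwo) := by
  refine mul_le_mul h ?_ (by positivity) hB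
  rw [Real.mul_rpow (by linarith) (by linarith)]
  exact mul_le_mul (Real.rpow_le_rpow_of_exponent_le hQ (by norm_num [aOne, betaT]))
    (Real.rpow_le_rpow_of_exponent_le hR (by norm_num [aTwo, betaT])) (by positivity) (by positivity)

/-- The spare of large fixed parts. -/
theorem num_of_spare {x Q R G : ℝ} (hx : 0 < x) (hx1 : x ≤ 1) (hQ : 1 ≤ Q) (hR : 1 ≤ R)
    (hG : 1 ≤ G) (hbig : x ^ (-(2 + kapC)) < Q * R) :
    (2 * x) ^ aOne * (2 * x) ^ aTwo * (G ^ aOne * G ^ aTwo) * (Q * R) ^ betaT ≤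
      2 * G * x ^ (1 + gainC) * (Q ^ aOne * R ^ aTwo) := by
  have h2 : (2 * x) ^ aOne * (2 * x) ^ aTwo ≤ 2 * x ^ (aOne + aTwo) := by
    rw [← Real.rpow_add (by positivity), Real.mul_rpow zero_le_two hx.le]
    exact mul_le_mul_of_nonneg_right ((Real.rpow_le_rpow_of_exponent_le one_le_two
      (by norm_num [aOne, aTwo])).trans_eq (Real.rpow_one 2)) (by positivity)
  have hG' : G ^ aOne * G ^ aTwo ≤ G := by
    rw [← Real.rpow_add (by linarith)]
    exact Real.rpow_le_self_of_one_le hG (by norm_num [aOne, aTwo])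
  have hsp : (Q * R) ^ betaT * x ^ (-(2 + kapC) * (aTwo - betaT)) ≤ Q ^ aOne * R ^ aTwo := by
    have e : x ^ (-(2 + kapC) * (aTwo - betaT)) ≤ (Q * R) ^ (aTwo - betaT) := by
      rw [Real.rpow_mul hx.le]
      exact Real.rpow_le_rpow (by positivity) hbig.le (by norm_num [aTwo, betaT])
    refine (mul_le_mul_of_nonneg_left e (by positivity)).trans ?_
    rw [← Real.rpow_add (by positivity), show betaT + (aTwo - betaT) = aTwo by ring,
      Real.mul_rpow (by linarith) (by linarith)]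
    exact mul_le_mul_of_nonneg_right
      (Real.rpow_le_rpow_of_exponent_le hQ (by norm_num [aOne, aTwo])) (by positivity)
  have hxx : x ^ (aOne + aTwo) ≤ x ^ (1 + gainC) * x ^ (-(2 + kapC) * (aTwo - betaT)) := by
    rw [← Real.rpow_add hx]
    exact Real.rpow_le_rpow_of_exponent_ge hx hx1
      (by norm_num [aOne, aTwo, gainC, kapC, betaT])
  calc (2 * x) ^ aOne * (2 * x) ^ aTwo * (G ^ aOne * G ^ aTwo) * (Q * R) ^ betaT
      ≤ 2 * (x ^ (1 + gainC) * x ^ (-(2 + kapC) * (aTwo - betaT))) * G * (Q * R) ^ betaT := by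
        refine mul_le_mul_of_nonneg_right (mul_le_mul (h2.trans ?_) hG' (by positivity)
          (by positivity)) (by positivity)
        exact mul_le_mul_of_nonneg_left hxx zero_le_two
    _ = 2 * G * x ^ (1 + gainC) *
          ((Q * R) ^ betaT * x ^ (-(2 + kapC) * (aTwo - betaT))) := by ring
    _ ≤ _ := mul_le_mul_of_nonneg_left hsp (by positivity)

/-- A gain in the two side sums or in one cap. -/
theorem gain_num {x G ε1 ε2 s1 s2 : ℝ} (hx : 0 < x) (hx1 : x ≤ 1) (hG : 1 ≤ G)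
    (hexp : 1 + gainC ≤ s1 * aOne + s2 * aTwo + (ε1 * aOne + ε2 * aTwo)) :
    (2 * x ^ s1) ^ aOne * (2 * x ^ s2) ^ aTwo * ((G * x ^ ε1) ^ aOne * (G * x ^ ε2) ^ aTwo) ≤
      2 * G * x ^ (1 + gainC) := by
  have hG0 : 0 ≤ G := by linarith
  rw [Real.mul_rpow zero_le_two (by positivity), Real.mul_rpow zero_le_two (by positivity),
    Real.mul_rpow hG0 (by positivity), Real.mul_rpow hG0 (by positivity), ← Real.rpow_mul hx.le,
    ← Real.rpow_mul hx.le, ← Real.rpow_mul hx.le, ← Real.rpow_mul hx.le]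
  calc (2 : ℝ) ^ aOne * x ^ (s1 * aOne) * ((2 : ℝ) ^ aTwo * x ^ (s2 * aTwo)) *
        (G ^ aOne * x ^ (ε1 * aOne) * (G ^ aTwo * x ^ (ε2 * aTwo)))
      = ((2 : ℝ) ^ (aOne + aTwo) * G ^ (aOne + aTwo)) *
          x ^ (s1 * aOne + s2 * aTwo + (ε1 * aOne + ε2 * aTwo)) := by
        simp only [Real.rpow_add hx, Real.rpow_add (show (0 : ℝ) < 2 by norm_num),
          Real.rpow_add (show 0 < G by linarith)]
        ring
    _ ≤ (2 * G) * x ^ (1 + gainC) := by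
        refine mul_le_mul (mul_le_mul ?_ ?_ (by positivity) zero_le_two)
          (Real.rpow_le_rpow_of_exponent_ge hx hx1 hexp) (by positivity) (by positivity)
        · exact Real.rpow_le_self_of_one_le (by norm_num) (by norm_num [aOne, aTwo])
        · exact Real.rpow_le_self_of_one_le hG (by norm_num [aOne, aTwo])

end GainSame

end Vale.Agent.P028.T2
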