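import Vale.Agent.P028.T2.Defs
import Vale.Agent.P028.Bilinear

/-!
The tail of the quotients of far pairs is bounded on average.
-/

noncomputable section

namespace Vale.Agent.P028.T2

open Finset

/-- A larger cut gives a smaller factor. -/
theorem hFac_anti {y y' : ℕ} (h : y ≤ y') (n : ℕ) : hFac y' n ≤ hFac y n := by
  refine prod_le_prod_of_subset_of_one_le (fun p hp => ?_) (fun p hp => ?_) fun p hp _ => ?_
  · exact mem_filter.2 ⟨(mem_filter.1 hp).1, lt_of_le_of_lt h (mem_filter.1 hp).2⟩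
  · exact zero_le_one.trans (BilinearAux.one_le_ratio (Nat.prime_of_mem_primeFactors
      (mem_filter.1 hp).1))
  · exact BilinearAux.one_le_ratio (Nat.prime_of_mem_primeFactors (mem_filter.1 hp).1)

/-- Either the factor is at most `e` or its `(s + 1)`-th power dominates it by `exp s`. -/
theorem le_exp_add_pow {h : ℝ} (h0 : 0 ≤ h) (s : ℕ) :
    h ≤ Real.exp 1 + Real.exp (-(s : ℝ)) * h ^ (s + 1) := by
  rcases le_or_gt h (Real.exp 1) with hh | hh
  · exact le_add_of_le_of_nonneg hh (by positivity)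
  refine le_add_of_nonneg_of_le (Real.exp_pos _).le ?_
  have h1 : Real.exp (s : ℝ) ≤ h ^ s := by
    rw [← Real.exp_one_pow]
    exact pow_le_pow_left₀ (Real.exp_pos _).le hh.le s
  rw [Real.exp_neg, inv_mul_eq_div, le_div_iff₀ (Real.exp_pos _), pow_succ']
  exact mul_le_mul_of_nonneg_left h1 h0

theorem cutY_mono {x D : ℝ} (h : x ≤ D) : cutY x ≤ cutY D := by
  refine Nat.floor_mono (div_le_div_of_nonneg_right ?_ two_pos.le)
  exact Real.log_le_log (lt_of_lt_of_le one_pos (le_max_right _ _)) (max_le_max h le_rfl)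

/-- The power of the factor beats the level. -/
theorem exp_cutY_le {x : ℝ} (hx : 0 < x) :
    Real.exp (-((3 * (cutY x + 1) : ℕ) : ℝ)) ≤ x ^ (-(3 / 2) : ℝ) := by
  have hm : 0 < max x 1 := lt_of_lt_of_le hx (le_max_left _ _)
  have h1 : Real.exp (-((3 * (cutY x + 1) : ℕ) : ℝ)) ≤ (max x 1) ^ (-(3 / 2) : ℝ) := by
    rw [Real.rpow_def_of_pos hm, Real.exp_le_exp]
    have := Nat.lt_floor_add_one (Real.log (max x 1) / 2)
    push_cast
    simp only [cutY]
    linarith
  exact h1.trans (Real.rpow_le_rpow_of_nonpos hx (le_max_left _ _) (by norm_num))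

/-- The levels `2 ^ m / 4` are a geometric series. -/
theorem sum_level_rpow_le (N : ℕ) :
    ∑ m ∈ range N, ((2 : ℝ) ^ m / 4) ^ (-(507 / 1000) : ℝ) ≤ 16 := by
  have hr : (2 : ℝ) ^ (-(507 / 1000) : ℝ) ≤ 3 / 4 := by
    refine (Real.rpow_le_rpow_of_exponent_le one_le_two
      (show (-(507 / 1000) : ℝ) ≤ -(1 / 2) by norm_num)).trans ?_
    refine le_of_pow_le_pow_left₀ (two_ne_zero (α := ℕ)) (by norm_num) ?_
    rw [← Real.rpow_natCast _ 2, ← Real.rpow_mul zero_le_two]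
    norm_num
  have hq : (1 / 4 : ℝ) ^ (-(507 / 1000) : ℝ) ≤ 4 := by
    rw [one_div, Real.inv_rpow (by norm_num), ← Real.rpow_neg (by norm_num)]
    exact Real.rpow_le_self_of_one_le (by norm_num) (by norm_num)
  have hb : ∀ m : ℕ, ((2 : ℝ) ^ m / 4) ^ (-(507 / 1000) : ℝ) ≤ 4 * (3 / 4 : ℝ) ^ m := by
    intro m
    rw [div_eq_mul_one_div, Real.mul_rpow (by positivity) (by norm_num), mul_comm,
      ← Real.rpow_natCast 2 m, ← Real.rpow_mul zero_le_two, mul_comm (m : ℝ),
      Real.rpow_mul zero_le_two, Real.rpow_natCast]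
    exact mul_le_mul hq (pow_le_pow_left₀ (Real.rpow_nonneg zero_le_two _) hr m) (by positivity)
      (by norm_num)
  refine (sum_le_sum fun m _ => hb m).trans ?_
  rw [← mul_sum, range_eq_Ico]
  have := geom_sum_Ico_le_of_lt_one (m := 0) (n := N) (show (0 : ℝ) ≤ 3 / 4 by norm_num)
    (by norm_num)
  rw [pow_zero] at this
  norm_num at this ⊢
  linarith

/-- `∑ F F hFac (cutY D) (q' r') ≪ μ + μ ^ 2` over the pairs with `D ≥ 1/2`. -/
theorem exists_hFac_large_le :
    ∃ C : ℝ, ∀ (ψ : ℕ → ℝ) (S : Finset ℕ), (∀ q ∈ S, 0 < q) → (∀ q, 0 ≤ ψ q) →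
      ∑ q ∈ S, ∑ r ∈ S.filter (fun r => q ≠ r ∧ 1 / 2 ≤ dist2 ψ q r),
          wt ψ q * wt ψ r * hFac (cutY (dist2 ψ q r)) (qd q r * qd r q) ≤
        C * (mass ψ S + mass ψ S ^ 2) := by
  obtain ⟨Cm, hmom⟩ := exists_moment_le 4 (by norm_num)
  refine ⟨Real.exp 1 + 32 * |Cm|, ?_⟩
  intro ψ S hS hψ
  classical
  have hm := BilinearAux.mass_nonneg hψ S
  set M := mass ψ S + mass ψ S ^ 2 with hM
  have hM0 : 0 ≤ M := by positivity
  have hWW : ∀ q r, 0 ≤ wt ψ q * wt ψ r := fun q r =>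
    mul_nonneg (BilinearAux.wt_nonneg hψ q) (BilinearAux.wt_nonneg hψ r)
  have hex : ∀ q r, ∃ m : ℕ, dist2 ψ q r ≤ (2 : ℝ) ^ m / 2 := fun q r =>
    (pow_unbounded_of_one_lt (dist2 ψ q r * 2) one_lt_two).imp fun m hm => by linarith
  set N := (S ×ˢ S).sup (fun z => Nat.find (hex z.1 z.2)) + 1 with hN
  set y : ℕ → ℕ := fun m => cutY ((2 : ℝ) ^ m / 4) with hy
  set g : ℕ → ℕ → ℕ → ℝ := fun m q r =>
    if q ≠ r ∧ dist2 ψ q r ≤ (2 : ℝ) ^ m / 2 then wt ψ q * wt ψ r *
      (Real.exp (-((3 * (y m + 1) : ℕ) : ℝ)) *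
        hFac (y m) (qd q r * qd r q) ^ (3 * (y m + 1) + 1)) else 0 with hg
  have hh : ∀ m n, 0 ≤ hFac (y m) n := fun m n =>
    zero_le_one.trans (BilinearAux.one_le_hFac _ _)
  have hg0 : ∀ m q r, 0 ≤ g m q r := fun m q r => by
    simp only [hg]
    split_ifs
    · exact mul_nonneg (hWW q r) (mul_nonneg (Real.exp_pos _).le (pow_nonneg (hh _ _) _))
    · exact le_rfl
  have hpair : ∀ q ∈ S, ∀ r ∈ S.filter (fun r => q ≠ r ∧ 1 / 2 ≤ dist2 ψ q r),
      wt ψ q * wt ψ r * hFac (cutY (dist2 ψ q r)) (qd q r * qd r q) ≤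
        Real.exp 1 * (wt ψ q * wt ψ r) + ∑ m ∈ range N, g m q r := by
    intro q hq r hr
    obtain ⟨hrS, hne, hD⟩ := mem_filter.1 hr
    set m := Nat.find (hex q r) with hm'
    have hmN : m < N := Nat.lt_succ_of_le
      (le_sup (f := fun z : ℕ × ℕ => Nat.find (hex z.1 z.2)) (mk_mem_product hq hrS))
    have hspec : dist2 ψ q r ≤ (2 : ℝ) ^ m / 2 := Nat.find_spec (hex q r)
    have hlo : (2 : ℝ) ^ m / 4 ≤ dist2 ψ q r := by
      rcases Nat.eq_zero_or_pos m with h0 | h0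
      · rw [h0]; norm_num; linarith
      · have := not_le.1 (Nat.find_min (hex q r) (show m - 1 < m by omega))
        have e : (2 : ℝ) ^ m = 2 * 2 ^ (m - 1) := by
          rw [← pow_succ']; congr 1; omega
        rw [e]; linarith
    refine le_trans ?_ (add_le_add le_rfl (single_le_sum (fun i _ => hg0 i q r) (mem_range.2 hmN)))
    simp only [hg, if_pos (And.intro hne hspec)]
    rw [mul_comm (Real.exp 1), ← mul_add]
    exact mul_le_mul_of_nonneg_left ((hFac_anti (cutY_mono hlo) _).trans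
      (le_exp_add_pow (hh _ _) _)) (hWW q r)
  have hlevel : ∀ m, ∑ q ∈ S, ∑ r ∈ S, g m q r ≤
      |Cm| * M * (2 * ((2 : ℝ) ^ m / 4) ^ (-(507 / 1000) : ℝ)) := by
    intro m
    set x := (2 : ℝ) ^ m / 4 with hxd
    have hx : 0 < x := by positivity
    have hs : (((3 * (y m + 1) + 1 : ℕ)) : ℝ) ≤ 4 * ((y m : ℝ) + 1) := by
      push_cast; linarith [(y m).cast_nonneg (α := ℝ)]
    have h2x : (2 : ℝ) ^ m / 2 = 2 * x := by rw [hxd]; ring
    calc ∑ q ∈ S, ∑ r ∈ S, g m q r
        = Real.exp (-((3 * (y m + 1) : ℕ) : ℝ)) *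
          ∑ q ∈ S, ∑ r ∈ S.filter (fun r => q ≠ r ∧ dist2 ψ q r ≤ 2 * x),
            wt ψ q * wt ψ r * hFac (y m) (qd q r * qd r q) ^ (3 * (y m + 1) + 1) := by
          rw [mul_sum]
          refine sum_congr rfl fun q _ => ?_
          rw [sum_filter, mul_sum]
          refine sum_congr rfl fun r _ => ?_
          simp only [hg, h2x]
          split_ifs <;> ring
      _ ≤ x ^ (-(3 / 2) : ℝ) * (|Cm| * M * (2 * x) ^ (993 / 1000 : ℝ)) := by
          refine mul_le_mul (exp_cutY_le hx) ((hmom ψ S (2 * x) (y m) _ hS hψ (by linarith) hs).trans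
            (mul_le_mul_of_nonneg_right (mul_le_mul_of_nonneg_right (le_abs_self _) hM0)
              (by positivity))) ?_ (by positivity)
          exact sum_nonneg fun q _ => sum_nonneg fun r _ =>
            mul_nonneg (hWW q r) (pow_nonneg (hh _ _) _)
      _ ≤ x ^ (-(3 / 2) : ℝ) * (|Cm| * M * (2 * x ^ (993 / 1000 : ℝ))) := by
          refine mul_le_mul_of_nonneg_left (mul_le_mul_of_nonneg_left ?_ (by positivity))
            (by positivity)
          rw [Real.mul_rpow zero_le_two hx.le]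
          exact mul_le_mul_of_nonneg_right (Real.rpow_le_self_of_one_le one_le_two (by norm_num))
            (by positivity)
      _ = |Cm| * M * (2 * x ^ (-(507 / 1000) : ℝ)) := by
          rw [show (-(507 / 1000) : ℝ) = -(3 / 2) + 993 / 1000 by norm_num, Real.rpow_add hx]
          ring
  have hfirst : ∑ q ∈ S, ∑ r ∈ S.filter (fun r => q ≠ r ∧ 1 / 2 ≤ dist2 ψ q r),
      Real.exp 1 * (wt ψ q * wt ψ r) ≤ Real.exp 1 * M := by
    refine (sum_le_sum fun q _ => sum_le_sum_of_subset_of_nonneg (filter_subset _ S)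
      fun r _ _ => mul_nonneg (Real.exp_pos _).le (hWW q r)).trans ?_
    simp only [← mul_sum, ← sum_mul]
    refine mul_le_mul_of_nonneg_left ?_ (Real.exp_pos _).le
    rw [hM, mass, sq]
    exact le_add_of_nonneg_left hm
  have hsecond : ∑ q ∈ S, ∑ r ∈ S.filter (fun r => q ≠ r ∧ 1 / 2 ≤ dist2 ψ q r),
      ∑ m ∈ range N, g m q r ≤ 32 * |Cm| * M := by
    refine (sum_le_sum fun q _ => sum_le_sum_of_subset_of_nonneg (filter_subset _ S)
      fun r _ _ => sum_nonneg fun m _ => hg0 m q r).trans ?_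
    simp_rw [sum_comm (t := range N)]
    refine (sum_le_sum fun m _ => hlevel m).trans ?_
    rw [← mul_sum, ← mul_sum]
    nlinarith [sum_level_rpow_le N, mul_nonneg (abs_nonneg Cm) hM0]
  refine (sum_le_sum fun q hq => sum_le_sum (hpair q hq)).trans ?_
  simp only [sum_add_distrib]
  linarith

end Vale.Agent.P028.T2
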