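import Vale.Agent.P028.T2.SecondMoment
import Vale.Agent.P028.Main

/-!
Full measure for every shift and every `ψ q ≤ exp (-(log log q) ^ 2)`.

The moduli are split by `k = ⌊log (-log ψ q) / log rhoC⌋`, with `lam q = rhoC ^ k`; one class of `k`
modulo `7000` is kept, so the windows are `1000`-separated.
-/

noncomputable section

namespace Vale.Agent.P028.T2

open Finset MeasureTheory Filter

/-- The index of the window of a radius. -/
def winIdx (t : ℝ) : ℕ := ⌊Real.log (-Real.log t) / Real.log rhoC⌋₊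

/-- The windows of one class are `1000`-separated. -/
theorem thousand_le_rhoC_pow : (1000 : ℝ) ≤ rhoC ^ 7000 := by
  have h : Real.exp (1 / 1001 : ℝ) ≤ rhoC := by
    have h1 := Real.add_one_le_exp (-(1 / 1001 : ℝ))
    rw [Real.exp_neg] at h1
    have h2 := mul_le_mul_of_nonneg_right h1 (Real.exp_pos (1 / 1001 : ℝ)).le
    rw [inv_mul_cancel₀ (Real.exp_pos _).ne'] at h2
    rw [rhoC]
    linarith
  refine le_trans ?_ (pow_le_pow_left₀ (Real.exp_pos _).le h 7000)
  rw [← Real.exp_nat_mul, show ((7000 : ℕ) : ℝ) * (1 / 1001) = (6 : ℕ) * 1 + (7000 / 1001 - 6) by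
    norm_num, Real.exp_add, Real.exp_nat_mul]
  have h6 : (403 : ℝ) ≤ Real.exp 1 ^ 6 :=
    le_trans (by norm_num) (pow_le_pow_left₀ (by norm_num) Real.exp_one_gt_d9.le 6)
  have ht := Real.quadratic_le_exp_of_nonneg (show (0 : ℝ) ≤ 7000 / 1001 - 6 by norm_num)
  nlinarith [mul_le_mul h6 ht (by norm_num) (by positivity)]

theorem winIdx_spec {t : ℝ} (ht : 0 < t) (ht1 : t ≤ Real.exp (-1)) :
    Real.exp (-(rhoC * rhoC ^ winIdx t)) ≤ t ∧ t ≤ Real.exp (-(rhoC ^ winIdx t)) := by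
  have hL : (1 : ℝ) ≤ -Real.log t := by
    have h := Real.log_le_log ht ht1
    rw [Real.log_exp] at h
    linarith
  have hr : (0 : ℝ) < rhoC := by norm_num [rhoC]
  have hlr : 0 < Real.log rhoC := Real.log_pos (by norm_num [rhoC])
  have hnn : 0 ≤ Real.log (-Real.log t) / Real.log rhoC :=
    div_nonneg (Real.log_nonneg hL) hlr.le
  have h1 : rhoC ^ winIdx t ≤ -Real.log t := by
    rw [← Real.log_le_log_iff (pow_pos hr _) (by linarith), Real.log_pow, ← le_div_iff₀ hlr]
    exact Nat.floor_le hnn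
  have h2 : -Real.log t ≤ rhoC * rhoC ^ winIdx t := by
    rw [← pow_succ', ← Real.log_le_log_iff (by linarith) (pow_pos hr _), Real.log_pow,
      ← div_le_iff₀ hlr]
    push_cast
    exact (Nat.lt_floor_add_one _).le
  constructor
  · rw [← Real.le_log_iff_exp_le ht]
    linarith
  · rw [← Real.log_le_iff_le_exp ht]
    linarith

/-- The weak inhomogeneous Duffin-Schaeffer statement for `ψ(q) ≤ exp (-(log log q) ^ 2)`. -/
theorem exists_weakDS_T2 (γ : ℝ) (ψ : ℕ → ℝ) (hψ : ∀ q, 0 ≤ ψ q)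
    (hev : ∀ᶠ q : ℕ in atTop, ψ q ≤ Real.exp (-(Real.log (Real.log q) ^ 2)))
    (hdiv : ¬ Summable (fun q : ℕ => (Nat.totient q : ℝ) / q * ψ q)) :
    volume (approxSet γ ψ)ᶜ = 0 := by
  obtain ⟨C, lam0, hmain⟩ := exists_secondMoment_le
  suffices key : ∀ (γ : ℝ) (ψ : ℕ → ℝ), 0 ≤ γ → γ < 1 → (∀ q, 0 ≤ ψ q) →
      (∀ᶠ q : ℕ in atTop, ψ q ≤ Real.exp (-(Real.log (Real.log q) ^ 2))) →
      ¬ Summable (fun q : ℕ => (Nat.totient q : ℝ) / q * ψ q) →
      volume (approxSet γ ψ)ᶜ = 0 by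
    rw [← approxSet_sub_int γ ψ ⌊γ⌋]
    exact key _ ψ (by linarith [Int.floor_le γ]) (by linarith [Int.lt_floor_add_one γ]) hψ hev hdiv
  clear hψ hev hdiv γ ψ
  intro γ ψ hγ hγ1 hψ hev hns
  obtain ⟨q1, hq1⟩ := eventually_atTop.1 hev
  set Λ0 : ℝ := max (2 * max lam0 1) 1 with hΛ0
  obtain ⟨q2, hq2⟩ := eventually_atTop.1
    (((Real.tendsto_log_atTop.comp Real.tendsto_log_atTop).comp
      tendsto_natCast_atTop_atTop).eventually_ge_atTop Λ0)
  set q0 := max (max q1 q2) 3 with hq0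
  let ψc : ℕ → ℕ → ℝ := fun c q => if q0 ≤ q ∧ winIdx (ψ q) % 7000 = c then ψ q else 0
  have hψc : ∀ c q, 0 ≤ ψc c q ∧ ψc c q ≤ ψ q := by
    intro c q
    simp only [ψc]
    split
    · exact ⟨hψ q, le_rfl⟩
    · exact ⟨le_rfl, hψ q⟩
  obtain ⟨c, hc⟩ : ∃ c, ¬ Summable (wt (ψc c)) := by
    by_contra hall
    push Not at hall
    refine hns (Summable.of_nonneg_of_le (fun q => mul_nonneg (by positivity) (hψ q))
      (f := fun q => (if q < q0 then wt ψ q else 0) +
        ∑ c ∈ Finset.range 7000, wt (ψc c) q) (fun q => ?_) ?_)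
    · show wt ψ q ≤ _
      have hw : ∀ c, 0 ≤ wt (ψc c) q := fun c => mul_nonneg (by positivity) (hψc c q).1
      have hsum : 0 ≤ ∑ c ∈ Finset.range 7000, wt (ψc c) q := Finset.sum_nonneg fun c _ => hw c
      by_cases hq : q < q0
      · rw [if_pos hq]; linarith
      rw [if_neg hq]
      have := Finset.single_le_sum (fun c _ => hw c)
        (Finset.mem_range.2 (Nat.mod_lt (winIdx (ψ q)) (show 7000 > 0 by norm_num)))
      have e : ψc (winIdx (ψ q) % 7000) q = ψ q := if_pos ⟨by omega, rfl⟩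
      rw [wt, e, ← wt] at this
      linarith
    · refine Summable.add ?_ (summable_sum fun c _ => hall c)
      exact summable_of_ne_finset_zero (s := Finset.range q0) fun q hq =>
        if_neg (by simpa using hq)
  set φ := ψc c with hφ
  have hrho : (1 : ℝ) < rhoC := by norm_num [rhoC]
  have hr0 : (0 : ℝ) < rhoC := by linarith
  set k : ℕ → ℕ := fun q => winIdx (φ q) with hk
  -- facts on the support
  have hsupp : ∀ q, φ q ≠ 0 → 0 < q ∧ 0 < φ q ∧ φ q ≤ 1 / 2 ∧ k q % 7000 = c ∧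
      Real.exp (-(rhoC * rhoC ^ k q)) ≤ φ q ∧ φ q ≤ Real.exp (-(rhoC ^ k q)) ∧
      lam0 ≤ rhoC ^ k q ∧ Real.log q ≤ Real.exp (2 * Real.sqrt (rhoC ^ k q)) := by
    intro q hq
    have hpos : 0 < φ q := lt_of_le_of_ne (hψc c q).1 (Ne.symm hq)
    simp only [hφ, ψc] at hq
    split at hq
    swap
    · exact absurd rfl hq
    rename_i hcond
    obtain ⟨hqq, hcl⟩ := hcond
    have hφψ : φ q = ψ q := by simp only [hφ, ψc]; exact if_pos ⟨hqq, hcl⟩
    have hll := hq2 q (le_trans (le_trans (le_max_right _ _) (le_max_left _ _)) hqq)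
    simp only [Function.comp_apply] at hll
    set l := Real.log (Real.log q) with hl
    have hl1 : 1 ≤ l := (le_max_right _ _).trans hll
    have hl2 : l ≤ l ^ 2 := by nlinarith
    have hle := hq1 q (le_trans (le_trans (le_max_left _ _) (le_max_left _ _)) hqq)
    rw [← hφψ, ← hl] at hle
    have he1 : φ q ≤ Real.exp (-1) := hle.trans (Real.exp_le_exp.2 (by linarith))
    obtain ⟨hlo, hhi⟩ := winIdx_spec hpos he1
    have hkl : l ^ 2 ≤ rhoC * rhoC ^ k q := by
      have := Real.exp_le_exp.1 (hlo.trans hle)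
      linarith
    have hpw : (0 : ℝ) < rhoC ^ k q := pow_pos hr0 _
    have h2 : rhoC * rhoC ^ k q ≤ 2 * rhoC ^ k q :=
      mul_le_mul_of_nonneg_right (by norm_num [rhoC]) hpw.le
    have hq1' : (1 : ℝ) < Real.log q := by
      have hq3 : (3 : ℝ) ≤ q := by exact_mod_cast le_trans (le_max_right _ _) hqq
      rw [Real.lt_log_iff_exp_lt (by linarith)]
      linarith [Real.exp_one_lt_d9]
    refine ⟨by omega, hpos, he1.trans ?_, by simp only [hk, hφψ]; exact hcl, hlo, hhi, ?_, ?_⟩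
    · rw [Real.exp_neg, ← one_div]
      exact one_div_le_one_div_of_le (by norm_num) (by linarith [Real.add_one_le_exp (1 : ℝ)])
    · have := (le_max_left (2 * max lam0 1) 1).trans hll
      linarith [le_max_left lam0 1]
    · have hls : l ≤ 2 * Real.sqrt (rhoC ^ k q) := by
        refine le_trans (Real.abs_le_sqrt (show l ^ 2 ≤ 4 * rhoC ^ k q by linarith)
          |> (le_abs_self l).trans) (le_of_eq ?_)
        rw [Real.sqrt_mul (by norm_num), show (4 : ℝ) = 2 ^ 2 by norm_num, Real.sqrt_sq two_pos.le]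
      calc Real.log q = Real.exp l := by rw [hl, Real.exp_log (by linarith)]
        _ ≤ _ := Real.exp_le_exp.2 hls
  have hφ2 : ∀ q, φ q ≤ 1 / 2 := by
    intro q
    by_cases hq : φ q = 0
    · rw [hq]; norm_num
    · exact (hsupp q hq).2.2.1
  -- approximations
  choose A B hAB using fun i : ℕ =>
    exists_shortVec γ (rhoC * rhoC ^ i) (mul_nonneg hr0.le (pow_nonneg hr0.le i))
  let P : Finset ℕ → Sys := fun S =>
    ⟨γ, φ, S, fun q => rhoC ^ k q, fun q => A (k q), fun q => B (k q)⟩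
  refine measure_mono_null
    (Set.compl_subset_compl.2 (approxSet_mono fun q => (hψc c q).2)) ?_
  refine null_compl_of_blocks γ φ (|C| * 6) hγ hγ1 (fun q => (P ∅).At q) (fun q => (P ∅).Bt q)
    (fun q => isCoprime_At_Bt _ q) (fun q => (hψc c q).1) hφ2 fun Q => ?_
  obtain ⟨S, hS, hS1, hS2⟩ := exists_block φ (fun q => (hψc c q).1) hφ2 hc Q
  refine ⟨S, fun q hq => ⟨(hS q hq).1, (hS q hq).2.1⟩, hS1, hS2, ?_⟩
  have hinj : ∀ q r, rhoC ^ k q = rhoC ^ k r → k q = k r := fun q r h =>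
    pow_right_injective₀ hr0 hrho.ne' h
  have hok : (P S).Ok lam0 :=
    { gamma_nonneg := hγ
      gamma_lt := hγ1
      nonneg := fun q => (hψc c q).1
      pos := fun q hq => (hS q hq).2.1
      psi_pos := fun q hq => (hsupp q (hS q hq).2.2).2.1
      le_psi := fun q hq => (hsupp q (hS q hq).2.2).2.2.2.2.1
      psi_le := fun q hq => (hsupp q (hS q hq).2.2).2.2.2.2.2.1
      lam_ge := fun q hq => (hsupp q (hS q hq).2.2).2.2.2.2.2.2.1
      log_le := fun q hq => (hsupp q (hS q hq).2.2).2.2.2.2.2.2.2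
      sep := fun q hq r hr => by
        have h1 := (hsupp q (hS q hq).2.2).2.2.2.1
        have h2 := (hsupp r (hS r hr).2.2).2.2.2.1
        show rhoC ^ k q = rhoC ^ k r ∨ 1000 * rhoC ^ k q ≤ rhoC ^ k r ∨
          1000 * rhoC ^ k r ≤ rhoC ^ k q
        have hstep : ∀ a b : ℕ, a + 7000 ≤ b → 1000 * rhoC ^ a ≤ rhoC ^ b := fun a b hab =>
          calc 1000 * rhoC ^ a ≤ rhoC ^ 7000 * rhoC ^ a :=
                mul_le_mul_of_nonneg_right thousand_le_rhoC_pow (pow_nonneg hr0.le a)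
            _ = rhoC ^ (a + 7000) := by rw [pow_add, mul_comm]
            _ ≤ _ := pow_le_pow_right₀ hrho.le hab
        rcases lt_trichotomy (k q) (k r) with h | h | h
        · exact .inr (.inl (hstep _ _ (by omega)))
        · exact .inl (by rw [h])
        · exact .inr (.inr (hstep _ _ (by omega)))
      short := fun q _ => hAB (k q)
      const := fun q _ r _ h => by
        show A (k q) = A (k r) ∧ B (k q) = B (k r)
        rw [hinj q r h]
        exact ⟨rfl, rfl⟩ }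
  have hm := hmain (P S) hok
  have hm0 : (0 : ℝ) ≤ mass φ S + mass φ S ^ 2 := by nlinarith
  have hm6 : mass φ S + mass φ S ^ 2 ≤ 6 := by nlinarith
  calc ∑ q ∈ S, ∑ r ∈ S, ∫ x, bump γ φ ((P ∅).At q) ((P ∅).Bt q) q x *
        bump γ φ ((P ∅).At r) ((P ∅).Bt r) r x
      = ∑ q ∈ S, ∑ r ∈ S, (P S).ov q r := rfl
    _ ≤ C * (mass φ S + mass φ S ^ 2) := hm
    _ ≤ |C| * (mass φ S + mass φ S ^ 2) := mul_le_mul_of_nonneg_right (le_abs_self C) hm0
    _ ≤ |C| * 6 := mul_le_mul_of_nonneg_left hm6 (abs_nonneg C)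

end Vale.Agent.P028.T2
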