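import Vale.Agent.P028.T2.Elem
import Vale.Agent.P028.CountingAux

/-!
Sums over variables off the major arcs: each dyadic block is sparse by the shifted Bohr set bound.
-/

noncomputable section

namespace Vale.Agent.P028.T2

open Finset
open scoped Classical

/-- A dyadic block without a resonance is sparse. -/
theorem exists_minor_block_T2_le_aux :
    ∃ C : ℝ, ∀ (x α β : ℝ) (j : ℕ) (T : Finset ℕ), 0 < x → x ≤ (2 : ℝ) ^ (-(20 : ℝ)) →
      x ^ (-sigC) ≤ 2 * (2 : ℝ) ^ j → (∀ c ∈ T, 1 ≤ c ∧ Nat.log 2 c = j) →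
      (∀ c ∈ T, ¬ Maj2 x α c) → (∀ c ∈ T, ∃ n : ℤ, |(n : ℝ) + α * c - β| ≤ 4 * x) →
      (T.card : ℝ) ≤ C * x ^ sigC * 2 ^ j := by
  obtain ⟨Cb, hCb⟩ := exists_card_bohr_le
  refine ⟨11 * max Cb 0, fun x α β j T hx hx20 hbig hT hminor hn => ?_⟩
  rcases T.eq_empty_or_nonempty with rfl | ⟨c0, hc0⟩
  · rw [card_empty, Nat.cast_zero]; positivity
  have hx1 : x ≤ 1 :=
    hx20.trans (Real.rpow_le_one_of_one_le_of_nonpos (by norm_num) (by norm_num))
  have hH : x ^ (-sigC) ≤ (hR x : ℝ) := Nat.le_ceil _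
  have hinv : 1 ≤ x ^ (-sigC) :=
    Real.one_le_rpow_of_pos_of_le_one_of_nonpos hx hx1 (by norm_num [sigC])
  have hH2 : (hR x : ℝ) ≤ 2 * x ^ (-sigC) := by
    have := Nat.ceil_lt_add_one (zero_le_one.trans hinv)
    simp only [hR]; linarith
  have hρH : 4 * x * (hR x : ℝ) ≤ 1 / 16 := by
    calc 4 * x * (hR x : ℝ) ≤ 4 * x * (2 * x ^ (-sigC)) :=
          mul_le_mul_of_nonneg_left hH2 (by positivity)
      _ = 8 * x ^ (1 + -sigC) := by rw [Real.rpow_add hx, Real.rpow_one]; ring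
      _ ≤ 8 * ((2 : ℝ) ^ (-(20 : ℝ))) ^ (1 + -sigC) := mul_le_mul_of_nonneg_left
          (Real.rpow_le_rpow hx.le hx20 (by norm_num [sigC])) (by norm_num)
      _ ≤ 8 * (2 : ℝ) ^ (-(19 : ℝ)) := by
          rw [← Real.rpow_mul zero_le_two]
          exact mul_le_mul_of_nonneg_left
            (Real.rpow_le_rpow_of_exponent_le one_le_two (by norm_num [sigC])) (by norm_num)
      _ ≤ 1 / 16 := by norm_num [Real.rpow_neg]
  have hpow : ∀ c ∈ T, 2 ^ j ≤ c ∧ c < 2 * 2 ^ j := fun c hc => by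
    obtain ⟨h1, rfl⟩ := hT c hc
    refine ⟨Nat.pow_log_le_self 2 (by omega), ?_⟩
    rw [← pow_succ']
    exact Nat.lt_pow_succ_log_self (by norm_num) c
  have key := hCb α β (4 * x) (hR x) (2 ^ j) (x ^ (1 - sigC)) T (by positivity)
    (Nat.ceil_pos.2 (lt_of_lt_of_le one_pos hinv)) Nat.one_le_two_pow
    (Real.rpow_pos_of_pos hx _) hρH (fun h hh1 hh2 l => by
      have h0 := hminor c0 hc0
      simp only [Maj2, not_exists, not_and, not_le] at h0
      have h1 := h0 h hh1 hh2 l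
      rw [(hT c0 hc0).2] at h1
      exact_mod_cast h1)
    fun c hc => ⟨(hpow c hc).1, (hpow c hc).2, hn c hc⟩
  push_cast at key
  set C0 : ℝ := (2 : ℝ) ^ j
  have hC0 : 0 < C0 := pow_pos two_pos j
  set u : ℝ := x ^ sigC with hu'
  have hu : 0 < u := Real.rpow_pos_of_pos hx _
  have e0 : x ^ (-sigC) = u⁻¹ := Real.rpow_neg hx.le _
  have e1 : 4 * x * C0 ≤ 4 * u * C0 := by
    have : x ≤ u := Real.self_le_rpow_of_le_one hx.le hx1 (by norm_num [sigC])
    gcongr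
  have e2 : 4 * x * C0 / x ^ (1 - sigC) = 4 * u * C0 := by
    have : x = u * x ^ (1 - sigC) := by rw [hu', ← Real.rpow_add hx]; norm_num
    nth_rewrite 1 [this]
    field_simp
  have e3 : C0 / (hR x : ℝ) ≤ u * C0 := by
    rw [e0] at hH
    have h3 : ((hR x : ℝ))⁻¹ ≤ u := inv_le_of_inv_le₀ hu hH
    rw [div_eq_mul_inv, mul_comm]
    exact mul_le_mul_of_nonneg_right h3 hC0.le
  have e4 : 1 ≤ 2 * (u * C0) := by
    rw [e0, inv_le_iff_one_le_mul₀ hu] at hbig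
    linarith
  calc (T.card : ℝ) ≤ _ := key
    _ ≤ max Cb 0 * (4 * x * C0 + 4 * x * C0 / x ^ (1 - sigC) + C0 / (hR x : ℝ) + 1) :=
        mul_le_mul_of_nonneg_right (le_max_left _ _) (by positivity)
    _ ≤ max Cb 0 * (4 * u * C0 + 4 * u * C0 + u * C0 + 2 * (u * C0)) := by
        refine mul_le_mul_of_nonneg_left ?_ (le_max_right _ _)
        rw [e2]; linarith
    _ = _ := by ring

/-- Summing sparse dyadic blocks. -/
theorem exists_minor_blocks_le :
    ∃ C : ℝ, 0 ≤ C ∧ ∀ (x α β : ℝ) (T : Finset ℕ) (f w : ℕ → ℝ), 0 < x →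
      x ≤ (2 : ℝ) ^ (-(20 : ℝ)) →
      (∀ c ∈ T, x ^ (-sigC) ≤ (c : ℝ) ∧ ¬ Maj2 x α c ∧
        (∃ n : ℤ, |(n : ℝ) + α * c - β| ≤ 4 * x) ∧ f c ≤ w (Nat.log 2 c)) →
      (∀ j ∈ T.image (Nat.log 2), 0 ≤ w j) →
      ∑ c ∈ T, f c ≤ C * x ^ sigC * ∑ j ∈ T.image (Nat.log 2), w j * (2 : ℝ) ^ j := by
  obtain ⟨Cb, hCb⟩ := exists_minor_block_T2_le_aux
  refine ⟨max Cb 0, le_max_right _ _, fun x α β T f w hx hx20 hT hw => ?_⟩
  rw [← sum_fiberwise_of_maps_to (g := Nat.log 2) (t := T.image (Nat.log 2))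
    fun c hc => mem_image_of_mem _ hc, mul_sum]
  refine sum_le_sum fun j hj => ?_
  obtain ⟨c0, hc0, rfl⟩ := mem_image.1 hj
  have hpos : ∀ c ∈ T, 1 ≤ c := fun c hc => by
    rcases Nat.eq_zero_or_pos c with rfl | h
    · have := (hT 0 hc).1
      rw [Nat.cast_zero] at this
      exact absurd this (not_le.2 (Real.rpow_pos_of_pos hx _))
    · exact h
  set B := T.filter (fun c => Nat.log 2 c = Nat.log 2 c0)
  have hB : ∀ c ∈ B, c ∈ T ∧ Nat.log 2 c = Nat.log 2 c0 := fun c hc => mem_filter.1 hc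
  have hbig : x ^ (-sigC) ≤ 2 * (2 : ℝ) ^ Nat.log 2 c0 := by
    refine (hT c0 hc0).1.trans ?_
    rw [← pow_succ']
    exact_mod_cast (Nat.lt_pow_succ_log_self (b := 2) (by norm_num) c0).le
  have hcard := hCb x α β (Nat.log 2 c0) B hx hx20 hbig
    (fun c hc => ⟨hpos c (hB c hc).1, (hB c hc).2⟩) (fun c hc => (hT c (hB c hc).1).2.1)
    fun c hc => (hT c (hB c hc).1).2.2.1
  calc ∑ c ∈ B, f c ≤ ∑ _c ∈ B, w (Nat.log 2 c0) :=
        sum_le_sum fun c hc => (hT c (hB c hc).1).2.2.2.trans_eq (by rw [(hB c hc).2])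
    _ = (B.card : ℝ) * w (Nat.log 2 c0) := by rw [sum_const, nsmul_eq_mul]
    _ ≤ max Cb 0 * x ^ sigC * 2 ^ Nat.log 2 c0 * w (Nat.log 2 c0) :=
        mul_le_mul_of_nonneg_right (hcard.trans (by gcongr; exact le_max_left _ _))
          (hw _ (mem_image_of_mem _ hc0))
    _ = _ := by ring

/-- The dyadic weight of a power. -/
theorem block_weight_eq {a e : ℝ} (ha : 0 < a) (j : ℕ) :
    (a / (2 : ℝ) ^ j) ^ e / a * 2 ^ j = (a / (2 : ℝ) ^ j) ^ (e - 1) := by
  rw [Real.rpow_sub (by positivity), Real.rpow_one]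
  field_simp

/-- A large variable `c ≤ a` off the major arcs gains. -/
theorem exists_minor_up_s_le_aux :
    ∃ C : ℝ, ∀ (x α β : ℝ) (a : ℕ) (T : Finset ℕ), 0 < x → x ≤ (2 : ℝ) ^ (-(20 : ℝ)) → 0 < a →
      (∀ c ∈ T, c ≤ a ∧ x ^ (-sigC) ≤ (c : ℝ) ∧ ¬ Maj2 x α c ∧
        ∃ n : ℤ, |(n : ℝ) + α * c - β| ≤ 4 * x) →
      ∑ c ∈ T, ((a : ℝ) / c) ^ sT / a ≤ C * x ^ sigC := by
  obtain ⟨Cb, hCb0, hCb⟩ := exists_minor_blocks_le
  have hs0 : 0 < sT := by norm_num [sT]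
  have hs1 : 0 < 1 - sT := by norm_num [sT]
  set r : ℝ := (2 : ℝ) ^ (1 - sT) with hr
  have hr1 : 1 < r := Real.one_lt_rpow one_lt_two hs1
  refine ⟨Cb * (r / (r - 1)), fun x α β a T hx hx20 ha hT => ?_⟩
  have ha' : (0 : ℝ) < a := Nat.cast_pos.2 ha
  set w : ℕ → ℝ := fun j => ((a : ℝ) / 2 ^ j) ^ sT / a with hw
  have hmain := hCb x α β T (fun c => ((a : ℝ) / c) ^ sT / a) w hx hx20
    (fun c hc => by
      obtain ⟨-, h2, h3, h4⟩ := hT c hc
      refine ⟨h2, h3, h4, ?_⟩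
      have hcpos : (0 : ℝ) < c := lt_of_lt_of_le (Real.rpow_pos_of_pos hx _) h2
      simp only [hw]
      refine div_le_div_of_nonneg_right (Real.rpow_le_rpow (by positivity) ?_ hs0.le) ha'.le
      refine div_le_div_of_nonneg_left ha'.le (by positivity) ?_
      exact_mod_cast Nat.pow_log_le_self 2 (by exact_mod_cast hcpos.ne' : c ≠ 0))
    fun j _ => by simp only [hw]; positivity
  refine hmain.trans ?_
  rw [show Cb * (r / (r - 1)) * x ^ sigC = Cb * x ^ sigC * (r / (r - 1)) by ring]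
  refine mul_le_mul_of_nonneg_left ?_ (by positivity)
  set L := Nat.log 2 a
  have hsub : T.image (Nat.log 2) ⊆ range (L + 1) := fun j hj => by
    obtain ⟨c, hc, rfl⟩ := mem_image.1 hj
    exact mem_range.2 (Nat.lt_succ_of_le (Nat.log_mono_right (hT c hc).1))
  have hq : ∀ j : ℕ, w j * (2 : ℝ) ^ j = (a : ℝ) ^ (sT - 1) * r ^ j := fun j => by
    simp only [hw, hr]
    rw [block_weight_eq ha', Real.div_rpow ha'.le (by positivity), div_eq_mul_inv,
      ← Real.rpow_neg (by positivity), neg_sub, ← Real.rpow_natCast 2 j,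
      ← Real.rpow_mul zero_le_two, mul_comm (j : ℝ), Real.rpow_mul zero_le_two, Real.rpow_natCast]
  refine (sum_le_sum_of_subset_of_nonneg hsub fun j _ _ => by simp only [hw]; positivity).trans ?_
  simp only [hq, ← mul_sum]
  have hgeo : ∑ j ∈ range (L + 1), r ^ j ≤ r ^ L * (r / (r - 1)) := by
    rw [geom_sum_eq hr1.ne', mul_div_assoc', ← pow_succ]
    exact div_le_div_of_nonneg_right (by linarith) (by linarith)
  refine (mul_le_mul_of_nonneg_left hgeo (by positivity)).trans ?_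
  rw [← mul_assoc]
  refine mul_le_of_le_one_left (div_nonneg (by linarith) (by linarith)) ?_
  have e : r ^ L = ((2 : ℝ) ^ L) ^ (1 - sT) := by
    rw [hr, ← Real.rpow_natCast _ L, ← Real.rpow_mul zero_le_two, mul_comm,
      Real.rpow_mul zero_le_two, Real.rpow_natCast]
  rw [e, show (a : ℝ) ^ (sT - 1) = ((a : ℝ) ^ (1 - sT))⁻¹ by
    rw [← Real.rpow_neg ha'.le, neg_sub], inv_mul_eq_div, div_le_one (by positivity)]
  refine Real.rpow_le_rpow (by positivity) ?_ hs1.le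
  exact_mod_cast Nat.pow_log_le_self 2 ha.ne'

/-- A large variable `a ≥ c` off the major arcs gains. -/
theorem exists_minor_up_t_le_aux :
    ∃ C : ℝ, ∀ (x α β : ℝ) (c : ℕ) (T : Finset ℕ), 0 < x → x ≤ (2 : ℝ) ^ (-(20 : ℝ)) → 0 < c →
      (∀ a ∈ T, c ≤ a ∧ x ^ (-sigC) ≤ (a : ℝ) ∧ ¬ Maj2 x α a ∧
        ∃ n : ℤ, |(n : ℝ) + α * a - β| ≤ 4 * x) →
      ∑ a ∈ T, ((c : ℝ) / a) ^ tT / c ≤ C * x ^ sigC := by
  obtain ⟨Cb, hCb0, hCb⟩ := exists_minor_blocks_le
  have ht1 : 0 < tT - 1 := by norm_num [tT, sT, aOne, aTwo]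
  set q : ℝ := (2 : ℝ) ^ (-(tT - 1)) with hq'
  have hq1 : q < 1 := Real.rpow_lt_one_of_one_lt_of_neg one_lt_two (by linarith)
  have hq0 : 0 ≤ q := Real.rpow_nonneg zero_le_two _
  refine ⟨Cb * ((2 : ℝ) ^ (tT - 1) * (1 - q)⁻¹), fun x α β c T hx hx20 hc hT => ?_⟩
  have hc' : (0 : ℝ) < c := Nat.cast_pos.2 hc
  set w : ℕ → ℝ := fun j => ((c : ℝ) / 2 ^ j) ^ tT / c with hw
  have hmain := hCb x α β T (fun a => ((c : ℝ) / a) ^ tT / c) w hx hx20
    (fun a ha => by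
      obtain ⟨hca, h2, h3, h4⟩ := hT a ha
      refine ⟨h2, h3, h4, ?_⟩
      simp only [hw]
      refine div_le_div_of_nonneg_right (Real.rpow_le_rpow (by positivity) ?_ (by linarith)) hc'.le
      refine div_le_div_of_nonneg_left hc'.le (by positivity) ?_
      exact_mod_cast Nat.pow_log_le_self 2 (show a ≠ 0 by omega))
    fun j _ => by simp only [hw]; positivity
  refine hmain.trans ?_
  rw [show Cb * ((2 : ℝ) ^ (tT - 1) * (1 - q)⁻¹) * x ^ sigC =
    Cb * x ^ sigC * ((2 : ℝ) ^ (tT - 1) * (1 - q)⁻¹) by ring]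
  refine mul_le_mul_of_nonneg_left ?_ (by positivity)
  set L := Nat.log 2 c
  set J := T.image (Nat.log 2)
  have hJ : ∀ j ∈ J, L ≤ j := fun j hj => by
    obtain ⟨a, ha, rfl⟩ := mem_image.1 hj
    exact Nat.log_mono_right (hT a ha).1
  have hterm : ∀ j ∈ J, w j * (2 : ℝ) ^ j ≤ (2 : ℝ) ^ (tT - 1) * q ^ (j - L) := fun j hj => by
    simp only [hw, hq']
    rw [block_weight_eq hc', ← Real.rpow_natCast _ (j - L), ← Real.rpow_mul zero_le_two,
      mul_comm (-(tT - 1)), Real.rpow_mul zero_le_two, Real.rpow_natCast,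
      Real.rpow_neg (by positivity), ← div_eq_mul_inv, ← Real.div_rpow zero_le_two (by positivity)]
    refine Real.rpow_le_rpow (by positivity) ?_ ht1.le
    have h1 : (c : ℝ) ≤ 2 * (2 : ℝ) ^ L := by
      rw [← pow_succ']
      exact_mod_cast (Nat.lt_pow_succ_log_self (b := 2) (by norm_num) c).le
    rw [div_le_div_iff₀ (by positivity) (by positivity)]
    calc (c : ℝ) * 2 ^ (j - L) ≤ 2 * 2 ^ L * 2 ^ (j - L) :=
          mul_le_mul_of_nonneg_right h1 (by positivity)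
      _ = 2 * 2 ^ j := by rw [mul_assoc, ← pow_add, Nat.add_sub_cancel' (hJ j hj)]
  refine (sum_le_sum hterm).trans ?_
  rw [← mul_sum]
  refine mul_le_mul_of_nonneg_left ?_ (by positivity)
  rw [← sum_image (f := fun i => q ^ i) (g := fun j => j - L)
    fun j hj k hk h => by have := hJ j hj; have := hJ k hk; simp only at h; omega]
  refine (sum_le_sum_of_subset_of_nonneg (t := range (J.sup id + 1)) (fun i hi => ?_)
    fun i _ _ => pow_nonneg hq0 i).trans ?_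
  · obtain ⟨j, hj, rfl⟩ := mem_image.1 hi
    exact mem_range.2 (Nat.lt_succ_of_le ((Nat.sub_le _ _).trans (le_sup (f := id) hj)))
  rw [range_eq_Ico]
  exact (geom_sum_Ico_le_of_lt_one hq0 hq1).trans_eq (by rw [pow_zero, one_div])

/-- A large downward deviation off the major arcs gains, up to the square of its logarithm. -/
theorem exists_minor_down_le_aux :
    ∃ C : ℝ, ∀ (x α β L : ℝ) (N : ℕ) (T : Finset ℕ), 0 < x → x ≤ (2 : ℝ) ^ (-(20 : ℝ)) → 0 < N →
      1 ≤ L → T ⊆ N.divisors →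
      (∀ d ∈ T, x ^ (-sigC) ≤ (d : ℝ) ∧ Real.log d ≤ L ∧ ¬ Maj2 x α d ∧
        ∃ n : ℤ, |(n : ℝ) + α * d - β| ≤ 4 * x) →
      ∑ d ∈ T, (Nat.totient N : ℝ) / N / Nat.totient d ≤ C * x ^ sigC * L ^ 2 := by
  obtain ⟨Cb, hCb0, hCb⟩ := exists_minor_blocks_le
  refine ⟨9 * Cb, fun x α β L N T hx hx20 hN hL hTN hT => ?_⟩
  have hlog2 : (1 : ℝ) / 2 ≤ Real.log 2 := by linarith [Real.log_two_gt_d9]
  have hd0 : ∀ d ∈ T, 0 < d := fun d hd => Nat.pos_of_mem_divisors (hTN hd)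
  have hpow : ∀ d ∈ T, ∀ m : ℕ, 2 ^ m ≤ d → (m : ℝ) ≤ 2 * L := fun d hd m hm => by
    have h1 : (m : ℝ) * Real.log 2 ≤ Real.log d := by
      rw [← Real.log_pow]
      exact Real.log_le_log (by positivity) (by exact_mod_cast hm)
    nlinarith [(hT d hd).2.1, m.cast_nonneg (α := ℝ)]
  set w : ℕ → ℝ := fun j => 3 * L / 2 ^ j with hw
  have hmain := hCb x α β T (fun d => (Nat.totient N : ℝ) / N / Nat.totient d) w hx hx20
    (fun d hd => by
      obtain ⟨h1, -, h3, h4⟩ := hT d hd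
      refine ⟨h1, h3, h4, ?_⟩
      have hdp : (0 : ℝ) < d := Nat.cast_pos.2 (hd0 d hd)
      have hφ : (0 : ℝ) < Nat.totient d := Nat.cast_pos.2 (Nat.totient_pos.2 (hd0 d hd))
      have hNφ : (Nat.totient N : ℝ) / N ≤ 1 :=
        (div_le_one (Nat.cast_pos.2 hN)).2 (Nat.cast_le.2 (Nat.totient_le N))
      have hω : (d.primeFactors.card : ℝ) ≤ 2 * L := by
        refine hpow d hd _ ((Finset.pow_card_le_prod _ (fun p => p) 2 fun p hp => ?_).trans
          (Nat.le_of_dvd (hd0 d hd) (Nat.prod_primeFactors_dvd d)))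
        exact (Nat.prime_of_mem_primeFactors hp).two_le
      have h2 : (d : ℝ) / Nat.totient d ≤ 3 * L :=
        (div_totient_le_card d (hd0 d hd)).trans (by linarith)
      have hlogd : (2 : ℝ) ^ Nat.log 2 d ≤ d := by
        exact_mod_cast Nat.pow_log_le_self 2 (hd0 d hd).ne'
      simp only [hw]
      refine (div_le_div_of_nonneg_right hNφ hφ.le).trans ?_
      rw [div_le_div_iff₀ hφ (by positivity), one_mul]
      rw [div_le_iff₀ hφ] at h2
      linarith)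
    fun j _ => by simp only [hw]; positivity
  refine hmain.trans ?_
  rw [show 9 * Cb * x ^ sigC * L ^ 2 = Cb * x ^ sigC * (3 * L * (3 * L)) by ring]
  refine mul_le_mul_of_nonneg_left ?_ (by positivity)
  have e : ∀ j : ℕ, w j * (2 : ℝ) ^ j = 3 * L := fun j => by
    simp only [hw]; field_simp
  simp only [e, sum_const, nsmul_eq_mul]
  refine mul_le_mul_of_nonneg_right ?_ (by linarith)
  have hsub : T.image (Nat.log 2) ⊆ range (⌊2 * L⌋₊ + 1) := fun j hj => by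
    obtain ⟨d, hd, rfl⟩ := mem_image.1 hj
    exact mem_range.2 (Nat.lt_succ_of_le (Nat.le_floor
      (hpow d hd _ (Nat.pow_log_le_self 2 (hd0 d hd).ne'))))
  refine (Nat.cast_le.2 ((card_le_card hsub).trans_eq (card_range _))).trans ?_
  push_cast
  linarith [Nat.floor_le (show (0 : ℝ) ≤ 2 * L by linarith)]

end Vale.Agent.P028.T2
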