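import Vale.Agent.P028.T2.Overlap

/-!
Local estimates for far pairs: the lines of two classes, the periodic sum, the size of the form
which decides the coincidences.
-/

noncomputable section

namespace Vale.Agent.P028.T2.Periodic

open Finset
open scoped Classical

theorem lineAvg_le_one (A : ℤ) (B : ℕ) (A' : ℤ) (B' q r : ℕ) {p : ℕ} (hp : p.Prime) (a0 b0 : ℤ) :
    lineAvg A B A' B' q r a0 b0 p ≤ 1 := by
  have hp0 : (0 : ℝ) < p := by exact_mod_cast hp.pos
  rw [lineAvg, div_le_one hp0]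
  refine (sum_le_sum (g := fun _ => (1 : ℝ)) fun i _ => ?_).trans (by simp)
  exact mul_le_one₀ (lw_le_one A B q hp _) (lw_nonneg A' B' r hp _) (lw_le_one A' B' r hp _)

theorem lineAvg_nonneg' (A : ℤ) (B : ℕ) (A' : ℤ) (B' q r : ℕ) {p : ℕ} (hp : p.Prime) (a0 b0 : ℤ) :
    0 ≤ lineAvg A B A' B' q r a0 b0 p :=
  div_nonneg (sum_nonneg fun _ _ => mul_nonneg (lw_nonneg _ _ _ hp _) (lw_nonneg _ _ _ hp _))
    (Nat.cast_nonneg p)

theorem lineAvg_swap (A : ℤ) (B : ℕ) (A' : ℤ) (B' q r p : ℕ) (a0 b0 : ℤ) :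
    lineAvg A B A' B' q r a0 b0 p = lineAvg A' B' A B r q b0 a0 p := by
  simp only [lineAvg, mul_comm (lw A B q p _)]

/-- A line costs at most one side, provided that side is constant or runs through all residues. -/
theorem lineAvg_le_left {A : ℤ} {B : ℕ} {A' : ℤ} {B' q r p : ℕ} (hp : p.Prime) (a0 b0 : ℤ)
    (h : p ∣ qd q r → p ∣ B) : lineAvg A B A' B' q r a0 b0 p ≤ lwAvg q p := by
  have hp0 : (0 : ℝ) < p := by exact_mod_cast hp.pos
  rw [lineAvg, div_le_iff₀ hp0, mul_comm (lwAvg q p)]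
  refine (sum_le_sum (g := fun i : ℕ => lw A B q p (a0 + (qd q r : ℤ) * i)) fun i _ =>
    mul_le_of_le_one_right (lw_nonneg A B q hp _) (lw_le_one A' B' r hp _)).trans (le_of_eq ?_)
  by_cases hB : p ∣ B
  · have e : ∀ a : ℤ, lw A B q p a = lwAvg q p := fun a => by simp [lw, lwAvg, hB]
    simp [e]
  · exact sum_lw_line hp (fun hd => hB (h hd)) a0

/-- The local bound on a line for two classes. -/
theorem lineAvg_le_two {A : ℤ} {B : ℕ} {A' : ℤ} {B' q r : ℕ} (hq : 0 < q) {n a0 b0 : ℤ}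
    (h : (qd r q : ℤ) * a0 - (qd q r : ℤ) * b0 = n) {p : ℕ} (hp : p.Prime)
    (hpT : p ∣ q ∨ p ∣ r) {c : Prop} [Decidable c]
    (hc : p ∣ q → p ∣ r → ¬ p ∣ B → ¬ p ∣ B' → ∀ a b : ℤ,
      (qd r q : ℤ) * a - (qd q r : ℤ) * b = n →
      (p : ℤ) ∣ a * B + A → (p : ℤ) ∣ b * B' + A' → c) :
    lineAvg A B A' B' q r a0 b0 p ≤ lwAvg q p * lwAvg r p *
      ((if p ∣ qd q r * qd r q then ratio p else 1) *
        (if p ∣ Nat.gcd q r ∧ ¬ p ∣ qd q r * qd r q ∧ ¬ p ∣ B ∧ ¬ p ∣ B' ∧ c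
          then ratio p else 1)) := by
  have hp0 : (0 : ℝ) < p := by exact_mod_cast hp.pos
  have hr1 := ratio_mul_one_sub hp
  by_cases hg : p ∣ Nat.gcd q r
  · have hdq : p ∣ q := hg.trans (Nat.gcd_dvd_left q r)
    have hdr : p ∣ r := hg.trans (Nat.gcd_dvd_right q r)
    have eq' : lwAvg q p = 1 - 1 / (p : ℝ) := by simp [lwAvg, hdq]
    have er' : lwAvg r p = 1 - 1 / (p : ℝ) := by simp [lwAvg, hdr]
    have bnd1 : ¬ p ∣ qd q r → lineAvg A B A' B' q r a0 b0 p ≤ 1 - 1 / (p : ℝ) := fun h' =>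
      (lineAvg_le_left hp a0 b0 fun hd => absurd hd h').trans eq'.le
    have bnd2 : ¬ p ∣ qd r q → lineAvg A B A' B' q r a0 b0 p ≤ 1 - 1 / (p : ℝ) := fun h' => by
      rw [lineAvg_swap]
      exact (lineAvg_le_left hp b0 a0 fun hd => absurd hd h').trans er'.le
    by_cases hd : p ∣ qd q r * qd r q
    · simp only [hd, not_true, and_false, false_and, if_false, if_true, mul_one, eq', er']
      rw [mul_assoc, hr1, mul_one]
      by_cases hdd : p ∣ qd q r
      · exact bnd2 fun h2 => not_dvd_both hp hq hdd h2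
      · exact bnd1 hdd
    have hd1 : ¬ p ∣ qd q r := fun h' => hd (h'.mul_right _)
    have hd2 : ¬ p ∣ qd r q := fun h' => hd (h'.mul_left _)
    by_cases hcond : ¬ p ∣ B ∧ ¬ p ∣ B' ∧ c
    · simp only [hd, hg, hcond, not_false_eq_true, and_self, if_true, if_false, one_mul, eq', er']
      rw [mul_assoc, hr1, mul_one]
      exact bnd1 hd1
    · simp only [hd, hcond, and_false, if_false, mul_one, eq', er', lineAvg]
      by_cases hB : p ∣ B
      · have e : ∀ a : ℤ, lw A B q p a = 1 - 1 / (p : ℝ) := fun a => by simp [lw, hdq, hB]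
        simp only [e]
        rw [← mul_sum, sum_lw_line hp hd2, er', div_le_iff₀ hp0]
        linarith
      by_cases hB' : p ∣ B'
      · have e : ∀ a : ℤ, lw A' B' r p a = 1 - 1 / (p : ℝ) := fun a => by simp [lw, hdr, hB']
        simp only [e]
        rw [← sum_mul, sum_lw_line hp hd1, eq', div_le_iff₀ hp0]
        linarith
      have ex : ∀ i : ℕ,
          lw A B q p (a0 + (qd q r : ℤ) * i) * lw A' B' r p (b0 + (qd r q : ℤ) * i) =
          lw A B q p (a0 + (qd q r : ℤ) * i) + lw A' B' r p (b0 + (qd r q : ℤ) * i) - 1 := by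
        intro i
        simp only [lw, hdq, hdr, hB, hB', if_true, if_false]
        split_ifs with h1 h2
        · exact absurd ⟨hB, hB', hc hdq hdr hB hB' _ _ (by rw [← h]; ring) h1 h2⟩ hcond
        all_goals norm_num
      rw [sum_congr rfl fun i _ => ex i, sum_sub_distrib, sum_add_distrib, sum_lw_line hp hd1,
        sum_lw_line hp hd2, eq', er', sum_const, card_range, nsmul_one, div_le_iff₀ hp0]
      field_simp
      nlinarith
  · have hg' : ¬ p ∣ Nat.gcd r q := by rwa [Nat.gcd_comm]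
    have hd : p ∣ qd q r * qd r q := by
      rcases hpT with h' | h'
      · exact (dvd_qd_of_not_dvd_gcd hp h' hg).mul_right _
      · exact (dvd_qd_of_not_dvd_gcd hp h' hg').mul_left _
    simp only [hd, hg, false_and, if_true, if_false, mul_one]
    have e : lwAvg q p * lwAvg r p = 1 - 1 / (p : ℝ) := by
      have hnot : ¬ (p ∣ q ∧ p ∣ r) := fun h' => hg (Nat.dvd_gcd h'.1 h'.2)
      rcases hpT with h' | h'
      · have n1 : ¬ p ∣ r := fun h'' => hnot ⟨h', h''⟩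
        simp [lwAvg, h', n1]
      · have n1 : ¬ p ∣ q := fun h'' => hnot ⟨h'', h'⟩
        simp [lwAvg, h', n1]
    rw [e, hr1]
    exact lineAvg_le_one A B A' B' q r hp a0 b0

/-- The primorial bound below the cut. -/
theorem four_pow_cutY_le (D : ℝ) : (4 : ℝ) ^ cutY D ≤ max D 1 := by
  have h1 : (1 : ℝ) ≤ max D 1 := le_max_right _ _
  have h4 : (4 : ℝ) ≤ Real.exp 2 := by
    have h := Real.add_one_le_exp (1 : ℝ)
    have e : Real.exp 2 = Real.exp 1 * Real.exp 1 := by rw [← Real.exp_add]; norm_num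
    rw [e]
    nlinarith [Real.exp_pos (1 : ℝ)]
  calc (4 : ℝ) ^ cutY D ≤ Real.exp 2 ^ cutY D := by gcongr
    _ = Real.exp ((cutY D : ℝ) * 2) := (Real.exp_nat_mul 2 _).symm
    _ ≤ Real.exp (Real.log (max D 1)) := Real.exp_le_exp.2 (by
        have := Nat.floor_le (div_nonneg (Real.log_nonneg h1) (by norm_num : (0 : ℝ) ≤ 2))
        rw [cutY]
        linarith)
    _ = _ := Real.exp_log (by linarith)

theorem log_max_le_cutY (D : ℝ) : Real.log (max D 1) ≤ 2 * ((cutY D : ℝ) + 1) := by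
  have := Nat.lt_floor_add_one (Real.log (max D 1) / 2)
  rw [cutY]
  linarith

/-- The periodic sum over the near coincidence numbers. -/
theorem sum_nearSet_nFac_le (γ : ℝ) (ψ : ℕ → ℝ) (A : ℤ) (B : ℕ) (A' : ℤ) (B' q r : ℕ)
    (Ts : Finset ℕ) (hp : ∀ p ∈ Ts, p.Prime) (hy : ∀ p ∈ Ts, p ≤ cutY (dist2 ψ q r))
    (hD : 1 / 2 ≤ dist2 ψ q r) :
    ∑ n ∈ nearSet γ ψ q r, ∏ p ∈ Ts, nFac A B A' B' q r p (n % (p : ℤ)).toNat ≤
      12 * dist2 ψ q r * ∏ p ∈ Ts, lwAvg q p * lwAvg r p := by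
  set D := dist2 ψ q r
  set h : ℕ → ℕ → ℝ := fun p i => if p.Prime then nFac A B A' B' q r p i else 0 with hh
  have h0 : ∀ p i, 0 ≤ h p i := fun p i => by
    simp only [hh]; split_ifs with hp' <;> [exact nFac_nonneg _ _ _ _ q r hp' i; exact le_rfl]
  have eF : ∀ n : ℤ, ∏ p ∈ Ts, nFac A B A' B' q r p (n % (p : ℤ)).toNat =
      ∏ p ∈ Ts, h p (n % (p : ℤ)).toNat :=
    fun n => prod_congr rfl fun p hpT => by simp [hh, hp p hpT]
  simp only [eF]
  refine (sum_le_sum_of_subset_of_nonneg (filter_subset _ _)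
    fun n _ _ => prod_nonneg fun p _ => h0 p _).trans ?_
  refine (sum_Icc_prod_mod_le Ts hp h h0 _ _).trans ?_
  have eavg : ∀ p ∈ Ts, (∑ i ∈ range p, h p i) / (p : ℝ) = lwAvg q p * lwAvg r p := fun p hpT => by
    have hp0 : (p : ℝ) ≠ 0 := by exact_mod_cast (hp p hpT).ne_zero
    simp only [hh, hp p hpT, if_true, sum_nFac A B A' B' q r (hp p hpT)]
    field_simp
  rw [prod_congr rfl eavg]
  refine mul_le_mul_of_nonneg_right ?_
    (prod_nonneg fun p hpT => (mul_pos (lwAvg_pos q (hp p hpT)) (lwAvg_pos r (hp p hpT))).le)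
  have hper : ∏ p ∈ Ts, (p : ℝ) ≤ 2 * D := by
    have h1 : ∏ p ∈ Ts, p ≤ 4 ^ cutY D :=
      le_trans (prod_le_prod_of_subset_of_one_le
        (fun p hpT => mem_filter.2 ⟨mem_range.2 (Nat.lt_succ_iff.2 (hy p hpT)), hp p hpT⟩)
        (fun _ _ => Nat.zero_le _) fun p hpT _ => (mem_filter.1 hpT).2.one_le)
        (primorial_le_four_pow _)
    have h2 : ∏ p ∈ Ts, (p : ℝ) ≤ (4 : ℝ) ^ cutY D := by
      have h' := (Nat.cast_le (α := ℝ)).2 h1
      push_cast at h'
      exact h'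
    exact h2.trans ((four_pow_cutY_le D).trans (max_le (by linarith) (by linarith)))
  have e1 := Int.sub_one_lt_floor (-(γ * mdiff q r) - 2 * D)
  have e2 := Int.ceil_lt_add_one (-(γ * mdiff q r) + 2 * D)
  have hlen : max ((⌈-(γ * mdiff q r) + 2 * D⌉ : ℝ) - ⌊-(γ * mdiff q r) - 2 * D⌋ + 1) 0 ≤
      10 * D := max_le (by linarith) (by linarith)
  linarith

/-- The form vanishes for at most one `n`. -/
theorem card_zform2_zero_le (s : Finset ℤ) {A A' : ℤ} {B B' : ℕ} (hB : 0 < B) (hB' : 0 < B')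
    (q r : ℕ) : (s.filter (fun n => zform2 A B A' B' q r n = 0)).card ≤ 1 := by
  refine card_le_one.2 fun a ha b hb => ?_
  have e1 := (mem_filter.1 ha).2
  have e2 := (mem_filter.1 hb).2
  simp only [zform2] at e1 e2
  have hne : (B : ℤ) * B' ≠ 0 := by positivity
  have : (a - b) * ((B : ℤ) * B') = 0 := by linear_combination e1 - e2
  rcases mul_eq_zero.1 this with h | h
  · linarith
  · exact absurd h hne

theorem zform2_eq_lin {A A' : ℤ} {B B' q r : ℕ} {n a b : ℤ}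
    (h : (qd r q : ℤ) * a - (qd q r : ℤ) * b = n) :
    zform2 A B A' B' q r n =
      (qd r q : ℤ) * B' * (a * B + A) - (qd q r : ℤ) * B * (b * B' + A') := by
  rw [← h, zform2]
  ring

theorem zform2_same (A : ℤ) (B q r : ℕ) (n : ℤ) :
    zform2 A B A B q r n = (B : ℤ) * zform A B q r n := by
  simp only [zform2, zform, mdiff]
  ring

/-- Few primes divide a nonzero integer. -/
theorem card_primes_dvd_le {Z : ℤ} (hZ : Z ≠ 0) (s : Finset ℕ)
    (hs : ∀ p ∈ s, p.Prime ∧ (p : ℤ) ∣ Z) : (s.card : ℝ) ≤ 2 * Real.log |(Z : ℝ)| := by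
  have hdvd : ∏ p ∈ s, p ∣ Z.natAbs :=
    Finset.prod_primes_dvd _ (fun p hp => (hs p hp).1.prime)
      fun p hp => Int.natCast_dvd.1 (hs p hp).2
  have h2 : 2 ^ s.card ≤ Z.natAbs :=
    le_trans (pow_card_le_prod _ _ 2 fun p hp => (hs p hp).1.two_le)
      (Nat.le_of_dvd (Int.natAbs_pos.2 hZ) hdvd)
  have h2' : (2 : ℝ) ^ s.card ≤ |(Z : ℝ)| := by
    have h3 : ((2 ^ s.card : ℕ) : ℝ) ≤ (Z.natAbs : ℝ) := by exact_mod_cast h2
    rw [Nat.cast_natAbs] at h3
    push_cast at h3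
    exact h3
  have h3 := Real.log_le_log (by positivity) h2'
  rw [Real.log_pow] at h3
  have h4 : (s.card : ℝ) * (1 / 2) ≤ s.card * Real.log 2 :=
    mul_le_mul_of_nonneg_left (by linarith [Real.log_two_gt_d9]) (Nat.cast_nonneg _)
  linarith

end Vale.Agent.P028.T2.Periodic
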