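import Vale.Agent.P028.T2.Overlap
import Vale.Agent.P028.T2.GainSame
import Vale.Agent.P028.T2.Kill
import Vale.Agent.P028.T2.Band
import Vale.Agent.P028.SameWindow

/-!
The pairs of one window with `D < 1/2`.

Below `2 exp (-0.49 Λ)` the band bound applies; between `exp (-0.49 Λ)` and `x0` a pair with a
coincidence off the line is bad, and a high moment absorbs the factor `hFac`; above `x0` the moment
alone suffices.
-/

noncomputable section

namespace Vale.Agent.P028.T2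

open Finset
open scoped Classical

/-- A number is at most a threshold plus a high power scaled down by that threshold. -/
theorem le_threshold_add_pow {h t : ℝ} (h0 : 0 ≤ h) (ht : 0 < t) (j : ℕ) :
    h ≤ t + (t ^ j)⁻¹ * h ^ (j + 1) := by
  have hp : 0 ≤ (t ^ j)⁻¹ * h ^ (j + 1) := by positivity
  rcases le_total h t with hle | hle
  · linarith
  · have h1 : h ≤ (t ^ j)⁻¹ * h ^ (j + 1) := by
      rw [le_inv_mul_iff₀ (by positivity), pow_succ]
      exact mul_le_mul_of_nonneg_right (pow_le_pow_left₀ ht.le hle j) h0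
    linarith

/-- A pair of one window with a coincidence off the line, at a level above `exp (-0.49 Λ)`, is bad. -/
theorem exists_badPair_of_good :
    ∃ lam0 x0 : ℝ, 0 < x0 ∧ ∀ P : Sys, P.Ok lam0 → ∀ q ∈ P.S, ∀ r ∈ P.S, q ≠ r →
      P.lam q = P.lam r → ∀ x : ℝ, Real.exp (-(49 / 100 * P.lam q)) ≤ x → x ≤ x0 →
      dist2 P.ψ q r ≤ 2 * x → (P.goodSet q r).Nonempty →
      BadPair P.γ P.ψ (P.lam q) x q r := by
  obtain ⟨l, x0, hx0, hk⟩ := exists_kill
  refine ⟨l, x0, hx0, fun P hP q hq r hr hne hlam x hxl hxu hd ⟨n, hn⟩ => ?_⟩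
  obtain ⟨hn1, hgood⟩ := mem_filter.1 hn
  have hnear := (mem_filter.1 hn1).2
  have hn4 : |(n : ℝ) + P.γ * mdiff q r| ≤ 4 * x := by linarith
  exact ⟨hne, hd, ⟨n, hn4⟩, fun ⟨hT, hM⟩ =>
    hgood (hk P hP q hq r hr hlam.le x hxl hxu hd hT hM n hn4)⟩

/-- One level of one window. -/
theorem exists_sameLevel_le :
    ∃ C lam0 x0 : ℝ, 0 < x0 ∧ 0 ≤ C ∧ ∀ P : Sys, P.Ok lam0 → ∀ S : Finset ℕ, S ⊆ P.S →
      ∀ Λ : ℝ, (∀ q ∈ S, P.lam q = Λ) → ∀ x : ℝ,
      Real.exp (-(49 / 100 * Λ)) ≤ x → x ≤ x0 →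
      ∑ v ∈ S, ∑ w ∈ S.filter (fun w => v ≠ w ∧ dist2 P.ψ v w ≤ 2 * x ∧
          (P.goodSet v w).Nonempty),
          hFac 0 (qd v w * qd w v) * (wt P.ψ v * wt P.ψ w) / x ≤
        C * (mass P.ψ S + mass P.ψ S ^ 2) * x ^ (3 / 100000000 : ℝ) := by
  obtain ⟨l1, x1, hx1, hbad⟩ := exists_badPair_of_good
  obtain ⟨Cg, l2, x2, hx2, hgain⟩ := exists_gainSame_le
  obtain ⟨Cm, hmom⟩ := exists_moment_le (10 ^ 6) (by norm_num)
  refine ⟨max Cg 0 + 2 * max Cm 0, max l1 l2, min (min x1 x2) 1, by positivity, by positivity,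
    fun P hP S hS Λ hΛ x hxl hxu => ?_⟩
  simp only [le_min_iff] at hxu
  obtain ⟨⟨hxu1, hxu2⟩, hxu3⟩ := hxu
  have hP1 : P.Ok l1 := { hP with lam_ge := fun q hq => le_trans (le_max_left _ _) (hP.lam_ge q hq) }
  have hP2 : P.Ok l2 := { hP with lam_ge := fun q hq => le_trans (le_max_right _ _) (hP.lam_ge q hq) }
  have hx : 0 < x := lt_of_lt_of_le (Real.exp_pos _) hxl
  have hg := hgain P hP2 S hS Λ hΛ x hxl hxu2
  have hm := hmom P.ψ S (2 * x) 0 (10 ^ 6) (fun q hq => hP.pos q (hS hq)) hP.nonneg (by linarith)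
    (by norm_num)
  have hw : ∀ q, 0 ≤ wt P.ψ q := BilinearAux.wt_nonneg hP.nonneg
  have hμ : 0 ≤ mass P.ψ S + mass P.ψ S ^ 2 := by
    have := BilinearAux.mass_nonneg hP.nonneg S
    positivity
  set μ2 := mass P.ψ S + mass P.ψ S ^ 2 with hμ2
  -- the threshold
  set a : ℝ := 2 / 100000000 with ha
  set t : ℝ := x ^ (-a) with ht
  have ht0 : 0 < t := Real.rpow_pos_of_pos hx _
  set j : ℕ := 10 ^ 6 - 1 with hj
  have hjk : j + 1 = 10 ^ 6 := by norm_num [hj]
  have hjR : (j : ℝ) = 999999 := by norm_num [hj]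
  have hW : (2 : ℝ) ^ (993 / 1000 : ℝ) ≤ 2 := by
    calc (2 : ℝ) ^ (993 / 1000 : ℝ) ≤ 2 ^ (1 : ℝ) :=
          Real.rpow_le_rpow_of_exponent_le one_le_two (by norm_num)
      _ = 2 := Real.rpow_one _
  -- pointwise
  have hpt : ∀ v ∈ S, ∀ w ∈ S,
      (if v ≠ w ∧ dist2 P.ψ v w ≤ 2 * x ∧ (P.goodSet v w).Nonempty then
        hFac 0 (qd v w * qd w v) * (wt P.ψ v * wt P.ψ w) / x else 0) ≤
      t / x * (if BadPair P.γ P.ψ Λ x v w then wt P.ψ v * wt P.ψ w else 0) +
        (t ^ j)⁻¹ / x * (if v ≠ w ∧ dist2 P.ψ v w ≤ 2 * x then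
          wt P.ψ v * wt P.ψ w * hFac 0 (qd v w * qd w v) ^ (10 ^ 6) else 0) := by
    intro v hv w hw'
    have hh : 0 ≤ hFac 0 (qd v w * qd w v) := le_trans zero_le_one (BilinearAux.one_le_hFac _ _)
    have hF := mul_nonneg (hw v) (hw w)
    by_cases h : v ≠ w ∧ dist2 P.ψ v w ≤ 2 * x ∧ (P.goodSet v w).Nonempty
    · obtain ⟨h1, h2, h3⟩ := h
      have hlam : P.lam v = P.lam w := by rw [hΛ v hv, hΛ w hw']
      have hb : BadPair P.γ P.ψ Λ x v w := hΛ v hv ▸
        hbad P hP1 v (hS hv) w (hS hw') h1 hlam x (by rw [hΛ v hv]; exact hxl) hxu1 h2 h3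
      rw [if_pos ⟨h1, h2, h3⟩, if_pos hb, if_pos ⟨h1, h2⟩, ← hjk]
      have := mul_le_mul_of_nonneg_right (le_threshold_add_pow hh ht0 j) (div_nonneg hF hx.le)
      refine le_trans (le_of_eq ?_) (this.trans (le_of_eq ?_)) <;> ring
    · rw [if_neg h]
      refine add_nonneg (mul_nonneg (by positivity) ?_) (mul_nonneg (by positivity) ?_)
      · split_ifs
        exacts [hF, le_rfl]
      · split_ifs
        exacts [mul_nonneg hF (pow_nonneg hh _), le_rfl]
  calc _ ≤ ∑ v ∈ S, ∑ w ∈ S, (t / x * (if BadPair P.γ P.ψ Λ x v w then wt P.ψ v * wt P.ψ w else 0) +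
        (t ^ j)⁻¹ / x * (if v ≠ w ∧ dist2 P.ψ v w ≤ 2 * x then
          wt P.ψ v * wt P.ψ w * hFac 0 (qd v w * qd w v) ^ (10 ^ 6) else 0)) := by
        refine sum_le_sum fun v hv => ?_
        rw [sum_filter]
        exact sum_le_sum fun w hw' => hpt v hv w hw'
    _ = t / x * ∑ v ∈ S, ∑ w ∈ S.filter (fun w => BadPair P.γ P.ψ Λ x v w),
          wt P.ψ v * wt P.ψ w +
        (t ^ j)⁻¹ / x * ∑ v ∈ S, ∑ w ∈ S.filter (fun w => v ≠ w ∧ dist2 P.ψ v w ≤ 2 * x),
          wt P.ψ v * wt P.ψ w * hFac 0 (qd v w * qd w v) ^ (10 ^ 6) := by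
        simp only [sum_add_distrib, ← mul_sum, ← sum_filter]
    _ ≤ t / x * (max Cg 0 * μ2 * x ^ (1 + gainC)) +
        (t ^ j)⁻¹ / x * (max Cm 0 * μ2 * (2 * x ^ (993 / 1000 : ℝ))) := by
        refine add_le_add (mul_le_mul_of_nonneg_left (hg.trans ?_) (by positivity))
          (mul_le_mul_of_nonneg_left (hm.trans ?_) (by positivity))
        · gcongr; exact le_max_left _ _
        · refine mul_le_mul (mul_le_mul_of_nonneg_right (le_max_left _ _) hμ) ?_ (by positivity)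
            (mul_nonneg (le_max_right _ _) hμ)
          rw [Real.mul_rpow zero_le_two hx.le]
          exact mul_le_mul_of_nonneg_right hW (Real.rpow_nonneg hx.le _)
    _ = max Cg 0 * μ2 * x ^ (gainC - a) + 2 * max Cm 0 * μ2 * x ^ (a * j - 7 / 1000) := by
        have e1 : x ^ (gainC - a) = t * x ^ (1 + gainC) / x := by
          rw [eq_div_iff hx.ne', ← Real.rpow_add_one hx.ne', ht, ← Real.rpow_add hx]
          ring_nf
        have e2 : x ^ (a * j - 7 / 1000) = (t ^ j)⁻¹ * x ^ (993 / 1000 : ℝ) / x := by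
          rw [eq_div_iff hx.ne', ← Real.rpow_add_one hx.ne', ht, ← Real.rpow_natCast,
            ← Real.rpow_mul hx.le, ← Real.rpow_neg hx.le, ← Real.rpow_add hx]
          ring_nf
        rw [e1, e2]
        ring
    _ ≤ max Cg 0 * μ2 * x ^ (3 / 100000000 : ℝ) + 2 * max Cm 0 * μ2 * x ^ (3 / 100000000 : ℝ) :=
        add_le_add
          (mul_le_mul_of_nonneg_left (le_of_eq (by norm_num [gainC, ha]))
            (mul_nonneg (le_max_right _ _) hμ))
          (mul_le_mul_of_nonneg_left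
            (Real.rpow_le_rpow_of_exponent_ge hx hxu3 (by rw [hjR, ha]; norm_num))
            (mul_nonneg (mul_nonneg zero_le_two (le_max_right _ _)) hμ))
    _ = _ := by rw [hμ2]; ring

/-- One window. -/
theorem exists_oneWindow_le :
    ∃ C lam0 : ℝ, 0 ≤ C ∧ ∀ P : Sys, P.Ok lam0 → ∀ S : Finset ℕ, S ⊆ P.S →
      ∀ Λ : ℝ, (∀ q ∈ S, P.lam q = Λ) →
      ∑ v ∈ S, ∑ w ∈ S.filter (fun w => v ≠ w ∧ dist2 P.ψ v w < 1 / 2), P.gTerm v w ≤
        C * (mass P.ψ S + mass P.ψ S ^ 2) := by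
  obtain ⟨C0, l0, hsame⟩ := exists_gTerm_same_le
  obtain ⟨Cf, l1, hfac⟩ := exists_factor_le
  obtain ⟨Cb, l2, hband⟩ := exists_band_le
  obtain ⟨Cl, l3, x3, hx3, hCl, hlev⟩ := exists_sameLevel_le
  obtain ⟨Cm, hmom⟩ := exists_moment_le 1 zero_le_one
  set x0 : ℝ := min x3 1 with hx0d
  have hx0 : 0 < x0 := lt_min hx3 one_pos
  set e : ℝ := 3 / 100000000 with he
  set r : ℝ := (2 : ℝ) ^ e with hr
  have hr1 : 1 < r := Real.one_lt_rpow (by norm_num) (by norm_num [he])
  refine ⟨max C0 0 * (max Cf 0 * max Cb 0 * 80000 + max Cm 0 / x0 + Cl * (r / (r - 1))),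
    max 1 (max (max l0 l1) (max l2 l3)), ?_, fun P hP S hS Λ hΛ => ?_⟩
  · have : 0 < r - 1 := by linarith
    positivity
  rcases S.eq_empty_or_nonempty with hemp | ⟨q0, hq0⟩
  · simp [hemp, mass]
  have hmono : ∀ l, l ≤ max 1 (max (max l0 l1) (max l2 l3)) → P.Ok l := fun l hl =>
    { hP with lam_ge := fun q hq => hl.trans (hP.lam_ge q hq) }
  have hP0 : P.Ok l0 := hmono _ (by simp)
  have hP1 : P.Ok l1 := hmono _ (by simp)
  have hP2 : P.Ok l2 := hmono _ (by simp)
  have hP3 : P.Ok l3 := hmono _ (by simp)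
  have hΛ1 : 1 ≤ Λ := hΛ q0 hq0 ▸ le_trans (le_max_left _ _) (hP.lam_ge q0 (hS hq0))
  set μ2 := mass P.ψ S + mass P.ψ S ^ 2 with hμ2
  have hw : ∀ q, 0 ≤ wt P.ψ q := BilinearAux.wt_nonneg hP.nonneg
  have hμ : 0 ≤ μ2 := by
    have := BilinearAux.mass_nonneg hP.nonneg S
    positivity
  set xl : ℝ := Real.exp (-(49 / 100 * Λ)) with hxl
  have hxl0 : 0 < xl := Real.exp_pos _
  obtain ⟨N, hN⟩ := pow_unbounded_of_one_lt (x0 / xl) one_lt_two
  set T := (range N).filter (fun k => xl * 2 ^ k ≤ x0) with hT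
  -- the three ranges
  set band : ℕ → ℕ → ℝ := fun v w =>
    if v ≠ w ∧ dist2 P.ψ v w ≤ 2 * xl ∧ (P.goodSet v w).Nonempty then
      wt P.ψ v * wt P.ψ w / dist2 P.ψ v w else 0 with hbandd
  set top : ℕ → ℕ → ℝ := fun v w =>
    if v ≠ w ∧ dist2 P.ψ v w ≤ 1 then
      wt P.ψ v * wt P.ψ w * hFac 0 (qd v w * qd w v) ^ 1 else 0 with htopd
  set lev : ℕ → ℕ → ℕ → ℝ := fun k v w =>
    if v ≠ w ∧ dist2 P.ψ v w ≤ 2 * (xl * 2 ^ k) ∧ (P.goodSet v w).Nonempty then
      hFac 0 (qd v w * qd w v) * (wt P.ψ v * wt P.ψ w) / (xl * 2 ^ k) else 0 with hlevd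
  have hpt : ∀ v ∈ S, ∀ w ∈ S, v ≠ w ∧ dist2 P.ψ v w < 1 / 2 →
      P.gTerm v w ≤ max C0 0 * (max Cf 0 * Λ ^ 2 * band v w + top v w / x0 +
        ∑ k ∈ T, lev k v w) := by
    intro v hv w hw' ⟨hne, hD⟩
    set D := dist2 P.ψ v w with hDd
    have hD0 : 0 < D := lt_max_of_lt_left (mul_pos (hP.psi_pos v (hS hv))
      (Nat.cast_pos.2 (BilinearAux.qd_pos (hP.pos w (hS hw')))))
    set h := hFac 0 (qd v w * qd w v) with hhd
    have hh : 0 ≤ h := le_trans zero_le_one (BilinearAux.one_le_hFac _ _)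
    have hF := mul_nonneg (hw v) (hw w)
    have hb0 : 0 ≤ band v w := by
      simp only [hbandd]; split_ifs
      exacts [div_nonneg hF hD0.le, le_rfl]
    have ht0 : 0 ≤ top v w := by
      simp only [htopd]; split_ifs
      exacts [mul_nonneg hF (pow_nonneg hh _), le_rfl]
    have hl0 : ∀ k, 0 ≤ lev k v w := fun k => by
      simp only [hlevd]; split_ifs
      exacts [div_nonneg (mul_nonneg hh hF) (by positivity), le_rfl]
    have hX : 0 ≤ max Cf 0 * Λ ^ 2 * band v w := by positivity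
    have hY : 0 ≤ top v w / x0 := by positivity
    have hZ : 0 ≤ ∑ k ∈ T, lev k v w := sum_nonneg fun k _ => hl0 k
    refine (hsame P hP0 v (hS hv) w (hS hw') (by rw [hΛ v hv, hΛ w hw']) hD).trans ?_
    split_ifs with hne'
    swap
    · exact mul_nonneg (le_max_right _ _) (add_nonneg (add_nonneg hX hY) hZ)
    rw [← hDd, ← hhd]
    refine le_trans (le_of_eq (mul_assoc _ _ _)) (mul_le_mul (le_max_left _ _) ?_
      (mul_nonneg hh (div_nonneg hF hD0.le)) (le_max_right _ _))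
    rcases le_or_gt D (2 * xl) with hlow | hmid
    · have hb : band v w = wt P.ψ v * wt P.ψ w / D := if_pos ⟨hne, hlow, hne'⟩
      obtain ⟨n, -⟩ := id hne'
      have hw1 : 1 ≤ P.wF 0 v w n := Finset.one_le_prod fun p hp =>
        BilinearAux.one_le_ratio (Nat.prime_of_mem_primeFactors (mem_filter.1 hp).1)
      have hhΛ : h ≤ max Cf 0 * Λ ^ 2 := by
        refine (le_mul_of_one_le_right hh hw1).trans ((hfac P hP1 v (hS hv) w (hS hw') n).trans ?_)
        rw [hΛ v hv, hΛ w hw', ← sq]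
        exact mul_le_mul_of_nonneg_right (le_max_left _ _) (sq_nonneg _)
      have := mul_le_mul_of_nonneg_right hhΛ (div_nonneg hF hD0.le)
      rw [← hb] at this ⊢
      linarith
    rcases le_or_gt D x0 with hlev' | hhigh
    · have hex : ∃ k, D ≤ xl * 2 ^ k := by
        refine ⟨N, hlev'.trans ?_⟩
        have := (div_lt_iff₀ hxl0).1 hN
        linarith
      have hs := Nat.find_spec hex
      have hmin := @Nat.find_min _ _ hex
      have hle : Nat.find hex ≤ N := Nat.find_min' hex (by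
        have := (div_lt_iff₀ hxl0).1 hN
        linarith)
      obtain ⟨k, hk⟩ : ∃ k, Nat.find hex = k + 1 := by
        refine Nat.exists_eq_succ_of_ne_zero fun h0 => ?_
        rw [h0] at hs
        linarith
      rw [hk, pow_succ] at hs
      have hlo : xl * 2 ^ k < D := not_le.1 (hmin (by omega))
      have hkT : k ∈ T := mem_filter.2 ⟨mem_range.2 (by omega), by linarith⟩
      have hl : lev k v w = h * (wt P.ψ v * wt P.ψ w) / (xl * 2 ^ k) :=
        if_pos ⟨hne, by linarith, hne'⟩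
      have h1 := single_le_sum (f := fun k => lev k v w) (fun k _ => hl0 k) hkT
      simp only [hl] at h1
      have h2 : h * (wt P.ψ v * wt P.ψ w / D) ≤ h * (wt P.ψ v * wt P.ψ w) / (xl * 2 ^ k) := by
        rw [← mul_div_assoc]
        exact div_le_div_of_nonneg_left (mul_nonneg hh hF) (by positivity) hlo.le
      linarith
    · have ht : top v w = wt P.ψ v * wt P.ψ w * h ^ 1 := if_pos ⟨hne, by linarith⟩
      have h2 : h * (wt P.ψ v * wt P.ψ w / D) ≤ top v w / x0 := by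
        rw [ht, pow_one, mul_comm _ h, ← mul_div_assoc]
        exact div_le_div_of_nonneg_left (mul_nonneg hh hF) hx0 hhigh.le
      linarith
  -- the sums
  have hb := hband P hP2 S hS Λ hΛ
  have hm := hmom P.ψ S 1 0 1 (fun q hq => hP.pos q (hS hq)) hP.nonneg one_pos (by norm_num)
  rw [Real.one_rpow, mul_one] at hm
  have hl : ∀ k ∈ T, ∑ v ∈ S, ∑ w ∈ S, lev k v w ≤ Cl * μ2 * (xl ^ e * r ^ k) := by
    intro k hk
    have hk' := (mem_filter.1 hk).2
    have h1 := hlev P hP3 S hS Λ hΛ (xl * 2 ^ k)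
      (le_mul_of_one_le_right hxl0.le (one_le_pow₀ one_le_two))
      (hk'.trans (min_le_left _ _))
    simp only [hlevd, ← sum_filter]
    refine h1.trans (le_of_eq ?_)
    rw [Real.mul_rpow hxl0.le (by positivity), hr, ← Real.rpow_natCast 2 k,
      ← Real.rpow_mul zero_le_two, ← Real.rpow_natCast ((2 : ℝ) ^ e) k,
      ← Real.rpow_mul zero_le_two, mul_comm (k : ℝ)]
  have hgeo : ∑ k ∈ T, xl ^ e * r ^ k ≤ r / (r - 1) := by
    have := sum_geom_top (Real.rpow_pos_of_pos hxl0 e) hr1 zero_le_one T (fun k hk => ?_)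
    · linarith
    have hk' := (mem_filter.1 hk).2
    rw [hr, ← Real.rpow_natCast, ← Real.rpow_mul zero_le_two, mul_comm e, Real.rpow_mul zero_le_two,
      Real.rpow_natCast, ← Real.mul_rpow hxl0.le (by positivity)]
    exact Real.rpow_le_one (by positivity) (hk'.trans (min_le_right _ _)) (by norm_num [he])
  have hexp : Λ ^ 2 * Real.exp (-(Λ / 200)) ≤ 80000 := by
    have := Real.quadratic_le_exp_of_nonneg (show 0 ≤ Λ / 200 by linarith)
    rw [Real.exp_neg, ← div_eq_mul_inv, div_le_iff₀ (Real.exp_pos _)]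
    nlinarith
  calc ∑ v ∈ S, ∑ w ∈ S.filter (fun w => v ≠ w ∧ dist2 P.ψ v w < 1 / 2), P.gTerm v w
      ≤ ∑ v ∈ S, ∑ w ∈ S, max C0 0 * (max Cf 0 * Λ ^ 2 * band v w + top v w / x0 +
          ∑ k ∈ T, lev k v w) := by
        refine sum_le_sum fun v hv => ?_
        rw [sum_filter]
        refine sum_le_sum fun w hw' => ?_
        split_ifs with h
        · exact hpt v hv w hw' h
        · refine mul_nonneg (le_max_right _ _) (add_nonneg (add_nonneg (mul_nonneg (by positivity)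
            ?_) (div_nonneg ?_ hx0.le)) (sum_nonneg fun k _ => ?_))
          all_goals
            simp only [hbandd, htopd, hlevd]
            split_ifs
          exacts [div_nonneg (mul_nonneg (hw v) (hw w)) (le_max_of_le_left
              (mul_nonneg (hP.nonneg v) (Nat.cast_nonneg _))), le_rfl,
            mul_nonneg (mul_nonneg (hw v) (hw w))
              (pow_nonneg (le_trans zero_le_one (BilinearAux.one_le_hFac _ _)) _), le_rfl,
            div_nonneg (mul_nonneg (le_trans zero_le_one (BilinearAux.one_le_hFac _ _))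
              (mul_nonneg (hw v) (hw w))) (by positivity), le_rfl]
    _ = max C0 0 * (max Cf 0 * Λ ^ 2 * ∑ v ∈ S, ∑ w ∈ S, band v w +
          (∑ v ∈ S, ∑ w ∈ S, top v w) / x0 + ∑ k ∈ T, ∑ v ∈ S, ∑ w ∈ S, lev k v w) := by
        simp only [← mul_sum, sum_add_distrib, sum_div]
        rw [sum_comm (s := T)]
        exact congrArg₂ (fun a b => max C0 0 * (a + b)) rfl (sum_congr rfl fun v _ => sum_comm)
    _ ≤ max C0 0 * (max Cf 0 * Λ ^ 2 * (max Cb 0 * Real.exp (-(Λ / 200)) * μ2) +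
          max Cm 0 * μ2 / x0 + ∑ k ∈ T, Cl * μ2 * (xl ^ e * r ^ k)) := by
        refine mul_le_mul_of_nonneg_left (add_le_add (add_le_add
          (mul_le_mul_of_nonneg_left ?_ (by positivity))
          (div_le_div_of_nonneg_right ?_ hx0.le)) (sum_le_sum hl)) (le_max_right _ _)
        · simp only [hbandd, ← sum_filter, hxl]
          exact hb.trans (by gcongr; exact le_max_left _ _)
        · simp only [htopd, ← sum_filter]
          exact hm.trans (mul_le_mul_of_nonneg_right (le_max_left _ _) hμ)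
    _ ≤ max C0 0 * (max Cf 0 * max Cb 0 * 80000 * μ2 + max Cm 0 / x0 * μ2 +
          Cl * (r / (r - 1)) * μ2) := by
        refine mul_le_mul_of_nonneg_left (add_le_add (add_le_add ?_ (le_of_eq (by ring))) ?_)
          (le_max_right _ _)
        · have := mul_le_mul_of_nonneg_left hexp
            (show 0 ≤ max Cf 0 * max Cb 0 * μ2 by positivity)
          linarith
        · rw [← mul_sum]
          have := mul_le_mul_of_nonneg_left hgeo (mul_nonneg hCl hμ)
          linarith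
    _ = _ := by ring

theorem exists_sameWindow_T2_le :
    ∃ C lam0 : ℝ, ∀ P : Sys, P.Ok lam0 →
      ∑ q ∈ P.S, ∑ r ∈ P.S.filter (fun r => q ≠ r ∧ P.lam q = P.lam r ∧ dist2 P.ψ q r < 1 / 2),
          P.gTerm q r ≤
        C * (mass P.ψ P.S + mass P.ψ P.S ^ 2) := by
  obtain ⟨C, l, hC, hone⟩ := exists_oneWindow_le
  refine ⟨C, l, fun P hP => ?_⟩
  set Tw := P.S.image P.lam with hTw
  have hmaps : ∀ q ∈ P.S, P.lam q ∈ Tw := fun q hq => mem_image_of_mem _ hq
  set m : ℝ → ℝ := fun Λ => mass P.ψ (P.S.filter (fun q => P.lam q = Λ)) with hm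
  have hm0 : ∀ Λ, 0 ≤ m Λ := fun Λ => BilinearAux.mass_nonneg hP.nonneg _
  have hmsum : ∑ Λ ∈ Tw, m Λ = mass P.ψ P.S := sum_fiberwise_of_maps_to hmaps _
  calc ∑ q ∈ P.S, ∑ r ∈ P.S.filter (fun r => q ≠ r ∧ P.lam q = P.lam r ∧
          dist2 P.ψ q r < 1 / 2), P.gTerm q r
      = ∑ Λ ∈ Tw, ∑ q ∈ P.S.filter (fun q => P.lam q = Λ),
          ∑ r ∈ (P.S.filter (fun q => P.lam q = Λ)).filter
            (fun r => q ≠ r ∧ dist2 P.ψ q r < 1 / 2), P.gTerm q r := by
        rw [← sum_fiberwise_of_maps_to hmaps]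
        refine sum_congr rfl fun Λ _ => sum_congr rfl fun q hq => sum_congr ?_ fun _ _ => rfl
        rw [filter_filter]
        refine filter_congr fun r _ => ?_
        rw [(mem_filter.1 hq).2]
        tauto
    _ ≤ ∑ Λ ∈ Tw, C * (m Λ + m Λ ^ 2) := sum_le_sum fun Λ _ =>
        hone P hP _ (filter_subset _ _) Λ (fun q hq => (mem_filter.1 hq).2)
    _ ≤ C * (mass P.ψ P.S + mass P.ψ P.S ^ 2) := by
        rw [← mul_sum, sum_add_distrib, hmsum, ← hmsum]
        gcongr
        exact sum_sq_le_sq_sum_of_nonneg fun Λ _ => hm0 Λ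

end Vale.Agent.P028.T2
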