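import Vale.Agent.P028.T2.SameWindow
import Vale.Agent.P028.T2.CrossWindows
import Vale.Agent.P028.T2.Periodic
import Vale.Agent.P028.T2.Exc
import Vale.Agent.P028.T2.Large

/-!
The second moment of a system.
-/

noncomputable section

namespace Vale.Agent.P028.T2

open Finset

theorem exists_secondMoment_le :
    ∃ C lam0 : ℝ, ∀ P : Sys, P.Ok lam0 →
      ∑ q ∈ P.S, ∑ r ∈ P.S, P.ov q r ≤ C * (mass P.ψ P.S + mass P.ψ P.S ^ 2) := by
  obtain ⟨C1, l1, h1⟩ := exists_sameWindow_T2_le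
  obtain ⟨C2, l2, h2⟩ := exists_crossWindows_le
  obtain ⟨C3, l3, h3⟩ := exists_ov_far_le
  obtain ⟨C4, h4⟩ := exists_hFac_large_le
  obtain ⟨C5, l5, h5⟩ := exists_sum_excTerm_le
  set lam0 := max (max (max l1 l2) (max l3 l5)) 2 with hlam0
  refine ⟨2 + 2 * max C1 0 + 2 * max C2 0 + max C3 0 * max C4 0 + max C5 0, lam0, fun P hP => ?_⟩
  have hle : ∀ l, l ≤ lam0 → P.Ok l := fun l hl =>
    { hP with lam_ge := fun q hq => hl.trans (hP.lam_ge q hq) }
  have hP1 := hle l1 (le_trans (le_trans (le_max_left _ _) (le_max_left _ _)) (le_max_left _ _))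
  have hP2 := hle l2 (le_trans (le_trans (le_max_right _ _) (le_max_left _ _)) (le_max_left _ _))
  have hP3 := hle l3 (le_trans (le_trans (le_max_left _ _) (le_max_right _ _)) (le_max_left _ _))
  have hP5 := hle l5 (le_trans (le_trans (le_max_right _ _) (le_max_right _ _)) (le_max_left _ _))
  set μ := mass P.ψ P.S with hμ
  have hμ0 : 0 ≤ μ := BilinearAux.mass_nonneg hP.nonneg _
  have hMM : 0 ≤ μ + μ ^ 2 := by positivity
  have hw0 : ∀ q, 0 ≤ wt P.ψ q := fun q => BilinearAux.wt_nonneg hP.nonneg q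
  have hg0 : ∀ q r, 0 ≤ P.gTerm q r := by
    intro q r
    refine mul_nonneg (div_nonneg (mul_nonneg (hw0 q) (hw0 r)) ?_) (sum_nonneg fun n _ => ?_)
    · exact le_max_of_le_left (mul_nonneg (hP.nonneg q) (Nat.cast_nonneg _))
    · exact mul_nonneg (zero_le_one.trans (BilinearAux.one_le_hFac _ _))
        (prod_nonneg fun p hp => zero_le_one.trans (BilinearAux.one_le_ratio
          (Nat.prime_of_mem_primeFactors (mem_filter.1 hp).1)))
  have hh0 : ∀ q r, 0 ≤ wt P.ψ q * wt P.ψ r *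
      hFac (cutY (dist2 P.ψ q r)) (qd q r * qd r q) := fun q r =>
    mul_nonneg (mul_nonneg (hw0 q) (hw0 r)) (zero_le_one.trans (BilinearAux.one_le_hFac _ _))
  set A1 : ℕ → ℕ → Prop := fun q r => q ≠ r ∧ P.lam q = P.lam r ∧ dist2 P.ψ q r < 1 / 2 with hA1
  set A2 : ℕ → ℕ → Prop := fun q r => P.lam q ≠ P.lam r ∧
    dist2 P.ψ q r < Real.exp (Real.sqrt (max (P.lam q) (P.lam r)) / 100) with hA2
  set A3 : ℕ → ℕ → Prop := fun q r => q ≠ r ∧ 1 / 2 ≤ dist2 P.ψ q r with hA3
  have key : ∀ q ∈ P.S, ∀ r ∈ P.S, P.ov q r ≤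
      (if q = r then 2 * wt P.ψ q else 0) + 2 * (if A1 q r then P.gTerm q r else 0) +
        2 * (if A2 q r then P.gTerm q r else 0) +
        max C3 0 * (if A3 q r then wt P.ψ q * wt P.ψ r *
          hFac (cutY (dist2 P.ψ q r)) (qd q r * qd r q) else 0) + P.excTerm q r := by
    intro q hq r hr
    have he := excTerm_nonneg hP q r
    have n1 : 0 ≤ if A1 q r then P.gTerm q r else 0 := by split_ifs <;> simp [hg0]
    have n2 : 0 ≤ if A2 q r then P.gTerm q r else 0 := by split_ifs <;> simp [hg0]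
    have n3 : 0 ≤ max C3 0 * (if A3 q r then wt P.ψ q * wt P.ψ r *
        hFac (cutY (dist2 P.ψ q r)) (qd q r * qd r q) else 0) := by
      refine mul_nonneg (le_max_right _ _) ?_
      split_ifs <;> simp [hh0]
    by_cases hqr : q = r
    · subst hqr
      have := ov_self_le (le_max_right _ _) hP hq
      rw [if_pos rfl]
      linarith
    rw [if_neg hqr]
    by_cases hc1 : A1 q r
    · have := ov_le hP hq hr hqr
      rw [if_pos hc1]
      linarith
    by_cases hc2 : A2 q r
    · have := ov_le hP hq hr hqr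
      rw [if_pos hc2]
      linarith
    have hfar : P.lam q = P.lam r ∧ 1 / 2 ≤ dist2 P.ψ q r ∨
        Real.exp (Real.sqrt (max (P.lam q) (P.lam r)) / 100) ≤ dist2 P.ψ q r := by
      by_cases hl : P.lam q = P.lam r
      · exact .inl ⟨hl, not_lt.1 fun h => hc1 ⟨hqr, hl, h⟩⟩
      · exact .inr (not_lt.1 fun h => hc2 ⟨hl, h⟩)
    have hc3 : A3 q r := by
      refine ⟨hqr, ?_⟩
      rcases hfar with h | h
      · exact h.2
      · exact le_trans (le_trans (by norm_num) (Real.one_le_exp (by positivity))) h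
    have hb := h3 P hP3 q hq r hr hqr hfar
    have hb' := mul_le_mul_of_nonneg_right (le_max_left C3 0) (hh0 q r)
    rw [if_pos hc3]
    linarith
  refine (sum_le_sum fun q hq => sum_le_sum fun r hr => key q hq r hr).trans ?_
  simp only [sum_add_distrib, ← mul_sum, ← sum_filter]
  have e0 : ∑ q ∈ P.S, ∑ r ∈ P.S.filter (fun r => q = r), wt P.ψ q = μ := by
    rw [hμ, mass]
    exact sum_congr rfl fun q hq => by rw [filter_eq, if_pos hq, sum_singleton]
  have b1 := (h1 P hP1).trans (mul_le_mul_of_nonneg_right (le_max_left C1 0) hMM)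
  have b2 := (h2 P hP2).trans (mul_le_mul_of_nonneg_right (le_max_left C2 0) hMM)
  have b3 := mul_le_mul_of_nonneg_left ((h4 P.ψ P.S hP.pos hP.nonneg).trans
    (mul_le_mul_of_nonneg_right (le_max_left C4 0) hMM)) (le_max_right C3 0)
  have b5 := (h5 P hP5).trans (mul_le_mul_of_nonneg_right (le_max_left C5 0) hμ0)
  have b6 : max C5 0 * μ ≤ max C5 0 * (μ + μ ^ 2) :=
    mul_le_mul_of_nonneg_left (le_add_of_nonneg_right (sq_nonneg μ)) (le_max_right _ _)
  have hsq := sq_nonneg μ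
  simp only [hA1, hA2, hA3]
  rw [e0]
  linarith

end Vale.Agent.P028.T2
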