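import Vale.Agent.P028.T2.Defs
import Vale.Agent.P028.T2.MinorSums
import Vale.Agent.P028.Bilinear
import Vale.Agent.P028.CountingAux

/-!
Final states with the exponents of the second stage.

In a final state `q' = Q a d` and `r' = R b c` with `a = upDev v`, `c = upDev w`, `d = downDev w`,
`b = downDev v`.
-/

noncomputable section

namespace Vale.Agent.P028.T2

open Finset BilinearAux
open scoped Classical

theorem split_hexp2 : (1 : ℝ) < 2 * thetaT * (betaT / (1 - thetaT)) := by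
  norm_num [thetaT, betaT]

theorem one_lt_tT : 1 < tT := by norm_num [tT, sT, aOne, aTwo]

theorem sT_lt_one : sT < 1 := by norm_num [sT]

/-- The bilinear bound in a final state, with separate caps on the two cross products. -/
theorem finalLe2 {P S U V W : Finset ℕ} {i j k : ℕ → ℕ} (h : FinState P S U V W i j)
    (ψ : ℕ → ℝ) (hψ : ∀ q, 0 ≤ ψ q) (x1 x2 : ℝ) (hx1 : 0 < x1) (hx2 : 0 < x2)
    (K : ℕ → ℕ → ℝ) (hK : ∀ v w, 0 ≤ K v w) (hK1 : ∀ v w, K v w ≤ 1)
    (hsupp : ∀ v ∈ V, ∀ w ∈ W, K v w ≠ 0 →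
      NoCoDev U k v w ∧ ψ w * (qd v w : ℝ) ≤ x1 ∧ ψ v * (qd w v : ℝ) ≤ x2 ∧
        upDev U k w ≤ upDev U k v)
    (G1 G2 : ℝ) (hG1n : 0 ≤ G1) (hG2n : 0 ≤ G2)
    (hG1 : ∀ v ∈ V, ∑ w ∈ W.filter (fun w => K v w ≠ 0),
      (Nat.totient (centre U k) : ℝ) / centre U k / Nat.totient (downDev U k w) *
        (((upDev U k v : ℝ) / upDev U k w) ^ sT / upDev U k v) ≤ G1)
    (hG2 : ∀ w ∈ W, ∑ v ∈ V.filter (fun v => K v w ≠ 0),
      (Nat.totient (centre U k) : ℝ) / centre U k / Nat.totient (downDev U k v) *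
        (((upDev U k w : ℝ) / upDev U k v) ^ tT / upDev U k w) ≤ G2) :
    ∑ v ∈ V, ∑ w ∈ W, K v w * (wt ψ v * wt ψ w) ≤
      mass ψ S ^ (aOne - aTwo) * (mass ψ V * mass ψ W) ^ thetaT * (x1 ^ aOne * x2 ^ aTwo) *
        (G1 ^ aOne * G2 ^ aTwo) /
        ((fixedPart (P \ U) i j : ℝ) ^ aOne * (fixedPart (P \ U) j i : ℝ) ^ aTwo) := by
  set Q1 : ℝ := (fixedPart (P \ U) i j : ℝ) with hQ1d
  set Q2 : ℝ := (fixedPart (P \ U) j i : ℝ) with hQ2d
  have hQ1 : 0 < Q1 := by rw [hQ1d]; exact_mod_cast fixedPart_pos h.prime_sdiff i j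
  have hQ2 : 0 < Q2 := by rw [hQ2d]; exact_mod_cast fixedPart_pos h.prime_sdiff j i
  set F := fun q => wt ψ q with hF
  have hF0 : ∀ q, 0 ≤ F q := fun q => wt_nonneg hψ q
  set T := V ×ˢ W with hT
  set g1 : ℕ × ℕ → ℝ := fun q => if K q.1 q.2 = 0 then 0 else
    F q.1 * F q.2 * ((upDev U k q.1 : ℝ) / upDev U k q.2) ^ sT with hg1
  set g2 : ℕ × ℕ → ℝ := fun q => if K q.1 q.2 = 0 then 0 else
    F q.1 * F q.2 * ((upDev U k q.2 : ℝ) / upDev U k q.1) ^ tT with hg2
  have hg10 : ∀ q ∈ T, 0 ≤ g1 q := fun q _ => by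
    simp only [hg1]; split_ifs
    · exact le_rfl
    · exact mul_nonneg (mul_nonneg (hF0 _) (hF0 _)) (Real.rpow_nonneg (by positivity) _)
  have hg20 : ∀ q ∈ T, 0 ≤ g2 q := fun q _ => by
    simp only [hg2]; split_ifs
    · exact le_rfl
    · exact mul_nonneg (mul_nonneg (hF0 _) (hF0 _)) (Real.rpow_nonneg (by positivity) _)
  have hpoint : ∀ q ∈ T, K q.1 q.2 * (F q.1 * F q.2) ≤
      (F q.1 * F q.2) ^ (1 - aOne - aTwo) * g1 q ^ aOne * g2 q ^ aTwo := by
    intro q hq
    have hFF : 0 ≤ F q.1 * F q.2 := mul_nonneg (hF0 _) (hF0 _)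
    by_cases h0 : K q.1 q.2 = 0
    · rw [h0, zero_mul]
      exact mul_nonneg (mul_nonneg (Real.rpow_nonneg hFF _) (Real.rpow_nonneg (hg10 q hq) _))
        (Real.rpow_nonneg (hg20 q hq) _)
    simp only [hg1, hg2, if_neg h0]
    set a : ℝ := (upDev U k q.1 : ℝ) with hau
    set c : ℝ := (upDev U k q.2 : ℝ) with hcu
    have ha : 0 < a := by rw [hau]; exact_mod_cast upDev_pos h.prime_U k q.1
    have hc : 0 < c := by rw [hcu]; exact_mod_cast upDev_pos h.prime_U k q.2
    refine le_trans (mul_le_of_le_one_left hFF (hK1 _ _)) (le_of_eq ?_)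
    rw [Real.mul_rpow hFF (Real.rpow_nonneg (by positivity) _),
      Real.mul_rpow hFF (Real.rpow_nonneg (by positivity) _), ← Real.rpow_mul (by positivity),
      ← Real.rpow_mul (by positivity)]
    have e1 : sT * aOne = tT * aTwo := by norm_num [sT, tT, aOne, aTwo]
    have e2 : (a / c) ^ (sT * aOne) * (c / a) ^ (tT * aTwo) = 1 := by
      rw [← e1, ← Real.mul_rpow (by positivity) (by positivity), div_mul_div_cancel₀ hc.ne',
        div_self ha.ne', Real.one_rpow]
    have e3 : (F q.1 * F q.2) ^ (1 - aOne - aTwo) * (F q.1 * F q.2) ^ aOne *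
        (F q.1 * F q.2) ^ aTwo = F q.1 * F q.2 := by
      rcases hFF.eq_or_lt with e | e
      · rw [← e, Real.zero_rpow (by norm_num [aOne, aTwo])]; simp
      · rw [← Real.rpow_add e, ← Real.rpow_add e,
          show 1 - aOne - aTwo + aOne + aTwo = 1 by ring, Real.rpow_one]
    calc F q.1 * F q.2
        = ((F q.1 * F q.2) ^ (1 - aOne - aTwo) * (F q.1 * F q.2) ^ aOne *
            (F q.1 * F q.2) ^ aTwo) * ((a / c) ^ (sT * aOne) * (c / a) ^ (tT * aTwo)) := by
          rw [e2, e3, mul_one]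
      _ = _ := by ring
  have hbound : ∀ {V W : Finset ℕ} {i j : ℕ → ℕ}, FinState P S U V W i j → ∀ {v w : ℕ},
      v ∈ V → w ∈ W → NoCoDev U k v w → ∀ x : ℝ, ψ w * (qd v w : ℝ) ≤ x →
      F w ≤ x / (fixedPart (P \ U) i j : ℝ) *
        ((Nat.totient (centre U k) : ℝ) / centre U k / Nat.totient (downDev U k w) /
          upDev U k v) := by
    intro V W i j h v w hv hw hk x hd
    have hU := h.prime_U
    have hw0 := h.pos_of_mem w (h.W_sub hw)
    have hcp : 0 < centre U k := prodPow_pos hU k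
    have hdp := downDev_pos hU k w
    have hsub : (centre U k).primeFactors ⊆ w.primeFactors ∪ (downDev U k w).primeFactors := by
      intro p hp
      rw [← Nat.support_factorization, Finsupp.mem_support_iff, centre,
        factorization_prodPow hU] at hp
      obtain ⟨hpU, hkp⟩ := ite_ne_right_iff.1 hp
      rw [Finset.mem_union, ← Nat.support_factorization, ← Nat.support_factorization,
        Finsupp.mem_support_iff, Finsupp.mem_support_iff, downDev, factorization_prodPow hU,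
        if_pos hpU]
      omega
    have h1 := totient_div_le hcp hw0 hdp hsub
    have h2 : ψ w * ((fixedPart (P \ U) i j : ℝ) * ((upDev U k v : ℝ) * downDev U k w)) ≤ x := by
      refine le_trans (le_of_eq ?_) hd
      rw [(qd_eq_of_finState h hv hw hk).1]
      push_cast
      ring
    have hQ : (0 : ℝ) < fixedPart (P \ U) i j := by
      exact_mod_cast fixedPart_pos h.prime_sdiff i j
    have hau : (0 : ℝ) < upDev U k v := by exact_mod_cast upDev_pos hU k v
    have hdd : (0 : ℝ) < downDev U k w := by exact_mod_cast hdp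
    have hφd : (0 : ℝ) < Nat.totient (downDev U k w) := by exact_mod_cast Nat.totient_pos.2 hdp
    rw [← le_div_iff₀ (by positivity)] at h2
    refine le_trans (mul_le_mul h1 h2 (hψ w) (by positivity)) (le_of_eq ?_)
    field_simp
  have h1sum : ∑ q ∈ T, g1 q ≤ mass ψ V * (x1 / Q1 * G1) := by
    rw [hT, Finset.sum_product, mass, Finset.sum_mul]
    refine Finset.sum_le_sum fun v hv => ?_
    refine le_trans ?_ (mul_le_mul_of_nonneg_left
      (mul_le_mul_of_nonneg_left (hG1 v hv) (by positivity)) (hF0 v))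
    rw [Finset.mul_sum, Finset.mul_sum, Finset.sum_filter]
    refine Finset.sum_le_sum fun w hw => ?_
    simp only [hg1]
    by_cases h0 : K v w = 0
    · simp [h0]
    rw [if_neg h0, if_pos h0]
    obtain ⟨hk, hd, _, _⟩ := hsupp v hv w hw h0
    refine le_trans (mul_le_mul_of_nonneg_right
      (mul_le_mul_of_nonneg_left (hbound h hv hw hk x1 hd) (hF0 v))
      (Real.rpow_nonneg (by positivity) _)) (le_of_eq ?_)
    simp only [hF]
    ring
  have h2sum : ∑ q ∈ T, g2 q ≤ mass ψ W * (x2 / Q2 * G2) := by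
    rw [hT, Finset.sum_product_right, mass, Finset.sum_mul]
    refine Finset.sum_le_sum fun w hw => ?_
    refine le_trans ?_ (mul_le_mul_of_nonneg_left
      (mul_le_mul_of_nonneg_left (hG2 w hw) (by positivity)) (hF0 w))
    rw [Finset.mul_sum, Finset.mul_sum, Finset.sum_filter]
    refine Finset.sum_le_sum fun v hv => ?_
    simp only [hg2]
    by_cases h0 : K v w = 0
    · simp [h0]
    rw [if_neg h0, if_pos h0]
    obtain ⟨hk, _, hd, _⟩ := hsupp v hv w hw h0
    have hb := hbound h.symm hw hv (fun p hp => (hk p hp).symm) x2 hd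
    refine le_trans (mul_le_mul_of_nonneg_right
      (mul_le_mul_of_nonneg_right hb (hF0 w))
      (Real.rpow_nonneg (by positivity) _)) (le_of_eq ?_)
    simp only [hF]
    ring
  have hsum0 : ∑ q ∈ T, F q.1 * F q.2 = mass ψ V * mass ψ W := by
    rw [hT, Finset.sum_product, mass, mass, Finset.sum_mul_sum]
  have hmV := mass_nonneg hψ V
  have hmW := mass_nonneg hψ W
  have ha0 : 0 < 1 - aOne - aTwo := by norm_num [aOne, aTwo]
  have ha1 : 0 < aOne := by norm_num [aOne]
  have ha2 : 0 < aTwo := by norm_num [aTwo]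
  calc ∑ v ∈ V, ∑ w ∈ W, K v w * (wt ψ v * wt ψ w)
      = ∑ q ∈ T, K q.1 q.2 * (F q.1 * F q.2) := by rw [hT, Finset.sum_product]
    _ ≤ _ := Finset.sum_le_sum hpoint
    _ ≤ _ := sum_rpow3_le T _ _ _ ha0 ha1 ha2 (by ring)
        (fun q _ => mul_nonneg (hF0 _) (hF0 _)) hg10 hg20
    _ ≤ (mass ψ V * mass ψ W) ^ (1 - aOne - aTwo) * (mass ψ V * (x1 / Q1 * G1)) ^ aOne *
          (mass ψ W * (x2 / Q2 * G2)) ^ aTwo := by
        rw [hsum0]
        have n1 := Finset.sum_nonneg hg10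
        have n2 := Finset.sum_nonneg hg20
        gcongr
    _ = mass ψ V ^ (aOne - aTwo) * (mass ψ V * mass ψ W) ^ thetaT * (x1 ^ aOne * x2 ^ aTwo) *
          (G1 ^ aOne * G2 ^ aTwo) / (Q1 ^ aOne * Q2 ^ aTwo) := by
        rw [Real.mul_rpow (x := mass ψ V) (y := x1 / Q1 * G1) hmV (by positivity),
          Real.mul_rpow (x := mass ψ W) (y := x2 / Q2 * G2) hmW (by positivity),
          Real.mul_rpow (x := x1 / Q1) (y := G1) (by positivity) hG1n,
          Real.mul_rpow (x := x2 / Q2) (y := G2) (by positivity) hG2n,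
          Real.div_rpow hx1.le hQ1.le, Real.div_rpow hx2.le hQ2.le]
        have e : (mass ψ V * mass ψ W) ^ (1 - aOne - aTwo) * mass ψ V ^ aOne *
            mass ψ W ^ aTwo = mass ψ V ^ (aOne - aTwo) * (mass ψ V * mass ψ W) ^ thetaT := by
          rw [Real.mul_rpow hmV hmW, Real.mul_rpow hmV hmW]
          have eV : mass ψ V ^ (1 - aOne - aTwo) * mass ψ V ^ aOne =
              mass ψ V ^ (aOne - aTwo) * mass ψ V ^ thetaT := by
            rw [← Real.rpow_add' hmV (by norm_num [aOne, aTwo]),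
              ← Real.rpow_add' hmV (by norm_num [aOne, aTwo, thetaT])]
            norm_num [aOne, aTwo, thetaT]
          have eW : mass ψ W ^ (1 - aOne - aTwo) * mass ψ W ^ aTwo =
              mass ψ W ^ thetaT := by
            rw [← Real.rpow_add' hmW (by norm_num [aOne, aTwo])]
            norm_num [aOne, aTwo, thetaT]
          linear_combination (mass ψ W ^ (1 - aOne - aTwo) * mass ψ W ^ aTwo) * eV +
            (mass ψ V ^ (aOne - aTwo) * mass ψ V ^ thetaT) * eW
        rw [← e]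
        ring
    _ ≤ _ := by
        refine div_le_div_of_nonneg_right ?_ (by positivity)
        gcongr
        · norm_num [aOne, aTwo]
        · exact BilinearAux.mass_mono hψ h.V_sub

/-- The ratio sums. -/
theorem exists_ratio_sums_T2 :
    ∃ C : ℝ, ∀ a : ℕ, 0 < a → ∀ T : Finset ℕ,
      ((∀ c ∈ T, 1 ≤ c ∧ c ≤ a) → ∑ c ∈ T, ((a : ℝ) / c) ^ sT / a ≤ C) ∧
      ((∀ c ∈ T, a ≤ c) → ∑ c ∈ T, ((a : ℝ) / c) ^ tT / a ≤ C) := by
  refine ⟨max (1 / (1 - sT)) (1 + 1 / (tT - 1)), fun a ha T => ?_⟩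
  have ha' : (0 : ℝ) < a := Nat.cast_pos.2 ha
  constructor
  · intro hT
    rw [← Finset.sum_div, div_le_iff₀ ha']
    refine le_trans (BilinearAux.sum_small_le (v := sT) (by norm_num [sT]) sT_lt_one ha' T
      fun c hc => ⟨(hT c hc).1, by exact_mod_cast (hT c hc).2⟩) ?_
    rw [← one_div_mul_eq_div]
    exact mul_le_mul_of_nonneg_right (le_max_left _ _) ha'.le
  · intro hT
    rw [← Finset.sum_div, div_le_iff₀ ha']
    refine le_trans (BilinearAux.sum_tail_le (t := tT) one_lt_tT ha' T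
      fun c hc => ⟨le_trans ha (hT c hc), by exact_mod_cast hT c hc⟩) ?_
    exact mul_le_mul_of_nonneg_right (le_max_right _ _) ha'.le

/-- A dyadic block without a resonance is sparse. -/
theorem exists_minor_block_T2_le :
    ∃ C : ℝ, ∀ (x α β : ℝ) (j : ℕ) (T : Finset ℕ), 0 < x → x ≤ (2 : ℝ) ^ (-(20 : ℝ)) →
      x ^ (-sigC) ≤ 2 * (2 : ℝ) ^ j → (∀ c ∈ T, 1 ≤ c ∧ Nat.log 2 c = j) →
      (∀ c ∈ T, ¬ Maj2 x α c) → (∀ c ∈ T, ∃ n : ℤ, |(n : ℝ) + α * c - β| ≤ 4 * x) →
      (T.card : ℝ) ≤ C * x ^ sigC * 2 ^ j :=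
  exists_minor_block_T2_le_aux

/-- A large variable `c ≤ a` off the major arcs gains. -/
theorem exists_minor_up_s_le :
    ∃ C : ℝ, ∀ (x α β : ℝ) (a : ℕ) (T : Finset ℕ), 0 < x → x ≤ (2 : ℝ) ^ (-(20 : ℝ)) → 0 < a →
      (∀ c ∈ T, c ≤ a ∧ x ^ (-sigC) ≤ (c : ℝ) ∧ ¬ Maj2 x α c ∧
        ∃ n : ℤ, |(n : ℝ) + α * c - β| ≤ 4 * x) →
      ∑ c ∈ T, ((a : ℝ) / c) ^ sT / a ≤ C * x ^ sigC :=
  exists_minor_up_s_le_aux

/-- A large variable `a ≥ c` off the major arcs gains. -/
theorem exists_minor_up_t_le :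
    ∃ C : ℝ, ∀ (x α β : ℝ) (c : ℕ) (T : Finset ℕ), 0 < x → x ≤ (2 : ℝ) ^ (-(20 : ℝ)) → 0 < c →
      (∀ a ∈ T, c ≤ a ∧ x ^ (-sigC) ≤ (a : ℝ) ∧ ¬ Maj2 x α a ∧
        ∃ n : ℤ, |(n : ℝ) + α * a - β| ≤ 4 * x) →
      ∑ a ∈ T, ((c : ℝ) / a) ^ tT / c ≤ C * x ^ sigC :=
  exists_minor_up_t_le_aux

/-- A large downward deviation off the major arcs gains, up to the square of its logarithm. -/
theorem exists_minor_down_le :
    ∃ C : ℝ, ∀ (x α β L : ℝ) (N : ℕ) (T : Finset ℕ), 0 < x → x ≤ (2 : ℝ) ^ (-(20 : ℝ)) → 0 < N →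
      1 ≤ L → T ⊆ N.divisors →
      (∀ d ∈ T, x ^ (-sigC) ≤ (d : ℝ) ∧ Real.log d ≤ L ∧ ¬ Maj2 x α d ∧
        ∃ n : ℤ, |(n : ℝ) + α * d - β| ≤ 4 * x) →
      ∑ d ∈ T, (Nat.totient N : ℝ) / N / Nat.totient d ≤ C * x ^ sigC * L ^ 2 :=
  exists_minor_down_le_aux

/-- The splitting for a symmetric relation. -/
theorem exists_symm_split_le :
    ∃ C : ℝ, ∀ (ψ : ℕ → ℝ) (S : Finset ℕ) (R : ℕ → ℕ → Prop) (G : ℝ),
      (∀ q ∈ S, 0 < q) → (∀ q, 0 ≤ ψ q) → (∀ v w, R v w → R w v) → 0 ≤ G →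
      (∀ (P U V W : Finset ℕ) (i j k : ℕ → ℕ) (K : ℕ → ℕ → ℝ), FinState P S U V W i j →
        (∀ v w, 0 ≤ K v w) → (∀ v w, K v w ≤ 1) →
        (∀ v w, K v w ≠ 0 → R v w ∧ NoCoDev U k v w ∧ upDev U k w ≤ upDev U k v) →
        ∑ v ∈ V, ∑ w ∈ W, K v w * (wt ψ v * wt ψ w) ≤
          G * (mass ψ S ^ (aOne - aTwo) * (mass ψ V * mass ψ W) ^ thetaT) /
            ((fixedPart (P \ U) i j : ℝ) * (fixedPart (P \ U) j i : ℝ)) ^ betaT) →
      ∑ v ∈ S, ∑ w ∈ S.filter (fun w => R v w), wt ψ v * wt ψ w ≤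
        C * G * (mass ψ S + mass ψ S ^ 2) := by
  obtain ⟨Cr, hCr⟩ := exists_split_bound thetaT betaT (by norm_num [thetaT]) (by norm_num [thetaT])
    (by norm_num [betaT]) split_hexp2
  refine ⟨max Cr 0 * 2, fun ψ S R G hS hψ hsymm hG hfin => ?_⟩
  set P := S.biUnion Nat.primeFactors with hP
  set F := fun q => wt ψ q with hF
  have hF0 : ∀ q, 0 ≤ F q := fun q => BilinearAux.wt_nonneg hψ q
  set K : ℕ → ℕ → ℝ := fun v w => if R v w then 1 else 0 with hK
  have hK0 : ∀ v w, 0 ≤ K v w := fun v w => by simp only [hK]; split_ifs <;> norm_num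
  have hm := BilinearAux.mass_nonneg hψ S
  set G' := 2 * G * mass ψ S ^ (aOne - aTwo) with hG'
  have hG'0 : 0 ≤ G' := by positivity
  have hfinal : FinalBound thetaT betaT G' P S F K := by
    intro U V W i j k hU hV hW hi hj K' hK'0 hK'le hK'supp
    have h : FinState P S U V W i j :=
      ⟨fun p hp => by
          obtain ⟨q, _, hq⟩ := Finset.mem_biUnion.1 hp
          exact Nat.prime_of_mem_primeFactors hq,
        hS, fun q hq => Finset.subset_biUnion_of_mem Nat.primeFactors hq, hU, hV, hW, hi, hj⟩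
    have hle1 : ∀ v w, K' v w ≤ 1 := fun v w => (hK'le v w).trans (by
      simp only [hK]; split_ifs <;> norm_num)
    have hR : ∀ v w, K' v w ≠ 0 → R v w := fun v w hne => by
      by_contra hc
      exact hne (le_antisymm (le_of_le_of_eq (hK'le v w) (if_neg hc)) (hK'0 v w))
    have h1 := hfin P U V W i j k
      (fun v w => if upDev U k w ≤ upDev U k v then K' v w else 0) h
      (fun v w => by split_ifs; exacts [hK'0 v w, le_rfl])
      (fun v w => by split_ifs; exacts [hle1 v w, zero_le_one])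
      (fun v w hne => by
        obtain ⟨hle, hne'⟩ := ite_ne_right_iff.1 hne
        exact ⟨hR v w hne', hK'supp v w hne', hle⟩)
    have h2 := hfin P U W V j i k
      (fun w v => if upDev U k v ≤ upDev U k w then K' v w else 0) h.symm
      (fun w v => by split_ifs; exacts [hK'0 v w, le_rfl])
      (fun w v => by split_ifs; exacts [hle1 v w, zero_le_one])
      (fun w v hne => by
        obtain ⟨hle, hne'⟩ := ite_ne_right_iff.1 hne
        exact ⟨hsymm v w (hR v w hne'), fun p hp => (hK'supp v w hne' p hp).symm, hle⟩)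
    rw [Finset.sum_comm, mul_comm (mass ψ W) (mass ψ V),
      mul_comm (fixedPart (P \ U) j i : ℝ)] at h2
    calc ∑ v ∈ V, ∑ w ∈ W, K' v w * (F v * F w)
        ≤ ∑ v ∈ V, ∑ w ∈ W, ((if upDev U k w ≤ upDev U k v then K' v w else 0) *
              (wt ψ v * wt ψ w) + (if upDev U k v ≤ upDev U k w then K' v w else 0) *
              (wt ψ w * wt ψ v)) := by
          refine Finset.sum_le_sum fun v _ => Finset.sum_le_sum fun w _ => ?_
          have hp := mul_nonneg (hK'0 v w) (mul_nonneg (hF0 v) (hF0 w))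
          simp only [hF] at hp ⊢
          rw [mul_comm (wt ψ w) (wt ψ v)]
          rcases le_total (upDev U k w) (upDev U k v) with hh | hh
          · rw [if_pos hh]
            refine le_add_of_nonneg_right ?_
            split_ifs
            exacts [hp, le_of_eq (zero_mul _).symm]
          · rw [if_pos hh]
            refine le_add_of_nonneg_left ?_
            split_ifs
            exacts [hp, le_of_eq (zero_mul _).symm]
      _ = _ := by simp only [Finset.sum_add_distrib]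
      _ ≤ _ := add_le_add h1 h2
      _ = _ := by
          simp only [hF, hG', mass, Nat.cast_mul]
          ring
  have hres := hCr P S F K G' (fun p hp => by
      obtain ⟨q, _, hq⟩ := Finset.mem_biUnion.1 hp
      exact Nat.prime_of_mem_primeFactors hq)
    (fun q hq => Finset.subset_biUnion_of_mem Nat.primeFactors hq) hF0 hK0 hG'0 hfinal
  have hexp : mass ψ S ^ (aOne - aTwo) * (mass ψ S * mass ψ S) ^ thetaT ≤
      mass ψ S + mass ψ S ^ 2 := by
    rw [Real.mul_rpow hm hm, ← Real.rpow_add' hm (by norm_num [thetaT]),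
      ← Real.rpow_add' hm (by norm_num [thetaT, aOne, aTwo])]
    rcases le_or_gt 1 (mass ψ S) with h1 | h1
    · refine le_trans ?_ (le_add_of_nonneg_left hm)
      rw [← Real.rpow_two]
      exact Real.rpow_le_rpow_of_exponent_le h1 (by norm_num [thetaT, aOne, aTwo])
    · refine le_trans ?_ (le_add_of_nonneg_right (sq_nonneg _))
      rcases hm.eq_or_lt with e | e
      · rw [← e, Real.zero_rpow (by norm_num [thetaT, aOne, aTwo])]
      · conv_rhs => rw [← Real.rpow_one (mass ψ S)]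
        exact Real.rpow_le_rpow_of_exponent_ge e h1.le (by norm_num [thetaT, aOne, aTwo])
  calc ∑ v ∈ S, ∑ w ∈ S.filter (fun w => R v w), wt ψ v * wt ψ w
      = ∑ v ∈ S, ∑ w ∈ S, K v w * (F v * F w) := by
        simp only [hK, hF, ite_mul, one_mul, zero_mul, Finset.sum_filter]
    _ ≤ Cr * G' * (mass ψ S * mass ψ S) ^ thetaT := hres
    _ ≤ max Cr 0 * G' * (mass ψ S * mass ψ S) ^ thetaT := by
        gcongr; exact le_max_left _ _
    _ = max Cr 0 * 2 * G * (mass ψ S ^ (aOne - aTwo) * (mass ψ S * mass ψ S) ^ thetaT) := by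
        rw [hG']; ring
    _ ≤ _ := mul_le_mul_of_nonneg_left hexp (by positivity)

end Vale.Agent.P028.T2
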