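import Vale.Agent.P028.T2.State
import Vale.Agent.P028.GainClasses

/-!
The classes of pairs in a final state with the exponents of the second stage.

With `q' = Q a d` and `r' = R c b` a pair gains if `Q R` is large, if one radius has slack, or if
one of `a`, `c`, `d`, `b` is large and off the major arcs of its shift.
-/

noncomputable section

namespace Vale.Agent.P028.T2

open Finset
open scoped Classical

/-- The constant of the centre sum and of the ratio sums. -/
def cBase : ℝ := max 1 (max exists_centre_sum_le.choose exists_ratio_sums_T2.choose)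

/-- The constant of the minor sums. -/
def cMinor : ℝ :=
  max 1 (max exists_minor_up_s_le.choose
    (max exists_minor_up_t_le.choose exists_minor_down_le.choose))

/-- The constant of a class. -/
def cClass : ℝ := 2 * (cBase * cBase * cMinor)

theorem one_le_cBase : 1 ≤ cBase := le_max_left _ _

theorem one_le_cMinor : 1 ≤ cMinor := le_max_left _ _

theorem one_le_cClass : 1 ≤ cClass := by
  have := mul_le_mul (one_le_mul_of_one_le_of_one_le one_le_cBase one_le_cBase) one_le_cMinor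
    zero_le_one (by nlinarith [one_le_cBase])
  rw [cClass]; linarith

theorem centre_sum_T2_le {N : ℕ} (hN : 0 < N) :
    ∑ d ∈ N.divisors, (Nat.totient N : ℝ) / N / Nat.totient d ≤ cBase := by
  refine le_trans (le_of_eq ?_) ((exists_centre_sum_le.choose_spec N hN).trans
    ((le_max_left _ _).trans (le_max_right _ _)))
  rw [mul_sum]
  exact sum_congr rfl fun d _ => by rw [mul_one_div]

theorem ratio_s_le {a : ℕ} (ha : 0 < a) (T : Finset ℕ) (hT : ∀ c ∈ T, 1 ≤ c ∧ c ≤ a) :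
    ∑ c ∈ T, ((a : ℝ) / c) ^ sT / a ≤ cBase :=
  ((exists_ratio_sums_T2.choose_spec a ha T).1 hT).trans
    ((le_max_right _ _).trans (le_max_right _ _))

theorem ratio_t_le {a : ℕ} (ha : 0 < a) (T : Finset ℕ) (hT : ∀ c ∈ T, a ≤ c) :
    ∑ c ∈ T, ((a : ℝ) / c) ^ tT / a ≤ cBase :=
  ((exists_ratio_sums_T2.choose_spec a ha T).2 hT).trans
    ((le_max_right _ _).trans (le_max_right _ _))

/-- A pair of a final state with `c ≤ a`, distance at most `2x` and a near coincidence. -/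
def BaseT (γ : ℝ) (ψ : ℕ → ℝ) (x : ℝ) (U : Finset ℕ) (k : ℕ → ℕ) (v w : ℕ) : Prop :=
  NoCoDev U k v w ∧ upDev U k w ≤ upDev U k v ∧ dist2 ψ v w ≤ 2 * x ∧
    ∃ n : ℤ, |(n : ℝ) + γ * mdiff v w| ≤ 4 * x

theorem BaseT.caps {γ : ℝ} {ψ : ℕ → ℝ} {x : ℝ} {U : Finset ℕ} {k : ℕ → ℕ} {v w : ℕ}
    (h : BaseT γ ψ x U k v w) :
    ψ w * (qd v w : ℝ) ≤ 2 * x ∧ ψ v * (qd w v : ℝ) ≤ 2 * x :=
  ⟨(le_max_right _ _).trans h.2.2.1, (le_max_left _ _).trans h.2.2.1⟩

/-- The bound aimed at in a final state. -/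
def stateT (ψ : ℕ → ℝ) (S V W : Finset ℕ) (Q R : ℕ) : ℝ :=
  mass ψ S ^ (aOne - aTwo) * (mass ψ V * mass ψ W) ^ thetaT / ((Q : ℝ) * R) ^ betaT

theorem stateT_nonneg {ψ : ℕ → ℝ} (hψ : ∀ q, 0 ≤ ψ q) (S V W : Finset ℕ) (Q R : ℕ) :
    0 ≤ stateT ψ S V W Q R := by
  have := mass_nonneg hψ S
  have := mass_nonneg hψ V
  have := mass_nonneg hψ W
  unfold stateT
  positivity

section State

variable {γ x : ℝ} {ψ : ℕ → ℝ} {P S U V W : Finset ℕ} {i j k : ℕ → ℕ}

theorem pair_pos (h : FinState P S U V W i j) {v w : ℕ} (hv : v ∈ V) (hw : w ∈ W) :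
    0 < qd v w ∧ 0 < qd w v :=
  ⟨BilinearAux.qd_pos (h.pos_of_mem v (h.V_sub hv)),
    BilinearAux.qd_pos (h.pos_of_mem w (h.W_sub hw))⟩

/-- A class with caps `x1`, `x2` and one-sided sums `G1`, `G2`. -/
theorem class_bound (h : FinState P S U V W i j) (hψ : ∀ q, 0 ≤ ψ q) (Rel : ℕ → ℕ → Prop)
    {x1 x2 : ℝ} (hx1 : 0 < x1) (hx2 : 0 < x2)
    (hRel : ∀ v ∈ V, ∀ w ∈ W, Rel v w →
      NoCoDev U k v w ∧ ψ w * (qd v w : ℝ) ≤ x1 ∧ ψ v * (qd w v : ℝ) ≤ x2 ∧
        upDev U k w ≤ upDev U k v)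
    {G1 G2 E : ℝ} (hG1n : 0 ≤ G1) (hG2n : 0 ≤ G2)
    (hG1 : ∀ v ∈ V, ∑ w ∈ W.filter (fun w => Rel v w),
      (Nat.totient (centre U k) : ℝ) / centre U k / Nat.totient (downDev U k w) *
        (((upDev U k v : ℝ) / upDev U k w) ^ sT / upDev U k v) ≤ G1)
    (hG2 : ∀ w ∈ W, ∑ v ∈ V.filter (fun v => Rel v w),
      (Nat.totient (centre U k) : ℝ) / centre U k / Nat.totient (downDev U k v) *
        (((upDev U k w : ℝ) / upDev U k v) ^ tT / upDev U k w) ≤ G2)
    (hE : x1 ^ aOne * x2 ^ aTwo * (G1 ^ aOne * G2 ^ aTwo) ≤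
      E * ((fixedPart (P \ U) i j : ℝ) ^ (aOne - betaT) *
        (fixedPart (P \ U) j i : ℝ) ^ (aTwo - betaT))) :
    pairSum ψ V W Rel ≤
      E * stateT ψ S V W (fixedPart (P \ U) i j) (fixedPart (P \ U) j i) := by
  set Q : ℝ := (fixedPart (P \ U) i j : ℝ) with hQdef
  set R : ℝ := (fixedPart (P \ U) j i : ℝ) with hRdef
  have hQ : 0 < Q := by rw [hQdef]; exact_mod_cast q1_pos h
  have hR : 0 < R := by rw [hRdef]; exact_mod_cast r1_pos h
  have hfl := finalLe2 (k := k) h ψ hψ x1 x2 hx1 hx2 (fun v w => if Rel v w then 1 else 0)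
    (fun v w => by split_ifs <;> norm_num) (fun v w => by split_ifs <;> norm_num)
    (fun v hv w hw hne => hRel v hv w hw (by
      by_contra hc
      exact hne (if_neg hc))) G1 G2 hG1n hG2n
    (fun v hv => le_trans (le_of_eq (sum_congr (filter_congr fun w _ => by simp) fun _ _ => rfl))
      (hG1 v hv))
    (fun w hw => le_trans (le_of_eq (sum_congr (filter_congr fun v _ => by simp) fun _ _ => rfl))
      (hG2 w hw))
  have hlhs : pairSum ψ V W Rel =
      ∑ v ∈ V, ∑ w ∈ W, (if Rel v w then (1 : ℝ) else 0) * (wt ψ v * wt ψ w) := by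
    simp [pairSum, ite_mul]
  rw [hlhs]
  refine hfl.trans ?_
  rw [← hQdef, ← hRdef]
  have hm := mass_nonneg hψ S
  have hmV := mass_nonneg hψ V
  have hmW := mass_nonneg hψ W
  set M : ℝ := mass ψ S ^ (aOne - aTwo) * (mass ψ V * mass ψ W) ^ thetaT with hMdef
  have hM : 0 ≤ M := by rw [hMdef]; positivity
  have hsplit : Q ^ aOne * R ^ aTwo =
      (Q * R) ^ betaT * (Q ^ (aOne - betaT) * R ^ (aTwo - betaT)) := by
    rw [Real.mul_rpow hQ.le hR.le, Real.rpow_sub hQ, Real.rpow_sub hR]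
    field_simp
  calc M * (x1 ^ aOne * x2 ^ aTwo) * (G1 ^ aOne * G2 ^ aTwo) / (Q ^ aOne * R ^ aTwo)
      ≤ M * (E * (Q ^ (aOne - betaT) * R ^ (aTwo - betaT))) / (Q ^ aOne * R ^ aTwo) := by
        rw [mul_assoc M]
        gcongr
    _ = E * stateT ψ S V W (fixedPart (P \ U) i j) (fixedPart (P \ U) j i) := by
        rw [hsplit, stateT, ← hMdef, ← hQdef, ← hRdef]
        field_simp

/-- One-sided sum over `W`, grouped by `d`. -/
theorem G1_by_down (h : FinState P S U V W i j) (Rel : ℕ → ℕ → Prop)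
    (hRel : ∀ v ∈ V, ∀ w ∈ W, Rel v w → NoCoDev U k v w) {v : ℕ} (hv : v ∈ V) (M : ℝ)
    (hM0 : 0 ≤ M)
    (hM : ∀ d : ℕ, ∑ c ∈ ((W.filter (fun w => Rel v w)).filter
        (fun w => downDev U k w = d)).image (upDev U k),
        ((upDev U k v : ℝ) / c) ^ sT / upDev U k v ≤ M) :
    ∑ w ∈ W.filter (fun w => Rel v w),
      (Nat.totient (centre U k) : ℝ) / centre U k / Nat.totient (downDev U k w) *
        (((upDev U k v : ℝ) / upDev U k w) ^ sT / upDev U k v) ≤ cBase * M := by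
  refine le_trans ?_ (mul_le_mul_of_nonneg_right (centre_sum_T2_le (centre_pos (k := k) h)) hM0)
  refine sum_pairs_le (up := upDev U k) (down := downDev U k)
    (u := fun d => (Nat.totient (centre U k) : ℝ) / centre U k / Nat.totient d)
    (f := fun c => ((upDev U k v : ℝ) / c) ^ sT / upDev U k v)
    ((dev_injOn h).2.mono (coe_subset.2 (filter_subset _ _))) ?_ (fun d _ => by positivity)
    (fun d _ => hM d)
  intro w hw
  rw [mem_filter] at hw
  exact Nat.mem_divisors.2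
    ⟨(centre_dvd_lcm h hv hw.1 (hRel v hv w hw.1 hw.2)).2.2, (centre_pos h).ne'⟩

/-- One-sided sum over `V`, grouped by `b`. -/
theorem G2_by_down (h : FinState P S U V W i j) (Rel : ℕ → ℕ → Prop)
    (hRel : ∀ v ∈ V, ∀ w ∈ W, Rel v w → NoCoDev U k v w) {w : ℕ} (hw : w ∈ W) (M : ℝ)
    (hM0 : 0 ≤ M)
    (hM : ∀ d : ℕ, ∑ a ∈ ((V.filter (fun v => Rel v w)).filter
        (fun v => downDev U k v = d)).image (upDev U k),
        ((upDev U k w : ℝ) / a) ^ tT / upDev U k w ≤ M) :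
    ∑ v ∈ V.filter (fun v => Rel v w),
      (Nat.totient (centre U k) : ℝ) / centre U k / Nat.totient (downDev U k v) *
        (((upDev U k w : ℝ) / upDev U k v) ^ tT / upDev U k w) ≤ cBase * M := by
  refine le_trans ?_ (mul_le_mul_of_nonneg_right (centre_sum_T2_le (centre_pos (k := k) h)) hM0)
  refine sum_pairs_le (up := upDev U k) (down := downDev U k)
    (u := fun d => (Nat.totient (centre U k) : ℝ) / centre U k / Nat.totient d)
    (f := fun c => ((upDev U k w : ℝ) / c) ^ tT / upDev U k w)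
    ((dev_injOn h).1.mono (coe_subset.2 (filter_subset _ _))) ?_ (fun d _ => by positivity)
    (fun d _ => hM d)
  intro v hv
  rw [mem_filter] at hv
  exact Nat.mem_divisors.2
    ⟨(centre_dvd_lcm h hv.1 hw (hRel v hv.1 w hw hv.2)).2.1, (centre_pos h).ne'⟩

theorem G1_base (h : FinState P S U V W i j) (Rel : ℕ → ℕ → Prop)
    (hRel : ∀ v ∈ V, ∀ w ∈ W, Rel v w → NoCoDev U k v w ∧ upDev U k w ≤ upDev U k v)
    {v : ℕ} (hv : v ∈ V) :
    ∑ w ∈ W.filter (fun w => Rel v w),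
      (Nat.totient (centre U k) : ℝ) / centre U k / Nat.totient (downDev U k w) *
        (((upDev U k v : ℝ) / upDev U k w) ^ sT / upDev U k v) ≤ cBase * cBase := by
  refine G1_by_down h Rel (fun v hv w hw hr => (hRel v hv w hw hr).1) hv cBase
    (zero_le_one.trans one_le_cBase) (fun d => ratio_s_le (upPos h v) _ fun c hc => ?_)
  simp only [mem_image, mem_filter] at hc
  obtain ⟨w, ⟨⟨hw, hr⟩, -⟩, rfl⟩ := hc
  exact ⟨upPos h w, (hRel v hv w hw hr).2⟩

theorem G2_base (h : FinState P S U V W i j) (Rel : ℕ → ℕ → Prop)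
    (hRel : ∀ v ∈ V, ∀ w ∈ W, Rel v w → NoCoDev U k v w ∧ upDev U k w ≤ upDev U k v)
    {w : ℕ} (hw : w ∈ W) :
    ∑ v ∈ V.filter (fun v => Rel v w),
      (Nat.totient (centre U k) : ℝ) / centre U k / Nat.totient (downDev U k v) *
        (((upDev U k w : ℝ) / upDev U k v) ^ tT / upDev U k w) ≤ cBase * cBase := by
  refine G2_by_down h Rel (fun v hv w hw hr => (hRel v hv w hw hr).1) hw cBase
    (zero_le_one.trans one_le_cBase) (fun d => ratio_t_le (upPos h w) _ fun c hc => ?_)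
  simp only [mem_image, mem_filter] at hc
  obtain ⟨v, ⟨⟨hv, hr⟩, -⟩, rfl⟩ := hc
  exact (hRel v hv w hw hr).2

theorem one_le_spare_T2 (h : FinState P S U V W i j) :
    1 ≤ (fixedPart (P \ U) i j : ℝ) ^ (aOne - betaT) *
      (fixedPart (P \ U) j i : ℝ) ^ (aTwo - betaT) :=
  one_le_mul_of_one_le_of_one_le
    (Real.one_le_rpow (by exact_mod_cast q1_pos h) (by norm_num [aOne, betaT]))
    (Real.one_le_rpow (by exact_mod_cast r1_pos h) (by norm_num [aTwo, betaT]))

theorem rpow_gain (hx : 0 < x) (hx1 : x ≤ 1) {e : ℝ} (he : 1 + gainC ≤ e) :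
    x ^ e ≤ x ^ (1 + gainC) :=
  Real.rpow_le_rpow_of_exponent_ge hx hx1 he

theorem two_mul_rpow_le (hx : 0 < x) :
    (2 * x) ^ aOne * (2 * x) ^ aTwo ≤ 2 * x ^ (aOne + aTwo) := by
  rw [← Real.rpow_add (by positivity), Real.mul_rpow (by norm_num) hx.le]
  exact mul_le_mul_of_nonneg_right
    (Real.rpow_le_self_of_one_le (by norm_num) (by norm_num [aOne, aTwo])) (by positivity)

theorem base_mul_le :
    (cBase * cBase) ^ aOne * (cBase * cBase) ^ aTwo ≤ cBase * cBase * cMinor := by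
  have h1 : 1 ≤ cBase * cBase := one_le_mul_of_one_le_of_one_le one_le_cBase one_le_cBase
  rw [← Real.rpow_add (by linarith)]
  exact (Real.rpow_le_self_of_one_le h1 (by norm_num [aOne, aTwo])).trans
    (le_mul_of_one_le_right (by linarith) one_le_cMinor)

/-- The states with large fixed parts. -/
theorem spare_state_le (h : FinState P S U V W i j) (hψ : ∀ q, 0 ≤ ψ q) (hx : 0 < x) (hx1 : x ≤ 1)
    (Rel : ℕ → ℕ → Prop) (hRel : ∀ v ∈ V, ∀ w ∈ W, Rel v w → BaseT γ ψ x U k v w)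
    (hQR : x ^ (-(2 + kapC)) <
      (fixedPart (P \ U) i j : ℝ) * (fixedPart (P \ U) j i : ℝ)) :
    pairSum ψ V W Rel ≤ cClass * x ^ (1 + gainC) *
      stateT ψ S V W (fixedPart (P \ U) i j) (fixedPart (P \ U) j i) := by
  have hB : (0 : ℝ) ≤ cBase * cBase := mul_self_nonneg _
  refine class_bound (x1 := 2 * x) (x2 := 2 * x) h hψ Rel (by positivity) (by positivity)
    (fun v hv w hw hr => ⟨(hRel v hv w hw hr).1, (hRel v hv w hw hr).caps.1,
      (hRel v hv w hw hr).caps.2, (hRel v hv w hw hr).2.1⟩) hB hB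
    (fun v hv => G1_base h Rel (fun v hv w hw hr => ⟨(hRel v hv w hw hr).1,
      (hRel v hv w hw hr).2.1⟩) hv)
    (fun w hw => G2_base h Rel (fun v hv w hw hr => ⟨(hRel v hv w hw hr).1,
      (hRel v hv w hw hr).2.1⟩) hw) ?_
  set Q : ℝ := (fixedPart (P \ U) i j : ℝ) with hQdef
  set R : ℝ := (fixedPart (P \ U) j i : ℝ) with hRdef
  have hQ : 1 ≤ Q := by rw [hQdef]; exact_mod_cast q1_pos h
  have hR : 1 ≤ R := by rw [hRdef]; exact_mod_cast r1_pos h
  have hs : x ^ (-(2 + kapC) * (aTwo - betaT)) ≤ Q ^ (aOne - betaT) * R ^ (aTwo - betaT) := by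
    rw [Real.rpow_mul hx.le]
    refine (Real.rpow_le_rpow (by positivity) hQR.le (by norm_num [aTwo, betaT])).trans ?_
    rw [Real.mul_rpow (by linarith) (by linarith)]
    exact mul_le_mul_of_nonneg_right
      (Real.rpow_le_rpow_of_exponent_le hQ (by norm_num [aOne, aTwo])) (by positivity)
  have hk : x ^ (aOne + aTwo) ≤ x ^ (1 + gainC) * x ^ (-(2 + kapC) * (aTwo - betaT)) := by
    rw [← Real.rpow_add hx]
    exact Real.rpow_le_rpow_of_exponent_ge hx hx1
      (by norm_num [aOne, aTwo, betaT, gainC, kapC])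
  calc (2 * x) ^ aOne * (2 * x) ^ aTwo * ((cBase * cBase) ^ aOne * (cBase * cBase) ^ aTwo)
      ≤ 2 * (x ^ (1 + gainC) * (Q ^ (aOne - betaT) * R ^ (aTwo - betaT))) *
          (cBase * cBase * cMinor) := by
        refine mul_le_mul ((two_mul_rpow_le hx).trans ?_) base_mul_le (by positivity)
          (by positivity)
        refine mul_le_mul_of_nonneg_left (hk.trans ?_) (by norm_num)
        exact mul_le_mul_of_nonneg_left hs (by positivity)
    _ = _ := by rw [cClass]; ring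

/-- The pairs with slack in a radius. -/
theorem slack_state_le (h : FinState P S U V W i j) (hψ : ∀ q, 0 ≤ ψ q) (hx : 0 < x) (hx1 : x ≤ 1)
    (Rel : ℕ → ℕ → Prop) (hRel : ∀ v ∈ V, ∀ w ∈ W, Rel v w → BaseT γ ψ x U k v w)
    (hslack : (∀ v ∈ V, ∀ w ∈ W, Rel v w → ψ w * (qd v w : ℝ) ≤ x ^ (1 + slackC)) ∨
      ∀ v ∈ V, ∀ w ∈ W, Rel v w → ψ v * (qd w v : ℝ) ≤ x ^ (1 + slackC)) :
    pairSum ψ V W Rel ≤ cClass * x ^ (1 + gainC) *
      stateT ψ S V W (fixedPart (P \ U) i j) (fixedPart (P \ U) j i) := by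
  have hB : (0 : ℝ) ≤ cBase * cBase := mul_self_nonneg _
  have hg := rpow_gain (e := (1 + slackC) * aTwo + aOne) hx hx1
    (by norm_num [slackC, aOne, aTwo, gainC])
  have hg' := rpow_gain (e := (1 + slackC) * aOne + aTwo) hx hx1
    (by norm_num [slackC, aOne, aTwo, gainC])
  have h2 : ∀ e : ℝ, 0 ≤ e → e ≤ 1 → (2 * x) ^ e ≤ 2 * x ^ e := fun e he he1 => by
    rw [Real.mul_rpow (by norm_num) hx.le]
    exact mul_le_mul_of_nonneg_right (Real.rpow_le_self_of_one_le (by norm_num) he1)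
      (by positivity)
  have hb : ∀ (x1 x2 : ℝ), x1 ^ aOne * x2 ^ aTwo ≤ 2 * x ^ (1 + gainC) →
      x1 ^ aOne * x2 ^ aTwo * ((cBase * cBase) ^ aOne * (cBase * cBase) ^ aTwo) ≤
        cClass * x ^ (1 + gainC) * ((fixedPart (P \ U) i j : ℝ) ^ (aOne - betaT) *
          (fixedPart (P \ U) j i : ℝ) ^ (aTwo - betaT)) := fun x1 x2 hxx => by
    refine le_trans ?_ (le_mul_of_one_le_right
      (mul_nonneg (zero_le_one.trans one_le_cClass) (by positivity)) (one_le_spare_T2 h))
    refine (mul_le_mul hxx base_mul_le (by positivity) (by positivity)).trans_eq ?_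
    rw [cClass]; ring
  have hRel' : ∀ v ∈ V, ∀ w ∈ W, Rel v w → NoCoDev U k v w ∧ upDev U k w ≤ upDev U k v :=
    fun v hv w hw hr => ⟨(hRel v hv w hw hr).1, (hRel v hv w hw hr).2.1⟩
  rcases hslack with hs | hs
  · refine class_bound (x1 := x ^ (1 + slackC)) (x2 := 2 * x) h hψ Rel (by positivity)
      (by positivity) (fun v hv w hw hr => ⟨(hRel v hv w hw hr).1, hs v hv w hw hr,
        (hRel v hv w hw hr).caps.2, (hRel v hv w hw hr).2.1⟩) hB hB
      (fun v hv => G1_base h Rel hRel' hv) (fun w hw => G2_base h Rel hRel' hw) (hb _ _ ?_)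
    rw [← Real.rpow_mul hx.le]
    calc x ^ ((1 + slackC) * aOne) * (2 * x) ^ aTwo
        ≤ x ^ ((1 + slackC) * aOne) * (2 * x ^ aTwo) :=
          mul_le_mul_of_nonneg_left (h2 _ (by norm_num [aTwo]) (by norm_num [aTwo]))
            (by positivity)
      _ = 2 * x ^ ((1 + slackC) * aOne + aTwo) := by rw [Real.rpow_add hx]; ring
      _ ≤ _ := mul_le_mul_of_nonneg_left hg' (by norm_num)
  · refine class_bound (x1 := 2 * x) (x2 := x ^ (1 + slackC)) h hψ Rel (by positivity)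
      (by positivity) (fun v hv w hw hr => ⟨(hRel v hv w hw hr).1,
        (hRel v hv w hw hr).caps.1, hs v hv w hw hr, (hRel v hv w hw hr).2.1⟩) hB hB
      (fun v hv => G1_base h Rel hRel' hv) (fun w hw => G2_base h Rel hRel' hw) (hb _ _ ?_)
    rw [← Real.rpow_mul hx.le]
    calc (2 * x) ^ aOne * x ^ ((1 + slackC) * aTwo)
        ≤ 2 * x ^ aOne * x ^ ((1 + slackC) * aTwo) :=
          mul_le_mul_of_nonneg_right (h2 _ (by norm_num [aOne]) (by norm_num [aOne]))
            (by positivity)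
      _ = 2 * x ^ ((1 + slackC) * aTwo + aOne) := by rw [Real.rpow_add hx]; ring
      _ ≤ _ := mul_le_mul_of_nonneg_left hg (by norm_num)

/-- A class in which one one-sided sum gains `x ^ (σ / 2)`. -/
theorem gain_state_le (h : FinState P S U V W i j) (hψ : ∀ q, 0 ≤ ψ q) (hx : 0 < x) (hx1 : x ≤ 1)
    (Rel : ℕ → ℕ → Prop) (hRel : ∀ v ∈ V, ∀ w ∈ W, Rel v w → BaseT γ ψ x U k v w)
    {M : ℝ} (hM : 1 ≤ M)
    (hG : (∀ v ∈ V, ∑ w ∈ W.filter (fun w => Rel v w),
        (Nat.totient (centre U k) : ℝ) / centre U k / Nat.totient (downDev U k w) *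
          (((upDev U k v : ℝ) / upDev U k w) ^ sT / upDev U k v) ≤
          cBase * cMinor * M * x ^ (sigC / 2)) ∨
      ∀ w ∈ W, ∑ v ∈ V.filter (fun v => Rel v w),
        (Nat.totient (centre U k) : ℝ) / centre U k / Nat.totient (downDev U k v) *
          (((upDev U k w : ℝ) / upDev U k v) ^ tT / upDev U k w) ≤
          cBase * cMinor * M * x ^ (sigC / 2)) :
    pairSum ψ V W Rel ≤ cClass * M * x ^ (1 + gainC) *
      stateT ψ S V W (fixedPart (P \ U) i j) (fixedPart (P \ U) j i) := by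
  set K : ℝ := cBase * cBase * cMinor * M with hK
  set u : ℝ := x ^ (sigC / 2) with hu
  have hu0 : 0 < u := Real.rpow_pos_of_pos hx _
  have hcb := one_le_cBase
  have hcm := one_le_cMinor
  have hKB : cBase * cBase ≤ K := by
    rw [hK, mul_assoc (cBase * cBase)]
    exact le_mul_of_one_le_right (by positivity) (one_le_mul_of_one_le_of_one_le hcm hM)
  have hK1 : 1 ≤ K := (one_le_mul_of_one_le_of_one_le hcb hcb).trans hKB
  have hKm : cBase * cMinor * M * u ≤ K * u := by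
    refine mul_le_mul_of_nonneg_right ?_ hu0.le
    rw [hK]
    refine mul_le_mul_of_nonneg_right ?_ (by linarith)
    exact mul_le_mul_of_nonneg_right (le_mul_of_one_le_left (by linarith) hcb) (by linarith)
  have hpow : ∀ e : ℝ, x ^ (aOne + aTwo) * u ^ e = x ^ (aOne + aTwo + sigC / 2 * e) :=
    fun e => by rw [hu, ← Real.rpow_mul hx.le, ← Real.rpow_add hx]
  have hb : ∀ e : ℝ, 1 + gainC ≤ aOne + aTwo + sigC / 2 * e →
      (2 * x) ^ aOne * (2 * x) ^ aTwo * (K ^ aOne * K ^ aTwo * u ^ e) ≤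
        cClass * M * x ^ (1 + gainC) * ((fixedPart (P \ U) i j : ℝ) ^ (aOne - betaT) *
          (fixedPart (P \ U) j i : ℝ) ^ (aTwo - betaT)) := fun e he => by
    refine le_trans ?_ (le_mul_of_one_le_right
      (mul_nonneg (mul_nonneg (zero_le_one.trans one_le_cClass) (by linarith)) (by positivity))
      (one_le_spare_T2 h))
    calc (2 * x) ^ aOne * (2 * x) ^ aTwo * (K ^ aOne * K ^ aTwo * u ^ e)
        ≤ 2 * x ^ (aOne + aTwo) * (K * u ^ e) := by
          refine mul_le_mul (two_mul_rpow_le hx) ?_ (by positivity) (by positivity)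
          refine mul_le_mul_of_nonneg_right ?_ (by positivity)
          rw [← Real.rpow_add (by linarith)]
          exact Real.rpow_le_self_of_one_le hK1 (by norm_num [aOne, aTwo])
      _ = 2 * K * x ^ (aOne + aTwo + sigC / 2 * e) := by rw [← hpow]; ring
      _ ≤ 2 * K * x ^ (1 + gainC) :=
          mul_le_mul_of_nonneg_left (rpow_gain hx hx1 he) (by positivity)
      _ = _ := by rw [hK, cClass]; ring
  have hRel' : ∀ v ∈ V, ∀ w ∈ W, Rel v w → NoCoDev U k v w ∧ upDev U k w ≤ upDev U k v :=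
    fun v hv w hw hr => ⟨(hRel v hv w hw hr).1, (hRel v hv w hw hr).2.1⟩
  have hcaps : ∀ v ∈ V, ∀ w ∈ W, Rel v w → NoCoDev U k v w ∧ ψ w * (qd v w : ℝ) ≤ 2 * x ∧
      ψ v * (qd w v : ℝ) ≤ 2 * x ∧ upDev U k w ≤ upDev U k v :=
    fun v hv w hw hr => ⟨(hRel v hv w hw hr).1, (hRel v hv w hw hr).caps.1,
      (hRel v hv w hw hr).caps.2, (hRel v hv w hw hr).2.1⟩
  rcases hG with hG1 | hG2
  · refine class_bound (x1 := 2 * x) (x2 := 2 * x) h hψ Rel (by positivity) (by positivity)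
      hcaps (by positivity) (by positivity) (fun v hv => (hG1 v hv).trans hKm)
      (fun w hw => (G2_base h Rel hRel' hw).trans hKB) ?_
    refine le_of_eq_of_le ?_ (hb aOne (by norm_num [aOne, aTwo, gainC, sigC]))
    rw [Real.mul_rpow (by linarith) hu0.le]
    ring
  · refine class_bound (x1 := 2 * x) (x2 := 2 * x) h hψ Rel (by positivity) (by positivity)
      hcaps (by positivity) (by positivity) (fun v hv => (G1_base h Rel hRel' hv).trans hKB)
      (fun w hw => (hG2 w hw).trans hKm) ?_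
    refine le_of_eq_of_le ?_ (hb aTwo (by norm_num [aOne, aTwo, gainC, sigC]))
    rw [Real.mul_rpow (by linarith) hu0.le]
    ring

end State

end Vale.Agent.P028.T2
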