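import Vale.Agent.P028.T2.Defs
import Vale.Agent.P028.BilinearAux

/-!
The ratio sums of the second stage.
-/

noncomputable section

namespace Vale.Agent.P028.T2

open Finset

/-- The ratio sums. -/
theorem exists_ratio_sums_T2 :
    ∃ C : ℝ, ∀ a : ℕ, 0 < a → ∀ T : Finset ℕ,
      ((∀ c ∈ T, 1 ≤ c ∧ c ≤ a) → ∑ c ∈ T, ((a : ℝ) / c) ^ sT / a ≤ C) ∧
      ((∀ c ∈ T, a ≤ c) → ∑ c ∈ T, ((a : ℝ) / c) ^ tT / a ≤ C) := by
  have hs0 : 0 < sT := by norm_num [sT]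
  have hs1 : sT < 1 := by norm_num [sT]
  have ht1 : 1 < tT := by norm_num [tT, sT, aOne, aTwo]
  refine ⟨max (1 / (1 - sT)) (1 + 1 / (tT - 1)), fun a ha T => ⟨fun hT => ?_, fun hT => ?_⟩⟩
  all_goals
    have ha' : (0 : ℝ) < a := Nat.cast_pos.2 ha
    rw [← Finset.sum_div, div_le_iff₀ ha']
  · refine (BilinearAux.sum_small_le hs0 hs1 ha' T
      fun c hc => ⟨(hT c hc).1, Nat.cast_le.2 (hT c hc).2⟩).trans ?_
    rw [div_eq_mul_one_div, mul_comm]
    exact mul_le_mul_of_nonneg_right (le_max_left _ _) ha'.le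
  · refine (BilinearAux.sum_tail_le ht1 ha' T
      fun c hc => ⟨le_trans ha (hT c hc), Nat.cast_le.2 (hT c hc)⟩).trans ?_
    exact mul_le_mul_of_nonneg_right (le_max_right _ _) ha'.le

end Vale.Agent.P028.T2
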