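import Vale.Agent.P028.T2.Defs
import Vale.Agent.P028.Bilinear

/-!
The splitting for a symmetric relation with the exponents of the second stage.
-/

noncomputable section

namespace Vale.Agent.P028.T2

open Finset
open scoped Classical

theorem stateSplit_hexp : (1 : ℝ) < 2 * thetaT * (betaT / (1 - thetaT)) := by
  norm_num [thetaT, betaT]

theorem mass_rpow_T2_le {μ : ℝ} (hμ : 0 ≤ μ) :
    μ ^ (aOne - aTwo + 2 * thetaT) ≤ μ + μ ^ 2 := by
  rcases le_total μ 1 with h1 | h1
  · refine (Real.rpow_le_rpow_of_exponent_ge' hμ h1 zero_le_one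
      (by norm_num [aOne, aTwo, thetaT])).trans ?_
    rw [Real.rpow_one]
    exact le_add_of_nonneg_right (sq_nonneg μ)
  · refine (Real.rpow_le_rpow_of_exponent_le h1
      (show aOne - aTwo + 2 * thetaT ≤ 2 by norm_num [aOne, aTwo, thetaT])).trans ?_
    rw [Real.rpow_two]
    exact le_add_of_nonneg_left hμ

/-- The two orientations of a final state. -/
theorem finalBound_symm {ψ : ℕ → ℝ} {S : Finset ℕ} {R : ℕ → ℕ → Prop} {G : ℝ}
    (hS : ∀ q ∈ S, 0 < q) (hψ : ∀ q, 0 ≤ ψ q) (hR : ∀ v w, R v w → R w v)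
    (hstate : ∀ (P U V W : Finset ℕ) (i j k : ℕ → ℕ) (K : ℕ → ℕ → ℝ), FinState P S U V W i j →
      (∀ v w, 0 ≤ K v w) → (∀ v w, K v w ≤ 1) →
      (∀ v w, K v w ≠ 0 → R v w ∧ NoCoDev U k v w ∧ upDev U k w ≤ upDev U k v) →
      ∑ v ∈ V, ∑ w ∈ W, K v w * (wt ψ v * wt ψ w) ≤
        G * (mass ψ S ^ (aOne - aTwo) * (mass ψ V * mass ψ W) ^ thetaT) /
          ((fixedPart (P \ U) i j : ℝ) * (fixedPart (P \ U) j i : ℝ)) ^ betaT) :
    FinalBound thetaT betaT (2 * (G * mass ψ S ^ (aOne - aTwo))) (S.biUnion Nat.primeFactors) S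
      (wt ψ) (fun v w => if R v w then 1 else 0) := by
  intro U V W i j k hU hV hW hi hj K' hK'0 hK'le hK'supp
  set P := S.biUnion Nat.primeFactors with hP
  have h : FinState P S U V W i j :=
    ⟨fun p hp => by
        obtain ⟨q, _, hq⟩ := Finset.mem_biUnion.1 hp
        exact Nat.prime_of_mem_primeFactors hq,
      hS, fun q hq => Finset.subset_biUnion_of_mem Nat.primeFactors hq, hU, hV, hW, hi, hj⟩
  have hK1 : ∀ v w, K' v w ≤ 1 := fun v w =>
    (hK'le v w).trans (by simp only; split_ifs <;> norm_num)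
  have hrel : ∀ v w, K' v w ≠ 0 → R v w := fun v w hne => by
    by_contra hc
    have := hK'le v w
    simp only [if_neg hc] at this
    exact hne (le_antisymm this (hK'0 v w))
  have h1 := hstate P U V W i j k (fun v w => if upDev U k w ≤ upDev U k v then K' v w else 0) h
    (fun v w => by split_ifs; exacts [hK'0 v w, le_rfl])
    (fun v w => by split_ifs; exacts [hK1 v w, zero_le_one])
    (fun v w hne => by
      obtain ⟨hle, hne'⟩ := ite_ne_right_iff.1 hne
      exact ⟨hrel v w hne', hK'supp v w hne', hle⟩)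
  have h2 := hstate P U W V j i k (fun w v => if upDev U k v ≤ upDev U k w then K' v w else 0)
    h.symm (fun w v => by split_ifs; exacts [hK'0 v w, le_rfl])
    (fun w v => by split_ifs; exacts [hK1 v w, zero_le_one])
    (fun w v hne => by
      obtain ⟨hle, hne'⟩ := ite_ne_right_iff.1 hne
      exact ⟨hR v w (hrel v w hne'), fun p hp => (hK'supp v w hne' p hp).symm, hle⟩)
  rw [Finset.sum_comm, mul_comm (mass ψ W) (mass ψ V),
    mul_comm (fixedPart (P \ U) j i : ℝ)] at h2
  calc ∑ v ∈ V, ∑ w ∈ W, K' v w * (wt ψ v * wt ψ w)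
      ≤ ∑ v ∈ V, ∑ w ∈ W, ((if upDev U k w ≤ upDev U k v then K' v w else 0) *
            (wt ψ v * wt ψ w) + (if upDev U k v ≤ upDev U k w then K' v w else 0) *
            (wt ψ w * wt ψ v)) := by
        refine Finset.sum_le_sum fun v _ => Finset.sum_le_sum fun w _ => ?_
        have hp := mul_nonneg (hK'0 v w)
          (mul_nonneg (BilinearAux.wt_nonneg hψ v) (BilinearAux.wt_nonneg hψ w))
        rw [mul_comm (wt ψ w) (wt ψ v)]
        rcases le_total (upDev U k w) (upDev U k v) with hh | hh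
        · rw [if_pos hh]
          refine le_add_of_nonneg_right ?_
          split_ifs
          · exact hp
          · simp
        · rw [if_pos hh]
          refine le_add_of_nonneg_left ?_
          split_ifs
          · exact hp
          · simp
    _ ≤ _ := by
        simp only [Finset.sum_add_distrib]
        refine le_trans (add_le_add h1 h2) (le_of_eq ?_)
        simp only [mass]
        push_cast
        ring

/-- The splitting for a symmetric relation. -/
theorem exists_symm_split_le :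
    ∃ C : ℝ, ∀ (ψ : ℕ → ℝ) (S : Finset ℕ) (R : ℕ → ℕ → Prop) (G : ℝ),
      (∀ q ∈ S, 0 < q) → (∀ q, 0 ≤ ψ q) → (∀ v w, R v w → R w v) → 0 ≤ G →
      (∀ (P U V W : Finset ℕ) (i j k : ℕ → ℕ) (K : ℕ → ℕ → ℝ), FinState P S U V W i j →
        (∀ v w, 0 ≤ K v w) → (∀ v w, K v w ≤ 1) →
        (∀ v w, K v w ≠ 0 → R v w ∧ NoCoDev U k v w ∧ upDev U k w ≤ upDev U k v) →
        ∑ v ∈ V, ∑ w ∈ W, K v w * (wt ψ v * wt ψ w) ≤
          G * (mass ψ S ^ (aOne - aTwo) * (mass ψ V * mass ψ W) ^ thetaT) /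
            ((fixedPart (P \ U) i j : ℝ) * (fixedPart (P \ U) j i : ℝ)) ^ betaT) →
      ∑ v ∈ S, ∑ w ∈ S.filter (fun w => R v w), wt ψ v * wt ψ w ≤
        C * G * (mass ψ S + mass ψ S ^ 2) := by
  obtain ⟨Cr, hCr⟩ := exists_split_bound thetaT betaT (by norm_num [thetaT]) (by norm_num [thetaT])
    (by norm_num [betaT]) stateSplit_hexp
  refine ⟨2 * max Cr 0, fun ψ S R G hS hψ hR hG hstate => ?_⟩
  have hm := BilinearAux.mass_nonneg hψ S
  have hF := BilinearAux.wt_nonneg hψ
  have hb := hCr (S.biUnion Nat.primeFactors) S (wt ψ) (fun v w => if R v w then 1 else 0)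
    (2 * (G * mass ψ S ^ (aOne - aTwo)))
    (fun p hp => by
      obtain ⟨q, _, hq⟩ := Finset.mem_biUnion.1 hp
      exact Nat.prime_of_mem_primeFactors hq)
    (fun q hq => Finset.subset_biUnion_of_mem Nat.primeFactors hq) hF
    (fun v w => by split_ifs <;> norm_num) (by positivity) (finalBound_symm hS hψ hR hstate)
  have hms : ∑ v ∈ S, wt ψ v = mass ψ S := rfl
  rw [hms] at hb
  calc ∑ v ∈ S, ∑ w ∈ S.filter (fun w => R v w), wt ψ v * wt ψ w
      = ∑ v ∈ S, ∑ w ∈ S, (if R v w then (1 : ℝ) else 0) * (wt ψ v * wt ψ w) := by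
        refine Finset.sum_congr rfl fun v _ => ?_
        rw [Finset.sum_filter]
        exact Finset.sum_congr rfl fun w _ => by split_ifs <;> ring
    _ ≤ Cr * (2 * (G * mass ψ S ^ (aOne - aTwo))) * (mass ψ S * mass ψ S) ^ thetaT := hb
    _ ≤ max Cr 0 * (2 * (G * mass ψ S ^ (aOne - aTwo))) * (mass ψ S * mass ψ S) ^ thetaT := by
        gcongr
        exact le_max_left _ _
    _ = 2 * max Cr 0 * G * mass ψ S ^ (aOne - aTwo + 2 * thetaT) := by
        rw [Real.rpow_add' hm (by norm_num [aOne, aTwo, thetaT]), Real.mul_rpow hm hm,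
          ← Real.rpow_add' hm (by norm_num [thetaT]), ← two_mul]
        ring
    _ ≤ _ := mul_le_mul_of_nonneg_left (mass_rpow_T2_le hm) (by positivity)

end Vale.Agent.P028.T2
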